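import Vale.Agent.P250.PD

set_option maxSynthPendingDepth 3

namespace Vale.Agent.P250

open scoped ContDiff Topology ComplexConjugate
open Complex Set Filter Vale.Agent.P255

theorem aff_nsq (z : ℂ) : ((‖z‖ ^ 2 : ℝ) : ℂ) = conj z * z := by
  rw [Complex.conj_mul', ofReal_pow]

theorem aff_rad_cons (a : ℂ) (g : List ℂ) : rad (a :: g) = rr a * rad g := by
  simp [rad]

theorem aff_ainv (z₀ : ℂ) (x₀ : ℝ) {r : ℝ} (hr : r ≠ 0) (p : B2) :
    aff z₀ x₀ r (ainv z₀ x₀ r p) = p := by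
  have h : (r : ℂ) ≠ 0 := ofReal_ne_zero.2 hr
  refine Prod.ext ?_ ?_
  · simp only [aff, ainv]
    field_simp
    ring
  · simp only [aff, ainv, aff_nsq]
    field_simp
    ring

theorem ainv_aff (z₀ : ℂ) (x₀ : ℝ) {r : ℝ} (hr : r ≠ 0) (p : B2) :
    ainv z₀ x₀ r (aff z₀ x₀ r p) = p := by
  have h : (r : ℂ) ≠ 0 := ofReal_ne_zero.2 hr
  refine Prod.ext ?_ ?_
  · simp only [aff, ainv]
    field_simp
    ring
  · simp only [aff, ainv, aff_nsq]
    field_simp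
    ring

theorem dl_aff (z₀ : ℂ) (x₀ r : ℝ) (p : B2) : dl (aff z₀ x₀ r p) = r ^ 2 * dl p := by
  simp only [dl, aff, Complex.sq_norm, Complex.normSq_apply, ← ofReal_pow, add_im, add_re, mul_im,
    mul_re, ofReal_re, ofReal_im, I_re, I_im, conj_re, conj_im, re_ofNat, im_ofNat]
  ring

theorem dl_ainv (z₀ : ℂ) (x₀ : ℝ) {r : ℝ} (hr : r ≠ 0) (p : B2) :
    dl (ainv z₀ x₀ r p) = dl p / r ^ 2 := by
  have h := dl_aff z₀ x₀ r (ainv z₀ x₀ r p)
  rw [aff_ainv z₀ x₀ hr] at h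
  rw [h]
  field_simp

theorem aff_aff (z₀ z₁ : ℂ) (x₀ x₁ r s : ℝ) (p : B2) : aff z₀ x₀ r (aff z₁ x₁ s p) =
    aff (z₀ + r * z₁) (x₀ + r ^ 2 * x₁ - 2 * r * (conj z₀ * z₁).im) (r * s) p := by
  refine Prod.ext ?_ ?_
  · simp only [aff]
    push_cast
    ring
  · apply Complex.ext <;>
    simp only [aff, Complex.sq_norm, Complex.normSq_apply, ← ofReal_pow, add_im, add_re, mul_im,
      mul_re, ofReal_re, ofReal_im, I_re, I_im, conj_re, conj_im, re_ofNat, im_ofNat] <;> ring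

theorem ainv_aff' (z₀ z₁ : ℂ) (x₀ x₁ : ℝ) {r : ℝ} (hr : r ≠ 0) (s : ℝ) :
    ∃ (z₂ : ℂ) (x₂ : ℝ), ∀ p, ainv z₀ x₀ r (aff z₁ x₁ s p) = aff z₂ x₂ (s / r) p := by
  refine ⟨(z₁ - z₀) / r, (x₁ - x₀ + 2 * r * (conj z₀ * ((z₁ - z₀) / r)).im) / r ^ 2, fun p => ?_⟩
  have h : (r : ℂ) ≠ 0 := ofReal_ne_zero.2 hr
  rw [← ainv_aff z₀ x₀ hr (aff _ _ (s / r) p), aff_aff]
  congr 2
  · field_simp
    ring
  · field_simp
    ring
  · field_simp

theorem aff_ctr {p : B2} (hp : p ∈ HH) : aff p.1 p.2.re (Real.sqrt (dl p)) (0, I) = p := by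
  have h : (Real.sqrt (dl p)) ^ 2 = dl p := Real.sq_sqrt (le_of_lt hp)
  refine Prod.ext ?_ ?_
  · simp [aff]
  · simp only [aff, ← ofReal_pow, h]
    apply Complex.ext <;> simp only [dl, add_im, add_re, mul_im,
      mul_re, ofReal_re, ofReal_im, I_re, I_im, zero_re, zero_im] <;> ring

theorem diff_aff (z₀ : ℂ) (x₀ r : ℝ) : Differentiable ℂ (aff z₀ x₀ r) := by
  unfold aff
  fun_prop

theorem diff_ainv (z₀ : ℂ) (x₀ r : ℝ) : Differentiable ℂ (ainv z₀ x₀ r) := by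
  unfold ainv
  fun_prop

theorem rr_pos {a : ℂ} (ha : ‖a‖ < 1) : 0 < rr a := by
  exact Real.sqrt_pos.2 (by nlinarith [norm_nonneg a])

theorem rr_sq {a : ℂ} (ha : ‖a‖ < 1) : rr a ^ 2 = 1 - ‖a‖ ^ 2 := by
  exact Real.sq_sqrt (by nlinarith [norm_nonneg a])

theorem aff_net {a : ℂ} (ha : ‖a‖ < 1) : aff a 0 (rr a) (0, I) = (a, I) := by
  refine Prod.ext ?_ ?_
  · simp [aff]
  · simp only [aff, ← ofReal_pow, rr_sq ha]
    push_cast
    ring

theorem ainv_snd {a : ℂ} (ha : ‖a‖ < 1) (p : B2) : (ainv a 0 (rr a) p).2 - I =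
    (p.2 - I - 2 * I * conj a * (p.1 - a)) / (1 - ‖a‖ ^ 2 : ℝ) := by
  have h : ((1 - ‖a‖ ^ 2 : ℝ) : ℂ) ≠ 0 := ofReal_ne_zero.2 (by nlinarith [norm_nonneg a])
  simp only [ainv, ← ofReal_pow, rr_sq ha]
  rw [div_sub' h]
  congr 1
  rw [ofReal_sub, aff_nsq]
  push_cast
  ring

theorem ainv_disc {a : ℂ} (ha : ‖a‖ < 1) (z : ℂ) :
    (ainv a 0 (rr a) (z, I)).2 - I = kap a * (z - a) := by
  rw [ainv_snd ha, kap]
  ring

theorem Gam_append (g g' : List ℂ) (p : B2) : Gam (g ++ g') p = Gam g (Gam g' p) := by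
  induction g with
  | nil => rfl
  | cons a g ih => simp only [List.cons_append, Gam, ih]

theorem Gin_append (g g' : List ℂ) (p : B2) : Gin (g ++ g') p = Gin g' (Gin g p) := by
  induction g generalizing p with
  | nil => rfl
  | cons a g ih => simp only [List.cons_append, Gin, ih]

theorem rad_pos {g : List ℂ} (hg : ∀ a ∈ g, ‖a‖ < 1) : 0 < rad g := by
  induction g with
  | nil => simp [rad]
  | cons a g ih =>
    rw [aff_rad_cons]
    exact mul_pos (rr_pos (hg a (by simp))) (ih fun b hb => hg b (by simp [hb]))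

theorem Gin_Gam {g : List ℂ} (hg : ∀ a ∈ g, ‖a‖ < 1) (p : B2) : Gin g (Gam g p) = p := by
  induction g with
  | nil => rfl
  | cons a g ih =>
    rw [Gam, Gin, ainv_aff _ _ (rr_pos (hg a (by simp))).ne']
    exact ih fun b hb => hg b (by simp [hb])

theorem Gam_Gin {g : List ℂ} (hg : ∀ a ∈ g, ‖a‖ < 1) (p : B2) : Gam g (Gin g p) = p := by
  induction g generalizing p with
  | nil => rfl
  | cons a g ih =>
    rw [Gam, Gin, ih fun b hb => hg b (by simp [hb]), aff_ainv _ _ (rr_pos (hg a (by simp))).ne']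

theorem dl_Gam (g : List ℂ) (p : B2) : dl (Gam g p) = rad g ^ 2 * dl p := by
  induction g with
  | nil => simp [Gam, rad]
  | cons a g ih =>
    rw [Gam, dl_aff, ih, aff_rad_cons]
    ring

theorem dl_Gin {g : List ℂ} (hg : ∀ a ∈ g, ‖a‖ < 1) (p : B2) :
    dl (Gin g p) = dl p / rad g ^ 2 := by
  have h := dl_Gam g (Gin g p)
  have h2 := (rad_pos hg).ne'
  rw [Gam_Gin hg] at h
  rw [h]
  field_simp

theorem aff_Gam_eq (g : List ℂ) : ∃ (z₀ : ℂ) (x₀ : ℝ), ∀ p, Gam g p = aff z₀ x₀ (rad g) p := by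
  induction g with
  | nil => exact ⟨0, 0, fun p => by simp [Gam, rad, aff]⟩
  | cons a g ih =>
    obtain ⟨z₀, x₀, h⟩ := ih
    exact ⟨_, _, fun p => by rw [Gam, h, aff_aff, aff_rad_cons]⟩

theorem Gin_eq {g : List ℂ} (hg : ∀ a ∈ g, ‖a‖ < 1) :
    ∃ (z₀ : ℂ) (x₀ : ℝ), ∀ p, Gin g p = ainv z₀ x₀ (rad g) p := by
  obtain ⟨z₀, x₀, h⟩ := aff_Gam_eq g
  refine ⟨z₀, x₀, fun p => ?_⟩
  rw [← ainv_aff z₀ x₀ (rad_pos hg).ne' (Gin g p), ← h, Gam_Gin hg]

theorem diff_Gam (g : List ℂ) : Differentiable ℂ (Gam g) := by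
  induction g with
  | nil => exact differentiable_id
  | cons a g ih => exact (diff_aff a 0 (rr a)).comp ih

theorem diff_Gin (g : List ℂ) : Differentiable ℂ (Gin g) := by
  induction g with
  | nil => exact differentiable_id
  | cons a g ih => exact ih.comp (diff_ainv a 0 (rr a))

theorem HH_open : IsOpen HH := by
  refine isOpen_lt continuous_const ?_
  unfold dl
  fun_prop

theorem HH_convex : Convex ℝ HH := by
  intro p hp q hq s t hs ht hst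
  simp only [HH, dl, mem_setOf_eq] at hp hq ⊢
  have h1 : ‖(s • p + t • q).1‖ ≤ s * ‖p.1‖ + t * ‖q.1‖ := by
    refine (norm_add_le _ _).trans (le_of_eq ?_)
    rw [Prod.smul_fst, Prod.smul_fst, norm_smul, norm_smul, Real.norm_of_nonneg hs,
      Real.norm_of_nonneg ht]
  have h2 : (s • p + t • q).2.im = s * p.2.im + t * q.2.im := by simp
  have h3 : ‖(s • p + t • q).1‖ ^ 2 ≤ (s * ‖p.1‖ + t * ‖q.1‖) ^ 2 :=
    pow_le_pow_left₀ (norm_nonneg _) h1 2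
  have h4 : (s * ‖p.1‖ + t * ‖q.1‖) ^ 2 ≤ s * ‖p.1‖ ^ 2 + t * ‖q.1‖ ^ 2 := by
    obtain rfl : t = 1 - s := by linarith
    nlinarith [mul_nonneg (mul_nonneg hs ht) (sq_nonneg (‖p.1‖ - ‖q.1‖))]
  have h5 : 0 < s * (p.2.im - ‖p.1‖ ^ 2) + t * (q.2.im - ‖q.1‖ ^ 2) := by
    rcases hs.eq_or_lt with h | h
    · obtain rfl : t = 1 := by linarith
      rw [← h]
      linarith
    · have := mul_pos h hp
      have := mul_nonneg ht hq.le
      linarith
  rw [h2]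
  linarith

theorem dl_le_im (p : B2) : dl p ≤ p.2.im := by
  unfold dl
  nlinarith [sq_nonneg ‖p.1‖]

end Vale.Agent.P250
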