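import Vale.Agent.P250.PD

set_option maxSynthPendingDepth 3

namespace Vale.Agent.P250

open scoped ContDiff Topology ComplexConjugate
open Complex Set Filter Vale.Agent.P255

variable {C s₁ s₂ : ℝ} {T : T3} {U : T4}

theorem II_AlgCv (x : B2) : I • I • x = -x := by
  rw [smul_smul, I_mul_I, neg_one_smul]

theorem Ir_AlgCv (r : ℝ) (x : B2) : I • r • x = r • I • x := smul_comm _ _ _

theorem gam_add3_AlgCv (T : T3) (x y a b : B2) : gamF (fun a b c => T a b c) x y (a + b) =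
    gamF (fun a b c => T a b c) x y a + gamF (fun a b c => T a b c) x y b := by
  simp only [gamF, smul_add, map_add, ContinuousLinearMap.add_apply]
  ring

theorem gam_smul3_AlgCv (T : T3) (x y a : B2) (r : ℝ) : gamF (fun a b c => T a b c) x y (r • a) =
    r * gamF (fun a b c => T a b c) x y a := by
  simp only [gamF, Ir_AlgCv, map_smul, ContinuousLinearMap.smul_apply, smul_eq_mul]
  ring

theorem gam_add1_AlgCv (T : T3) (x x' y a : B2) : gamF (fun a b c => T a b c) (x + x') y a =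
    gamF (fun a b c => T a b c) x y a + gamF (fun a b c => T a b c) x' y a := by
  simp only [gamF, smul_add, map_add, ContinuousLinearMap.add_apply]
  ring

theorem gam_smul1_AlgCv (T : T3) (x y a : B2) (r : ℝ) : gamF (fun a b c => T a b c) (r • x) y a =
    r * gamF (fun a b c => T a b c) x y a := by
  simp only [gamF, Ir_AlgCv, map_smul, ContinuousLinearMap.smul_apply, smul_eq_mul]
  ring

theorem gam_neg3_AlgCv (T : T3) (x y a : B2) : gamF (fun a b c => T a b c) x y (-a) =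
    -gamF (fun a b c => T a b c) x y a := by
  rw [← neg_one_smul ℝ a, gam_smul3_AlgCv, neg_one_mul]

theorem gam_I_AlgCv (h : JB C s₁ s₂ T U) (x y z : B2) : gamF (fun a b c => T a b c) (I • x) y z =
    -gamF (fun a b c => T a b c) x y (I • z) := by
  simp only [gamF, II_AlgCv, map_neg, ContinuousLinearMap.neg_apply]
  have e1 : T (I • x) y z = T y (I • x) z := h.t12 _ _ _
  have e2 : T (I • x) (I • y) (I • z) = T (I • z) (I • x) (I • y) := by rw [h.t23, h.t12]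
  have e3 : T y x (I • z) = T x y (I • z) := h.t12 _ _ _
  have e4 : T z x (I • y) = T x (I • y) z := by rw [h.t12, h.t23]
  rw [e1, e2, e3, e4]
  ring

theorem gam_symm_AlgCv (h : JB C s₁ s₂ T U) (x y z : B2) : gamF (fun a b c => T a b c) x y z =
    gamF (fun a b c => T a b c) y x z := by
  simp only [gamF]
  have e1 : T x y z = T y x z := h.t12 _ _ _
  have e2 : T z (I • x) (I • y) = T z (I • y) (I • x) := h.t23 _ _ _
  rw [e1, e2]
  ring

theorem cv_spec (T : T3) (x y z : B2) :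
    (hq 1 1 (cv T x y) z).re = gamF (fun a b c => T a b c) x y z := by
  have e : z = z.1.re • ((1, 0) : B2) + z.1.im • ((I, 0) : B2) + z.2.re • ((0, 1) : B2)
      + z.2.im • ((0, I) : B2) := by
    ext <;> simp
  conv_rhs => rw [e]
  simp only [gam_add3_AlgCv, gam_smul3_AlgCv]
  simp only [hq, cv, add_re, add_im, mul_re, mul_im, conj_re, conj_im, ofReal_re, ofReal_im, I_re,
    I_im]
  ring

theorem cv_symm (h : JB C s₁ s₂ T U) (x y : B2) : cv T x y = cv T y x := by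
  simp only [cv, gam_symm_AlgCv h x y]

theorem cv_add (T : T3) (x x' y : B2) : cv T (x + x') y = cv T x y + cv T x' y := by
  simp only [cv, gam_add1_AlgCv, Prod.mk_add_mk]
  push_cast
  ext <;> simp only <;> ring

theorem cv_real_AlgCv (T : T3) (r : ℝ) (x y : B2) : cv T (r • x) y = (r : ℂ) • cv T x y := by
  simp only [cv, gam_smul1_AlgCv, Prod.smul_mk, smul_eq_mul]
  push_cast
  ext <;> simp only <;> ring

theorem cv_I_AlgCv (h : JB C s₁ s₂ T U) (x y : B2) : cv T (I • x) y = I • cv T x y := by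
  have e1 : I • ((1, 0) : B2) = (I, 0) := by simp
  have e2 : I • ((I, 0) : B2) = -(1, 0) := by simp
  have e3 : I • ((0, 1) : B2) = (0, I) := by simp
  have e4 : I • ((0, I) : B2) = -(0, 1) := by simp
  simp only [cv, gam_I_AlgCv h, e1, e2, e3, e4, gam_neg3_AlgCv]
  simp only [Prod.smul_mk, smul_eq_mul]
  push_cast
  ext <;> simp only <;> linear_combination (exp := 1) (-_ : ℂ) * I_mul_I

theorem cv_smul (h : JB C s₁ s₂ T U) (c : ℂ) (x y : B2) : cv T (c • x) y = c • cv T x y := by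
  have e : c • x = c.re • x + c.im • I • x := by
    conv_lhs => rw [← re_add_im c]
    rw [add_smul, mul_smul, coe_smul, coe_smul]
  rw [e, cv_add, cv_real_AlgCv, cv_real_AlgCv, cv_I_AlgCv h, smul_smul, ← add_smul, re_add_im]

theorem gam_le_AlgCv (h : JB C s₁ s₂ T U) (x y z : B2) (hz : ‖z‖ = 1) :
    |gamF (fun a b c => T a b c) x y z| ≤ 2 * C * (‖x‖ * ‖y‖) := by
  have a1 := abs_le.1 (h.tb x y z)
  have a2 := abs_le.1 (h.tb x (I • y) (I • z))
  have a3 := abs_le.1 (h.tb y (I • x) (I • z))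
  have a4 := abs_le.1 (h.tb z (I • x) (I • y))
  simp only [norm_smul, norm_I, one_mul, hz, mul_one] at a1 a2 a3 a4
  simp only [gamF]
  rw [abs_le]
  constructor <;> linarith [a1.1, a1.2, a2.1, a2.2, a3.1, a3.2, a4.1, a4.2]

theorem cv_norm (h : JB C s₁ s₂ T U) (x y : B2) : ‖cv T x y‖ ≤ 4 * C * (‖x‖ * ‖y‖) := by
  have k : ∀ a b : ℝ, ‖(a : ℂ) + I * (b : ℂ)‖ ≤ |a| + |b| := fun a b =>
    (norm_add_le _ _).trans (by simp)
  have a1 := gam_le_AlgCv h x y (1, 0) (by simp)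
  have a2 := gam_le_AlgCv h x y (I, 0) (by simp)
  have a3 := gam_le_AlgCv h x y (0, 1) (by simp)
  have a4 := gam_le_AlgCv h x y (0, I) (by simp)
  rw [cv, Prod.norm_mk]
  exact max_le ((k _ _).trans (by linarith)) ((k _ _).trans (by linarith))

theorem Gm_eq (A u s₁ s₂ : ℝ) (X Y : C3) : Gm A u s₁ s₂ X Y =
    (hq (4 * A + 2 * u * s₁) (4 * A + 2 * u * s₂) X.1 Y.1).re
      + 4 * (u * (1 + u)) * (X.2 * conj Y.2).re := by
  obtain ⟨⟨x₁, x₂⟩, ξ⟩ := X
  obtain ⟨⟨y₁, y₂⟩, ζ⟩ := Y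
  simp only [Gm, P2, el, hq, Prod.smul_mk, smul_eq_mul, add_re, mul_re, mul_im, conj_re, conj_im,
    ofReal_re, ofReal_im, I_re, I_im]
  ring

theorem Gm_pos {A u : ℝ} (hA : 0 < A) (hu : 0 < u) (h₁ : 0 ≤ s₁) (h₂ : 0 ≤ s₂) {X : C3}
    (hX : X ≠ 0) : 0 < Gm A u s₁ s₂ X X := by
  have e : Gm A u s₁ s₂ X X = (4 * A + 2 * u * s₁) * normSq X.1.1
      + (4 * A + 2 * u * s₂) * normSq X.1.2 + 4 * (u * (1 + u)) * normSq X.2 := by
    rw [Gm_eq]
    simp only [hq, mul_conj, add_re, mul_re, ofReal_re, ofReal_im]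
    ring
  have p1 : 0 < 4 * A + 2 * u * s₁ := by positivity
  have p2 : 0 < 4 * A + 2 * u * s₂ := by positivity
  have p3 : 0 < 4 * (u * (1 + u)) := by positivity
  have n1 := mul_nonneg p1.le (normSq_nonneg X.1.1)
  have n2 := mul_nonneg p2.le (normSq_nonneg X.1.2)
  have n3 := mul_nonneg p3.le (normSq_nonneg X.2)
  rw [e]
  by_cases c1 : X.1.1 = 0
  · by_cases c2 : X.1.2 = 0
    · have c3 : X.2 ≠ 0 := fun c3 => hX (Prod.ext (Prod.ext c1 c2) c3)
      have := mul_pos p3 (normSq_pos.2 c3)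
      linarith
    · have := mul_pos p2 (normSq_pos.2 c2)
      linarith
  · have := mul_pos p1 (normSq_pos.2 c1)
    linarith

theorem hv_spec_AlgCv {A u : ℝ} (hA : 0 < A) (hu : 0 < u) (h₁ : 0 ≤ s₁) (h₂ : 0 ≤ s₂) (T : T3)
    (X Y Z : C3) : Gm A u s₁ s₂ (hv A u s₁ s₂ T X Y) Z = gamF (P3 u s₁ s₂ T) X Y Z := by
  have p1 : 0 < 4 * A + 2 * u * s₁ := by positivity
  have p2 : 0 < 4 * A + 2 * u * s₂ := by positivity
  have k : ∀ {G : ℝ}, 0 < G → ∀ a b : ℂ, (G : ℂ) * (a / G * b) = a * b := by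
    intro G hG a b
    have : (G : ℂ) ≠ 0 := by exact_mod_cast hG.ne'
    field_simp
  have l := cv_spec T X.1 Y.1 Z.1
  rw [Gm_eq]
  simp only [hq, hv] at l ⊢
  rw [k p1, k p2]
  obtain ⟨x, ξ⟩ := X
  obtain ⟨y, ζ⟩ := Y
  obtain ⟨z, θ⟩ := Z
  simp only [gamF, P3, el, Prod.smul_mk] at l ⊢
  generalize cv T x y = c at *
  generalize T x y z = T1 at *
  generalize T x (I • y) (I • z) = T2 at *
  generalize T y (I • x) (I • z) = T3 at *
  generalize T z (I • x) (I • y) = T4 at *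
  obtain ⟨x₁, x₂⟩ := x
  obtain ⟨y₁, y₂⟩ := y
  obtain ⟨z₁, z₂⟩ := z
  simp only [hq, Prod.smul_mk, smul_eq_mul, add_re, add_im, mul_re, mul_im, conj_re, conj_im,
    ofReal_re, ofReal_im, I_re, I_im, one_re, one_im, re_ofNat, im_ofNat] at l ⊢
  linear_combination u * l

theorem hv_eq {A u : ℝ} (hA : 0 < A) (hu : 0 < u) (h₁ : 0 ≤ s₁) (h₂ : 0 ≤ s₂) (T : T3)
    {X Y h : C3} (hh : ∀ Z, Gm A u s₁ s₂ h Z = gamF (P3 u s₁ s₂ T) X Y Z) :
    h = hv A u s₁ s₂ T X Y := by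
  by_contra hne
  have hp := Gm_pos hA hu h₁ h₂ (sub_ne_zero.2 hne)
  have e : ∀ a b Z : C3, Gm A u s₁ s₂ (a - b) Z = Gm A u s₁ s₂ a Z - Gm A u s₁ s₂ b Z := by
    intro a b Z
    simp only [Gm_eq, hq, Prod.fst_sub, Prod.snd_sub, add_re, mul_re, mul_im, sub_re, sub_im,
      ofReal_re, ofReal_im]
    ring
  rw [e, hh, hv_spec_AlgCv hA hu h₁ h₂, sub_self] at hp
  exact lt_irrefl _ hp

end Vale.Agent.P250
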