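import Vale.Agent.P250.AlgCv

set_option maxSynthPendingDepth 3

namespace Vale.Agent.P250

open scoped ContDiff Topology ComplexConjugate
open Complex Set Filter Vale.Agent.P255

variable {C s₁ s₂ : ℝ} {T : T3} {U : T4}

theorem AlgErr_addr (m₁ m₂ t : ℝ) (a b c : B2) :
    (hq m₁ m₂ a (b + t • c)).re = (hq m₁ m₂ a b).re + t * (hq m₁ m₂ a c).re := by
  simp only [hq, Prod.fst_add, Prod.snd_add, Prod.smul_fst, Prod.smul_snd, real_smul, add_re,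
    add_im, mul_re, mul_im, conj_re, conj_im, ofReal_re, ofReal_im]
  ring

theorem AlgErr_symm (m₁ m₂ : ℝ) (a b : B2) : (hq m₁ m₂ a b).re = (hq m₁ m₂ b a).re := by
  simp only [hq, add_re, mul_re, mul_im, conj_re, conj_im, ofReal_re, ofReal_im]
  ring

theorem AlgErr_addl (m₁ m₂ t : ℝ) (a b c : B2) :
    (hq m₁ m₂ (b + t • c) a).re = (hq m₁ m₂ b a).re + t * (hq m₁ m₂ c a).re := by
  rw [AlgErr_symm, AlgErr_addr, AlgErr_symm m₁ m₂ a b, AlgErr_symm m₁ m₂ a c]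

theorem AlgErr_self (v : B2) : (hq 1 1 v v).re = ‖v.1‖ ^ 2 + ‖v.2‖ ^ 2 := by
  simp only [hq, Complex.sq_norm, normSq_apply, add_re, mul_re, mul_im, conj_re, conj_im,
    ofReal_re, ofReal_im]
  ring

theorem AlgErr_norm (v : B2) : ‖v‖ ^ 2 ≤ (hq 1 1 v v).re := by
  rw [AlgErr_self, Prod.norm_def]
  rcases le_total ‖v.1‖ ‖v.2‖ with h | h
  · rw [max_eq_right h]
    nlinarith [sq_nonneg ‖v.1‖]
  · rw [max_eq_left h]
    nlinarith [sq_nonneg ‖v.2‖]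

theorem AlgErr_orth (x y : B2) : ∃ t : ℝ, ww 1 1 x y =
    (hq 1 1 x x).re * (hq 1 1 (y + t • x) (y + t • x)).re := by
  by_cases h0 : (hq 1 1 x x).re = 0
  · have h1 : x = 0 := by
      have h2 := AlgErr_norm x
      rw [h0] at h2
      exact norm_eq_zero.mp (pow_eq_zero_iff two_ne_zero |>.mp (le_antisymm h2 (sq_nonneg _)))
    refine ⟨0, ?_⟩
    subst h1
    simp [ww, hq]
  · refine ⟨-(hq 1 1 x y).re / (hq 1 1 x x).re, ?_⟩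
    rw [AlgErr_addl, AlgErr_addr, AlgErr_addr, ww, AlgErr_symm 1 1 y x]
    field_simp
    ring

theorem AlgErr_cvl (h : JB C s₁ s₂ T U) (t : ℝ) (x x' y : B2) :
    cv T (x + t • x') y = cv T x y + t • cv T x' y := by
  rw [cv_add, ← Complex.coe_smul, cv_smul h, Complex.coe_smul]

theorem AlgErr_cvr (h : JB C s₁ s₂ T U) (t : ℝ) (x y y' : B2) :
    cv T x (y + t • y') = cv T x y + t • cv T x y' := by
  rw [cv_symm h, AlgErr_cvl h, cv_symm h y, cv_symm h y']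

theorem AlgErr_q4 (h : JB C s₁ s₂ T U) (t : ℝ) (x y : B2) :
    q4 (fun a b c d => U a b c d) x (y + t • x) = q4 (fun a b c d => U a b c d) x y := by
  have e : I • (y + t • x) = I • y + t • I • x := by rw [smul_add, smul_comm]
  simp only [q4, e, map_add, map_smul, ContinuousLinearMap.add_apply,
    ContinuousLinearMap.smul_apply, smul_eq_mul]
  rw [h.q34 x x (I • y) (I • x), h.q12 y x (I • x) (I • x)]
  ring

theorem AlgErr_e13 {A u : ℝ} (h : JB C s₁ s₂ T U) (t : ℝ) (x y : B2) :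
    e13 A u s₁ s₂ T U x (y + t • x) = e13 A u s₁ s₂ T U x y := by
  simp only [e13, AlgErr_q4 h, AlgErr_cvl h, AlgErr_cvr h, AlgErr_addl, AlgErr_addr]
  rw [cv_symm h y x, AlgErr_symm _ _ (cv T x y) (cv T x x)]
  ring

theorem AlgErr_om (h : JB C s₁ s₂ T U) (m₁ m₂ t : ℝ) (v x y : B2) :
    om m₁ m₂ T v x (y + t • x) = om m₁ m₂ T v x y := by
  simp only [om, AlgErr_cvr h, AlgErr_addl, AlgErr_addr]
  ring

theorem AlgErr_abs {m₁ m₂ m : ℝ} (a₁ : 0 ≤ m₁) (b₁ : m₁ ≤ m) (a₂ : 0 ≤ m₂) (b₂ : m₂ ≤ m)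
    (a b : B2) : |(hq m₁ m₂ a b).re| ≤ m * (‖a‖ * (‖b.1‖ + ‖b.2‖)) := by
  refine (abs_re_le_norm _).trans ((norm_add_le _ _).trans ?_)
  simp only [norm_mul, Complex.norm_real, Complex.norm_conj, Real.norm_of_nonneg a₁,
    Real.norm_of_nonneg a₂]
  have e₁ : m₁ * (‖a.1‖ * ‖b.1‖) ≤ m * (‖a‖ * ‖b.1‖) :=
    mul_le_mul b₁ (mul_le_mul_of_nonneg_right (norm_fst_le a) (norm_nonneg _)) (by positivity)
      (a₁.trans b₁)
  have e₂ : m₂ * (‖a.2‖ * ‖b.2‖) ≤ m * (‖a‖ * ‖b.2‖) :=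
    mul_le_mul b₂ (mul_le_mul_of_nonneg_right (norm_snd_le a) (norm_nonneg _)) (by positivity)
      (a₁.trans b₁)
  linarith

theorem AlgErr_e13b {A u : ℝ} (hA : 0 < A) (hu : 0 < u) (h : JB C s₁ s₂ T U) (x y : B2) :
    |e13 A u s₁ s₂ T U x y| ≤ (2 * C + 16 * C ^ 2) * u * (‖x‖ ^ 2 * ‖y‖ ^ 2) := by
  have hC : 0 ≤ C := by linarith [h.l₁, h.u₁]
  have hI : ∀ z : B2, ‖I • z‖ = ‖z‖ := fun z => by rw [norm_smul, norm_I, one_mul]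
  have q₁ := abs_le.mp (h.qb x x (I • y) (I • y))
  have q₂ := abs_le.mp (h.qb y y (I • x) (I • x))
  have q₃ := abs_le.mp (h.qb x y (I • x) (I • y))
  simp only [hI] at q₁ q₂ q₃
  have hm : ∀ s : ℝ, 2 ≤ s → 0 ≤ 1 / (4 * A + 2 * u * s) ∧ 1 / (4 * A + 2 * u * s) ≤ 1 / (4 * u) := by
    intro s hs
    have hs' : 4 * u ≤ 4 * A + 2 * u * s := by nlinarith
    exact ⟨by have : 0 < 4 * A + 2 * u * s := by linarith
              positivity, one_div_le_one_div_of_le (by positivity) hs'⟩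
  have hb : ∀ a b : B2, u * |(hq (1 / (4 * A + 2 * u * s₁)) (1 / (4 * A + 2 * u * s₂)) a b).re| ≤
      ‖a‖ * ‖b‖ / 2 := by
    intro a b
    have e₁ := AlgErr_abs (hm s₁ h.l₁).1 (hm s₁ h.l₁).2 (hm s₂ h.l₂).1 (hm s₂ h.l₂).2 a b
    have e₂ : ‖a‖ * (‖b.1‖ + ‖b.2‖) ≤ ‖a‖ * (2 * ‖b‖) :=
      mul_le_mul_of_nonneg_left (by linarith [norm_fst_le b, norm_snd_le b]) (norm_nonneg _)
    have e₃ := mul_le_mul_of_nonneg_left e₁ hu.le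
    have e₄ : u * (1 / (4 * u) * (‖a‖ * (‖b.1‖ + ‖b.2‖))) = ‖a‖ * (‖b.1‖ + ‖b.2‖) / 4 := by
      field_simp
    rw [e₄] at e₃
    linarith
  have c₁ : ‖cv T x y‖ * ‖cv T x y‖ ≤ 16 * C ^ 2 * (‖x‖ ^ 2 * ‖y‖ ^ 2) :=
    (mul_le_mul (cv_norm h x y) (cv_norm h x y) (norm_nonneg _) (by positivity)).trans_eq (by ring)
  have c₂ : ‖cv T x x‖ * ‖cv T y y‖ ≤ 16 * C ^ 2 * (‖x‖ ^ 2 * ‖y‖ ^ 2) :=
    (mul_le_mul (cv_norm h x x) (cv_norm h y y) (norm_nonneg _) (by positivity)).trans_eq (by ring)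
  have d₁ := hb (cv T x y) (cv T x y)
  have d₂ := hb (cv T x x) (cv T y y)
  rw [← abs_of_pos hu, ← abs_mul, abs_of_pos hu] at d₁ d₂
  have d₃ := abs_le.mp (d₁.trans (div_le_div_of_nonneg_right c₁ two_pos.le))
  have d₄ := abs_le.mp (d₂.trans (div_le_div_of_nonneg_right c₂ two_pos.le))
  have key : ∀ Q H₁ H₂ N : ℝ, |Q| ≤ 4 * C * N → |u * H₁| ≤ 8 * C ^ 2 * N →
      |u * H₂| ≤ 8 * C ^ 2 * N →
      |1 / 2 * u * Q - u ^ 2 * (H₁ - H₂)| ≤ (2 * C + 16 * C ^ 2) * u * N := by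
    intro Q H₁ H₂ N k₁ k₂ k₃
    have e : 1 / 2 * u * Q - u ^ 2 * (H₁ - H₂) = u * (Q / 2 - u * H₁ + u * H₂) := by ring
    have e' : (2 * C + 16 * C ^ 2) * u * N = u * ((2 * C + 16 * C ^ 2) * N) := by ring
    rw [e, e', abs_mul, abs_of_pos hu]
    refine mul_le_mul_of_nonneg_left ?_ hu.le
    rw [abs_le] at k₁ k₂ k₃ ⊢
    constructor <;> linarith [k₁.1, k₁.2, k₂.1, k₂.2, k₃.1, k₃.2]
  refine key _ _ _ _ ?_ ?_ ?_
  · rw [abs_le, q4]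
    constructor <;> linarith [q₁.1, q₁.2, q₂.1, q₂.2, q₃.1, q₃.2]
  · rw [abs_le]
    constructor <;> linarith [d₃.1, d₃.2]
  · rw [abs_le]
    constructor <;> linarith [d₄.1, d₄.2]

theorem e13_le {A u : ℝ} (hA : 0 < A) (hu : 0 < u) (h : JB C s₁ s₂ T U) (x y : B2) :
    |e13 A u s₁ s₂ T U x y| ≤ (2 * C + 16 * C ^ 2) * u * ww 1 1 x y := by
  have hC : 0 ≤ C := by linarith [h.l₁, h.u₁]
  obtain ⟨t, ht⟩ := AlgErr_orth x y
  rw [← AlgErr_e13 h t, ht]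
  refine (AlgErr_e13b hA hu h _ _).trans (mul_le_mul_of_nonneg_left ?_ (by positivity))
  exact mul_le_mul (AlgErr_norm _) (AlgErr_norm _) (sq_nonneg _)
    ((sq_nonneg _).trans (AlgErr_norm _))

theorem AlgErr_sq (h : JB C s₁ s₂ T U) {m₁ m₂ : ℝ} (a₁ : 0 ≤ m₁) (b₁ : m₁ ≤ 1) (a₂ : 0 ≤ m₂)
    (b₂ : m₂ ≤ 1) (v x y : B2) : (hq m₁ m₂ (cv T v y) x).re ^ 2 ≤
      32 * C ^ 2 * (hq 1 1 v v).re * ((hq 1 1 x x).re * (hq 1 1 y y).re) := by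
  have hC : 0 ≤ C := by linarith [h.l₁, h.u₁]
  have e₁ := AlgErr_abs a₁ b₁ a₂ b₂ (cv T v y) x
  rw [one_mul] at e₁
  have e₂ := pow_le_pow_left₀ (abs_nonneg _) e₁ 2
  rw [sq_abs, mul_pow] at e₂
  have e₃ : ‖cv T v y‖ ^ 2 ≤ 16 * C ^ 2 * ((hq 1 1 v v).re * (hq 1 1 y y).re) := by
    refine (pow_le_pow_left₀ (norm_nonneg _) (cv_norm h v y) 2).trans ?_
    have e₄ := mul_le_mul (AlgErr_norm v) (AlgErr_norm y) (sq_nonneg _)
      ((sq_nonneg _).trans (AlgErr_norm _))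
    have e₅ := mul_le_mul_of_nonneg_left e₄ (by positivity : 0 ≤ 16 * C ^ 2)
    exact le_of_eq_of_le (by ring) e₅
  have e₆ : (‖x.1‖ + ‖x.2‖) ^ 2 ≤ 2 * (hq 1 1 x x).re := by
    rw [AlgErr_self]
    nlinarith [sq_nonneg (‖x.1‖ - ‖x.2‖)]
  refine e₂.trans ((mul_le_mul e₃ e₆ (sq_nonneg _) ((sq_nonneg _).trans e₃)).trans_eq ?_)
  ring

theorem om_le (h : JB C s₁ s₂ T U) {m₁ m₂ : ℝ} (a₁ : 0 ≤ m₁) (b₁ : m₁ ≤ 1) (a₂ : 0 ≤ m₂)
    (b₂ : m₂ ≤ 1) (v x y : B2) :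
    om m₁ m₂ T v x y ^ 2 ≤ 128 * C ^ 2 * (hq 1 1 v v).re * ww 1 1 x y := by
  obtain ⟨t, ht⟩ := AlgErr_orth x y
  rw [← AlgErr_om h m₁ m₂ t, ht, om]
  have e₁ := AlgErr_sq h a₁ b₁ a₂ b₂ v x (y + t • x)
  have e₂ := AlgErr_sq h a₁ b₁ a₂ b₂ v (y + t • x) x
  nlinarith [sq_nonneg ((hq m₁ m₂ (cv T v (y + t • x)) x).re +
    (hq m₁ m₂ (cv T v x) (y + t • x)).re)]

end Vale.Agent.P250
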