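import Vale.Agent.P250.PD

set_option maxSynthPendingDepth 3

namespace Vale.Agent.P250

open scoped ContDiff Topology ComplexConjugate
open Complex Set Filter Vale.Agent.P255

theorem brk_AlgFin {K u : ℝ} (hK : 1 ≤ K) (hu : 0 < u) :
    1 / (2 * (K + 1)) * (1 + u) ^ 2 ≤ 4 * (K ^ 2 * (K + 1)) - K * (1 + u)
      + 3 * (u / (K ^ 2 * (K + 1) + u)) * (1 + u) ^ 2 := by
  have hK0 : 0 < K := by linarith
  set A := K ^ 2 * (K + 1) with hA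
  have hA0 : 0 < A := by positivity
  have hk0 : 0 ≤ u / (A + u) := by positivity
  rcases le_total (1 + u) (2 * K * (K + 1)) with h | h
  · have h1 : K * (1 + u) ≤ 2 * A := by rw [hA]; nlinarith
    have h2 : (1 + u) ^ 2 ≤ (2 * K * (K + 1)) ^ 2 := by gcongr
    have h3 : 1 / (2 * (K + 1)) * (1 + u) ^ 2 ≤ 2 * A := by
      rw [one_div, inv_mul_le_iff₀ (by positivity), hA]
      nlinarith
    have h4 : 0 ≤ 3 * (u / (A + u)) * (1 + u) ^ 2 := by positivity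
    linarith
  · have h1 : K * (K + 1) ≤ u := by nlinarith
    have h2 : 1 / (K + 1) ≤ u / (A + u) := by
      rw [div_le_div_iff₀ (by positivity) (by positivity), hA]
      nlinarith
    have h3 : K ≤ 1 / (K + 1) * (1 + u) := by
      rw [one_div, le_inv_mul_iff₀ (by positivity)]
      nlinarith
    have h4 : 1 / (K + 1) * (1 + u) ^ 2 ≤ u / (A + u) * (1 + u) ^ 2 := by gcongr
    have h5 : K * (1 + u) ≤ 1 / (K + 1) * (1 + u) ^ 2 := by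
      have : K * (1 + u) ≤ 1 / (K + 1) * (1 + u) * (1 + u) := by gcongr
      linarith
    have h6 : 1 / (2 * (K + 1)) * (1 + u) ^ 2 = 1 / 2 * (1 / (K + 1) * (1 + u) ^ 2) := by
      field_simp
    have h7 : 0 ≤ 1 / (K + 1) * (1 + u) ^ 2 := by positivity
    linarith

theorem om_AlgFin {C u n W Ω : ℝ} (hu : 0 < u) (hW : 0 ≤ W) (hn : 0 ≤ n)
    (h : Ω ^ 2 ≤ 128 * C ^ 2 * n * W) :
    |2 * (u * (1 + u)) * Ω| ≤ u * (1 + u) ^ 2 * n + 128 * C ^ 2 * u * W := by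
  have h1 : |2 * (1 + u) * Ω| ≤ (1 + u) ^ 2 * n + 128 * C ^ 2 * W := by
    apply abs_le_of_sq_le_sq' _ (by positivity) |> abs_le.2
    have h2 : (1 + u) ^ 2 * Ω ^ 2 ≤ (1 + u) ^ 2 * (128 * C ^ 2 * n * W) := by gcongr
    nlinarith [sq_nonneg ((1 + u) ^ 2 * n - 128 * C ^ 2 * W)]
  have e : 2 * (u * (1 + u)) * Ω = u * (2 * (1 + u) * Ω) := by ring
  rw [e, abs_mul, abs_of_pos hu]
  have := mul_le_mul_of_nonneg_left h1 hu.le
  linarith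

theorem bb_AlgFin {u k D β : ℝ} (hu : 0 < u) (hk0 : 0 ≤ k) (hk1 : k ≤ 1) (hD : 0 ≤ D)
    (h : β ^ 2 ≤ ((1 + u) * (1 - k / 2) + 1 / 2) ^ 2 * D) :
    β ^ 2 ≤ 9 / 4 * (1 + u) ^ 2 * D ∧
      -3 * (1 + u) * D + 3 / 4 * k * (1 + u) ^ 2 * D ≤ u * (1 + u) * D - β ^ 2 := by
  have h0 : 0 ≤ (1 + u) * (1 - k / 2) + 1 / 2 := by
    have : 0 ≤ 1 - k / 2 := by linarith
    positivity
  constructor
  · have h1 : (1 + u) * (1 - k / 2) + 1 / 2 ≤ 3 / 2 * (1 + u) := by nlinarith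
    have h2 : ((1 + u) * (1 - k / 2) + 1 / 2) ^ 2 * D ≤ (3 / 2 * (1 + u)) ^ 2 * D := by gcongr
    linarith
  · have h1 : (1 - k / 2) ^ 2 ≤ 1 - 3 / 4 * k := by nlinarith
    have h2 : (1 + u) ^ 2 * (1 - k / 2) ^ 2 ≤ (1 + u) ^ 2 * (1 - 3 / 4 * k) := by gcongr
    have h3 : (1 + u) * (1 - k / 2) ≤ 1 + u := by nlinarith
    have h4 : ((1 + u) * (1 - k / 2) + 1 / 2) ^ 2 ≤
        u * (1 + u) + 3 * (1 + u) - 3 / 4 * k * (1 + u) ^ 2 := by nlinarith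
    have h5 := mul_le_mul_of_nonneg_right h4 hD
    linarith

theorem alg_fin {C : ℝ} (hC : 2 ≤ C) : ∃ A a b : ℝ, C ≤ A ∧ 0 < a ∧ a ≤ b ∧
    ∀ u W β₀ D βB n mB τ E Ω WG βG mG : ℝ, 0 < u → 0 ≤ W → 0 ≤ n → β₀ ^ 2 ≤ W → 4 * W ≤ D →
      D ≤ 4 * C ^ 2 * W → βB ^ 2 ≤ ((1 + u) * (1 - u / (A + u) / 2) + 1 / 2) ^ 2 * D →
      (1 + u) * n ≤ mB → mB ≤ (1 + 2 * u) * C * n → |E| ≤ (2 * C + 16 * C ^ 2) * u * W →
      Ω ^ 2 ≤ 128 * C ^ 2 * n * W → (4 * A + 4 * u) ^ 2 * W ≤ WG →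
      WG ≤ (4 * A + 2 * u * C) ^ 2 * W → βG ^ 2 ≤ WG → (4 * A + 4 * u) * n ≤ mG →
      mG ≤ (4 * A + 2 * u * C) * n → 2 * τ * βG ≤ u * (1 + u) * mG →
      a * (WG - βG ^ 2 + 4 * (u * (1 + u)) * mG + (4 * τ - βG) ^ 2) ≤
          4 * A * (W + 3 * β₀ ^ 2) + u * (1 + u) * D - βB ^ 2 + 2 * (u * (1 + u)) * mB
            + (4 * τ + βB) ^ 2 + E + 2 * (u * (1 + u)) * Ω ∧
        4 * A * (W + 3 * β₀ ^ 2) + u * (1 + u) * D - βB ^ 2 + 2 * (u * (1 + u)) * mB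
            + (4 * τ + βB) ^ 2 + E + 2 * (u * (1 + u)) * Ω ≤
          b * (WG - βG ^ 2 + 4 * (u * (1 + u)) * mG + (4 * τ - βG) ^ 2) := by
  have hC0 : 0 < C := by linarith
  have hC2 : 2 * C ≤ C ^ 2 := by nlinarith
  obtain ⟨K, hK⟩ : ∃ K, K = 157 * C ^ 2 := ⟨_, rfl⟩
  have hK1 : 1 ≤ K := by rw [hK]; nlinarith
  have hKC : C ≤ K := by rw [hK]; nlinarith
  obtain ⟨A, hA⟩ : ∃ A, A = K ^ 2 * (K + 1) := ⟨_, rfl⟩
  have hKA : K ≤ A := by rw [hA]; nlinarith [sq_nonneg K, mul_nonneg (sq_nonneg K) (by linarith : 0 ≤ K)]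
  have hA1 : 1 ≤ A := by linarith
  obtain ⟨c, hc⟩ : ∃ c, c = 1 / (2 * (K + 1)) := ⟨_, rfl⟩
  have hc0 : 0 < c := by rw [hc]; positivity
  have hc1 : c ≤ 1 := by
    rw [hc, div_le_one (by positivity)]; linarith
  obtain ⟨P, hP⟩ : ∃ P, P = 4 * A + 2 * C := ⟨_, rfl⟩
  have hP4 : 4 ≤ P := by linarith
  obtain ⟨Q, hQ⟩ : ∃ Q, Q = 2 * P ^ 2 + 36 * C ^ 2 := ⟨_, rfl⟩
  have hQP : 4 * P ≤ Q := by rw [hQ]; nlinarith
  have hQ0 : 0 < Q := by linarith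
  have ha0 : 0 < c / Q := by positivity
  have haQ : c / Q * Q = c := by field_simp
  have haP : c / Q * (4 * P) ≤ 1 := by
    have : c / Q * (4 * P) ≤ c / Q * Q := by gcongr
    linarith
  have ha4 : c / Q * 4 ≤ 1 := by
    have : c / Q * 4 ≤ c / Q * (4 * P) := by gcongr; linarith
    linarith
  refine ⟨A, c / Q, A + 10 * C ^ 2 + C + 2, by linarith, ha0, by nlinarith, ?_⟩
  generalize c / Q = a at *
  intro u W β₀ D βB n mB τ E Ω WG βG mG hu hW hn hβ₀ hD1 hD2 hβB hmB1 hmB2 hE hΩ hWG1 hWG2 hβG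
    hmG1 hmG2 hτ
  have hD0 : 0 ≤ D := by linarith
  have hbr := brk_AlgFin hK1 hu
  rw [← hA, ← hc] at hbr
  have hk0 : 0 ≤ u / (A + u) := by positivity
  have hk1 : u / (A + u) ≤ 1 := by rw [div_le_one (by positivity)]; linarith
  generalize u / (A + u) = k at *
  obtain ⟨hb1, hb2⟩ := bb_AlgFin hu hk0 hk1 hD0 hβB
  obtain ⟨ho1, ho2⟩ := abs_le.1 (om_AlgFin hu hW hn hΩ)
  obtain ⟨hE1, hE2⟩ := abs_le.1 hE
  have hE3 : (2 * C + 16 * C ^ 2) * u * W ≤ 17 * C ^ 2 * u * W := by gcongr; linarith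
  obtain ⟨p, hp⟩ : ∃ p, p = 1 + u := ⟨_, rfl⟩
  have hp1 : 1 ≤ p := by linarith
  have hup : u ≤ p := by linarith
  have hp0 : 0 < p := by linarith
  have hpp : p ≤ p ^ 2 := le_self_pow₀ hp1 (by norm_num)
  have hpp1 : 1 ≤ p ^ 2 := one_le_pow₀ hp1
  have hPp : 4 * A + 2 * u * C ≤ P * p := by
    have : 0 ≤ A * u := by positivity
    rw [hP, hp]; linarith
  have hpu : p - u = 1 := by linarith
  rw [← hp] at hβB hmB1 hτ hbr hb1 hb2 ho1 ho2 ⊢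
  obtain ⟨w, hw⟩ : ∃ w, w = p ^ 2 * W := ⟨_, rfl⟩
  obtain ⟨m, hm⟩ : ∃ m, m = u * p ^ 2 * n := ⟨_, rfl⟩
  have hw0 : 0 ≤ w := by rw [hw]; positivity
  have hm0 : 0 ≤ m := by rw [hm]; positivity
  have hβ9 : βB ^ 2 ≤ 9 * C ^ 2 * w := by
    have : 9 / 4 * p ^ 2 * D ≤ 9 / 4 * p ^ 2 * (4 * C ^ 2 * W) := by gcongr
    rw [hw]; linarith
  have hCu : C ^ 2 * u * W ≤ C ^ 2 * p * W := by gcongr
  have hCp : C ^ 2 * p * W ≤ C ^ 2 * w := by
    have : p * W ≤ p ^ 2 * W := by gcongr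
    have : C ^ 2 * (p * W) ≤ C ^ 2 * (p ^ 2 * W) := by gcongr
    rw [hw]; linarith
  constructor
  · have f1 : WG ≤ P ^ 2 * w := by
      have : (4 * A + 2 * u * C) ^ 2 * W ≤ (P * p) ^ 2 * W := by gcongr
      rw [hw]; linarith
    have f2 : 4 * (u * p) * mG ≤ 4 * P * m := by
      have : mG ≤ P * p * n := hmG2.trans (by gcongr)
      have : 4 * (u * p) * mG ≤ 4 * (u * p) * (P * p * n) := by gcongr
      rw [hm]; linarith
    have f3 : (4 * τ - βG) ^ 2 - βG ^ 2 ≤ WG + 4 * (4 * τ + βB) ^ 2 + 4 * βB ^ 2 := by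
      linarith [sq_nonneg (4 * τ + βG), sq_nonneg (4 * τ + 2 * βB)]
    have f4 : WG - βG ^ 2 + 4 * (u * p) * mG + (4 * τ - βG) ^ 2 ≤
        Q * w + 4 * P * m + 4 * (4 * τ + βB) ^ 2 := by
      rw [hQ]; linarith
    have f5 := mul_le_mul_of_nonneg_left f4 ha0.le
    have f6 : a * (4 * P) * m ≤ 1 * m := by gcongr
    have f7 : a * 4 * (4 * τ + βB) ^ 2 ≤ 1 * (4 * τ + βB) ^ 2 := by gcongr
    have f8 : a * (Q * w) = c * w := by rw [← haQ]; ring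
    have g1 : c * w ≤ 4 * A * W - 157 * (C ^ 2 * p * W) + 3 * (k * p ^ 2 * W) := by
      have := mul_le_mul_of_nonneg_right hbr hW
      rw [hw]; rw [hK] at this; linarith
    have g2 : p * D ≤ p * (4 * C ^ 2 * W) := by gcongr
    have g3 : k * p ^ 2 * (4 * W) ≤ k * p ^ 2 * D := by gcongr
    have g4 : 2 * (u * p) * (p * n) ≤ 2 * (u * p) * mB := by gcongr
    have g5 : 0 ≤ A * β₀ ^ 2 := by positivity
    rw [← hm] at ho1
    have g6 : 2 * (u * p) * (p * n) = 2 * m := by rw [hm]; ring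
    linarith
  · obtain ⟨S, hS⟩ : ∃ S, S = WG - βG ^ 2 + 4 * (u * p) * mG + (4 * τ - βG) ^ 2 := ⟨_, rfl⟩
    rw [← hS]
    have h4p : 4 * p ≤ 4 * A + 4 * u := by linarith
    have f1 : 16 * w ≤ WG := by
      have : (4 * p) ^ 2 * W ≤ (4 * A + 4 * u) ^ 2 * W := by gcongr
      rw [hw]; linarith
    have f2 : 16 * m ≤ S := by
      have : 4 * p * n ≤ mG := le_trans (by gcongr) hmG1
      have : 4 * (u * p) * (4 * p * n) ≤ 4 * (u * p) * mG := by gcongr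
      have := sq_nonneg (4 * τ - βG)
      rw [hm, hS]; linarith
    have f3 : WG + 16 * τ ^ 2 ≤ S := by rw [hS]; linarith
    have f4 : (4 * τ + βB) ^ 2 ≤ 32 * τ ^ 2 + 2 * βB ^ 2 := by
      linarith [sq_nonneg (4 * τ - βB)]
    have hτ2 := sq_nonneg τ
    have f5 : 16 * w ≤ S := by linarith
    have g1 : A * β₀ ^ 2 ≤ A * W := by gcongr
    have g2 : A * W ≤ A * w := by
      have : 1 * W ≤ p ^ 2 * W := by gcongr
      rw [hw]; gcongr; linarith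
    have g3 : u * p * D ≤ 4 * (C ^ 2 * w) := by
      have : u * p * D ≤ p * p * (4 * C ^ 2 * W) := by gcongr
      rw [hw]; linarith
    have g4 : 2 * (u * p) * mB ≤ 4 * (C * m) := by
      have : mB ≤ 2 * p * C * n := hmB2.trans (by gcongr; linarith)
      have : 2 * (u * p) * mB ≤ 2 * (u * p) * (2 * p * C * n) := by gcongr
      rw [hm]; linarith
    have g5 : A * (16 * w) ≤ A * S := by gcongr
    have g6 : C ^ 2 * (16 * w) ≤ C ^ 2 * S := by gcongr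
    have g7 : C * (16 * m) ≤ C * S := by gcongr
    have g8 : 2 * m ≤ C * m := by gcongr
    have g9 : 0 ≤ C * m := by positivity
    have g10 : 0 ≤ C ^ 2 * w := by positivity
    rw [← hm] at ho2
    linarith

end Vale.Agent.P250
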