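import Vale.Agent.P250.AlgCv

set_option maxSynthPendingDepth 3

namespace Vale.Agent.P250

open scoped ContDiff Topology ComplexConjugate
open Complex Set Filter Vale.Agent.P255

variable {C s₁ s₂ : ℝ} {T : T3} {U : T4}

theorem area_id (A u s₁ s₂ : ℝ) (X Y : C3) :
    Gm A u s₁ s₂ X X * Gm A u s₁ s₂ Y Y - Gm A u s₁ s₂ X Y ^ 2 =
      ww (4 * A + 2 * u * s₁) (4 * A + 2 * u * s₂) X.1 Y.1
        - (hq (4 * A + 2 * u * s₁) (4 * A + 2 * u * s₂) X.1 Y.1).im ^ 2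
        + 4 * (u * (1 + u)) * (hq (4 * A + 2 * u * s₁) (4 * A + 2 * u * s₂) (mu X Y) (mu X Y)).re
        + (4 * (u * (1 + u) * tau X Y)
          - (hq (4 * A + 2 * u * s₁) (4 * A + 2 * u * s₂) X.1 Y.1).im) ^ 2 := by
  simp only [Gm_eq]
  generalize 4 * A + 2 * u * s₁ = G₁
  generalize 4 * A + 2 * u * s₂ = G₂
  generalize u * (1 + u) = v
  obtain ⟨⟨x₁, x₂⟩, ξ⟩ := X
  obtain ⟨⟨y₁, y₂⟩, ζ⟩ := Y
  simp only [ww, hq, mu, tau, Prod.smul_mk, Prod.mk_sub_mk, smul_eq_mul, add_re, add_im, mul_re,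
    mul_im, sub_re, sub_im, conj_re, conj_im, ofReal_re, ofReal_im]
  ring

theorem div_conj_AlgId {G : ℝ} (hG : G ≠ 0) (a b : ℂ) :
    (G : ℂ) * (a / G * conj (b / G)) = ((1 / G : ℝ) : ℂ) * (a * conj b) := by
  have h : (G : ℂ) ≠ 0 := by exact_mod_cast hG
  rw [map_div₀, conj_ofReal]
  push_cast
  field_simp

theorem hv_Gm_AlgId {A u : ℝ} (h₁ : 4 * A + 2 * u * s₁ ≠ 0) (h₂ : 4 * A + 2 * u * s₂ ≠ 0)
    (T : T3) (X Y Z W : C3) :
    Gm A u s₁ s₂ (hv A u s₁ s₂ T X Y) (hv A u s₁ s₂ T Z W) =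
      (hq (1 / (4 * A + 2 * u * s₁)) (1 / (4 * A + 2 * u * s₂))
        (u * (cv T X.1 Y.1).1 + 2 * (u * (1 + u)) * s₁ * (Y.2 * X.1.1 + X.2 * Y.1.1),
          u * (cv T X.1 Y.1).2 + 2 * (u * (1 + u)) * s₂ * (Y.2 * X.1.2 + X.2 * Y.1.2))
        (u * (cv T Z.1 W.1).1 + 2 * (u * (1 + u)) * s₁ * (W.2 * Z.1.1 + Z.2 * W.1.1),
          u * (cv T Z.1 W.1).2 + 2 * (u * (1 + u)) * s₂ * (W.2 * Z.1.2 + Z.2 * W.1.2))).re
      + 4 * (u * (1 + u)) * ((1 + 2 * u) * (X.2 * Y.2) * conj ((1 + 2 * u) * (Z.2 * W.2))).re := by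
  rw [Gm_eq]
  simp only [hq, hv]
  rw [div_conj_AlgId h₁, div_conj_AlgId h₂]

theorem II_AlgId (x : B2) : I • I • x = -x := by
  rw [smul_smul, I_mul_I, neg_one_smul]

theorem lin1_AlgId (h : JB C s₁ s₂ T U) (x y : B2) :
    (hq 1 1 (cv T x y) y).re - (hq 1 1 (cv T y y) x).re =
      T x (I • y) (I • y) - T y (I • x) (I • y) := by
  rw [cv_spec, cv_spec]
  simp only [gamF]
  have e1 : T y y x = T x y y := by rw [h.t23, h.t12]
  have e2 : T y (I • y) (I • x) = T y (I • x) (I • y) := h.t23 _ _ _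
  rw [e1, e2]
  ring

theorem lin2_AlgId (h : JB C s₁ s₂ T U) (x y : B2) :
    (hq 1 1 (cv T x y) (I • y)).re - (hq 1 1 (cv T y y) (I • x)).re =
      T x y (I • y) - T y y (I • x) := by
  rw [cv_spec, cv_spec]
  simp only [gamF, II_AlgId, map_neg]
  have e1 : T x (I • y) y = T x y (I • y) := h.t23 _ _ _
  have e2 : T y (I • x) y = T y y (I • x) := h.t23 _ _ _
  have e3 : T (I • y) (I • x) (I • y) = T (I • x) (I • y) (I • y) := h.t12 _ _ _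
  have e4 : T y (I • y) x = T x y (I • y) := by rw [h.t23, h.t12]
  rw [e1, e2, e3, e4]
  ring

theorem cv_mu_AlgId (h : JB C s₁ s₂ T U) (X Y : C3) (z : B2) :
    cv T (mu X Y) z = conj Y.2 • cv T X.1 z - conj X.2 • cv T Y.1 z := by
  have e : mu X Y = conj Y.2 • X.1 + (-conj X.2) • Y.1 := by
    rw [mu, neg_smul, sub_eq_add_neg]
  rw [e, cv_add, cv_smul h, cv_smul h, neg_smul, sub_eq_add_neg]

theorem curv_id {A u : ℝ} (hA : 0 < A) (hu : 0 < u) (h : JB C s₁ s₂ T U) (X Y : C3) :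
    -(-(1 / 2) * q4 (P4 A u s₁ s₂ T U) X Y
        + Gm A u s₁ s₂ (hv A u s₁ s₂ T X Y) (hv A u s₁ s₂ T X Y)
        - Gm A u s₁ s₂ (hv A u s₁ s₂ T X X) (hv A u s₁ s₂ T Y Y)) =
      4 * A * (ww 1 1 X.1 Y.1 + 3 * (hq 1 1 X.1 Y.1).im ^ 2)
        + u * (1 + u) * (ww s₁ s₂ X.1 Y.1 + 3 * (hq s₁ s₂ X.1 Y.1).im ^ 2)
        - (hq (bw A u s₁) (bw A u s₂) X.1 Y.1).im ^ 2
        + 2 * (u * (1 + u)) * (hq (bw A u s₁) (bw A u s₂) (mu X Y) (mu X Y)).re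
        + (4 * (u * (1 + u) * tau X Y) + (hq (bw A u s₁) (bw A u s₂) X.1 Y.1).im) ^ 2
        + e13 A u s₁ s₂ T U X.1 Y.1
        + 2 * (u * (1 + u)) * om (4 * A / (4 * A + 2 * u * s₁)) (4 * A / (4 * A + 2 * u * s₂)) T
          (mu X Y) X.1 Y.1 := by
  have h₁ : 4 * A + 2 * u * s₁ ≠ 0 := by
    have := h.l₁
    have : 0 < 4 * A + 2 * u * s₁ := by positivity
    exact this.ne'
  have h₂ : 4 * A + 2 * u * s₂ ≠ 0 := by
    have := h.l₂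
    have : 0 < 4 * A + 2 * u * s₂ := by positivity
    exact this.ne'
  rw [hv_Gm_AlgId h₁ h₂, hv_Gm_AlgId h₁ h₂]
  have a₁ : 4 * A / (4 * A + 2 * u * s₁) = 1 - 2 * u * s₁ * (1 / (4 * A + 2 * u * s₁)) := by
    field_simp; ring
  have a₂ : 4 * A / (4 * A + 2 * u * s₂) = 1 - 2 * u * s₂ * (1 / (4 * A + 2 * u * s₂)) := by
    field_simp; ring
  have b₁ : bw A u s₁ = s₁ * (1 + 2 * u - 2 * (u * (1 + u)) * s₁ * (1 / (4 * A + 2 * u * s₁))) := by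
    rw [bw, mul_one_div]
  have b₂ : bw A u s₂ = s₂ * (1 + 2 * u - 2 * (u * (1 + u)) * s₂ * (1 / (4 * A + 2 * u * s₂))) := by
    rw [bw, mul_one_div]
  rw [a₁, a₂, b₁, b₂]
  simp only [e13, om, cv_mu_AlgId h]
  generalize 1 / (4 * A + 2 * u * s₁) = g₁
  generalize 1 / (4 * A + 2 * u * s₂) = g₂
  have l1 := lin1_AlgId h X.1 Y.1
  have l2 := lin2_AlgId h X.1 Y.1
  have l3 := lin1_AlgId h Y.1 X.1
  have l4 := lin2_AlgId h Y.1 X.1
  rw [cv_symm h Y.1 X.1] at l3 l4 ⊢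
  obtain ⟨x, ξ⟩ := X
  obtain ⟨y, ζ⟩ := Y
  simp only [q4, P4, Prod.smul_mk, el] at l1 l2 l3 l4 ⊢
  have e1 : T x (I • x) (I • y) = T x (I • y) (I • x) := h.t23 _ _ _
  have e2 : T x y (I • x) = T y x (I • x) := h.t12 _ _ _
  rw [e1, e2]
  generalize cv T x y = c at *
  generalize cv T x x = cx at *
  generalize cv T y y = cy at *
  generalize U x x (I • y) (I • y) = U1
  generalize U y y (I • x) (I • x) = U2
  generalize U x y (I • x) (I • y) = U3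
  generalize T x (I • y) (I • y) = T1 at *
  generalize T y (I • x) (I • y) = T2 at *
  generalize T x y (I • y) = T3 at *
  generalize T y y (I • x) = T4 at *
  generalize T y (I • x) (I • x) = T5 at *
  generalize T x (I • y) (I • x) = T6 at *
  generalize T y x (I • x) = T7 at *
  generalize T x x (I • y) = T8 at *
  clear e1 e2 a₁ a₂ b₁ b₂ h₁ h₂ h
  obtain ⟨x₁, x₂⟩ := x
  obtain ⟨y₁, y₂⟩ := y
  obtain ⟨c₁, c₂⟩ := c
  obtain ⟨cx₁, cx₂⟩ := cx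
  obtain ⟨cy₁, cy₂⟩ := cy
  simp only [ww, hq, mu, tau, Prod.smul_mk, Prod.mk_sub_mk, smul_eq_mul, add_re, add_im, mul_re,
    mul_im, sub_re, sub_im, conj_re, conj_im, ofReal_re, ofReal_im, I_re, I_im, one_re, one_im,
    re_ofNat, im_ofNat] at l1 l2 l3 l4 ⊢
  linear_combination (-2 * (u * (1 + u)) * ξ.re) * l1 + (-2 * (u * (1 + u)) * ξ.im) * l2
    + (-2 * (u * (1 + u)) * ζ.re) * l3 + (-2 * (u * (1 + u)) * ζ.im) * l4

end Vale.Agent.P250
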