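import Vale.Agent.P250.PD

set_option maxSynthPendingDepth 3

namespace Vale.Agent.P250

open scoped ContDiff Topology ComplexConjugate
open Complex Set Filter Vale.Agent.P255

theorem AlgW_R (a b c d : ℂ) :
    2 * ((a * conj b).im * (c * conj d).im) ≤
      normSq a * normSq d + normSq c * normSq b - 2 * ((a * conj b).re * (c * conj d).re) ∧
    -(2 * ((a * conj b).im * (c * conj d).im)) ≤
      normSq a * normSq d + normSq c * normSq b - 2 * ((a * conj b).re * (c * conj d).re) := by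
  simp only [normSq_apply, mul_re, mul_im, conj_re, conj_im]
  constructor
  · nlinarith [sq_nonneg (a.re * d.re - a.im * d.im - (c.re * b.re - c.im * b.im)),
      sq_nonneg (a.re * d.im + a.im * d.re - (c.re * b.im + c.im * b.re))]
  · nlinarith [sq_nonneg (a.re * d.re + a.im * d.im - (c.re * b.re + c.im * b.im)),
      sq_nonneg (a.im * d.re - a.re * d.im - (c.re * b.im - c.im * b.re))]

theorem AlgW_dec (x y : B2) : ∃ b₁ b₂ R : ℝ, 2 * (b₁ * b₂) ≤ R ∧ -(2 * (b₁ * b₂)) ≤ R ∧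
    ∀ m₁ m₂ : ℝ, ww m₁ m₂ x y = m₁ ^ 2 * b₁ ^ 2 + m₂ ^ 2 * b₂ ^ 2 + m₁ * m₂ * R ∧
      (hq m₁ m₂ x y).im = m₁ * b₁ + m₂ * b₂ := by
  refine ⟨_, _, _, (AlgW_R x.1 y.1 x.2 y.2).1, (AlgW_R x.1 y.1 x.2 y.2).2, fun m₁ m₂ => ⟨?_, ?_⟩⟩
  · simp only [ww, hq, normSq_apply, add_re, mul_re, mul_im, conj_re, conj_im, ofReal_re,
      ofReal_im]
    ring
  · simp only [hq, add_im, mul_re, mul_im, conj_re, conj_im, ofReal_re, ofReal_im]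
    ring

theorem ww_nonneg {m₁ m₂ : ℝ} (h₁ : 0 ≤ m₁) (h₂ : 0 ≤ m₂) (x y : B2) : 0 ≤ ww m₁ m₂ x y := by
  obtain ⟨b₁, b₂, R, k₁, k₂, h⟩ := AlgW_dec x y
  have hR : 0 ≤ R := by linarith
  rw [(h m₁ m₂).1]
  positivity

theorem im_sq_le {m₁ m₂ : ℝ} (h₁ : 0 ≤ m₁) (h₂ : 0 ≤ m₂) (x y : B2) :
    (hq m₁ m₂ x y).im ^ 2 ≤ ww m₁ m₂ x y := by
  obtain ⟨b₁, b₂, R, k₁, k₂, h⟩ := AlgW_dec x y
  rw [(h m₁ m₂).1, (h m₁ m₂).2]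
  nlinarith [mul_le_mul_of_nonneg_left k₁ (mul_nonneg h₁ h₂)]

theorem ww_le {m₁ m₂ M : ℝ} (h₁ : 0 ≤ m₁) (h₂ : 0 ≤ m₂) (k₁ : m₁ ≤ M) (k₂ : m₂ ≤ M) (x y : B2) :
    ww m₁ m₂ x y ≤ M ^ 2 * ww 1 1 x y := by
  obtain ⟨b₁, b₂, R, l₁, l₂, h⟩ := AlgW_dec x y
  have hR : 0 ≤ R := by linarith
  rw [(h m₁ m₂).1, (h 1 1).1]
  have e₁ : m₁ ^ 2 ≤ M ^ 2 := pow_le_pow_left₀ h₁ k₁ 2
  have e₂ : m₂ ^ 2 ≤ M ^ 2 := pow_le_pow_left₀ h₂ k₂ 2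
  have e₃ : m₁ * m₂ ≤ M ^ 2 := by nlinarith [mul_le_mul k₁ k₂ h₂ (h₁.trans k₁)]
  nlinarith [mul_le_mul_of_nonneg_right e₁ (sq_nonneg b₁),
    mul_le_mul_of_nonneg_right e₂ (sq_nonneg b₂), mul_le_mul_of_nonneg_right e₃ hR]

theorem le_ww {m₁ m₂ m : ℝ} (h : 0 ≤ m) (k₁ : m ≤ m₁) (k₂ : m ≤ m₂) (x y : B2) :
    m ^ 2 * ww 1 1 x y ≤ ww m₁ m₂ x y := by
  obtain ⟨b₁, b₂, R, l₁, l₂, h'⟩ := AlgW_dec x y
  have hR : 0 ≤ R := by linarith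
  rw [(h' m₁ m₂).1, (h' 1 1).1]
  have e₁ : m ^ 2 ≤ m₁ ^ 2 := pow_le_pow_left₀ h k₁ 2
  have e₂ : m ^ 2 ≤ m₂ ^ 2 := pow_le_pow_left₀ h k₂ 2
  have e₃ : m ^ 2 ≤ m₁ * m₂ := by nlinarith [mul_le_mul k₁ k₂ h (h.trans k₁)]
  nlinarith [mul_le_mul_of_nonneg_right e₁ (sq_nonneg b₁),
    mul_le_mul_of_nonneg_right e₂ (sq_nonneg b₂), mul_le_mul_of_nonneg_right e₃ hR]

theorem hq_self (m₁ m₂ : ℝ) (v : B2) :
    (hq m₁ m₂ v v).re = m₁ * ‖v.1‖ ^ 2 + m₂ * ‖v.2‖ ^ 2 := by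
  simp only [hq, Complex.sq_norm, normSq_apply, add_re, mul_re, mul_im, conj_re, conj_im,
    ofReal_re, ofReal_im]
  ring

theorem AlgW_mix (a b c d : ℂ) :
    2 * (c * conj d).im * (a * conj b).im ≤
      ((conj d * a - conj c * b) * conj (conj d * a - conj c * b)).re := by
  obtain ⟨h₁, h₂⟩ := AlgW_R a b c d
  simp only [normSq_apply, mul_re, mul_im, conj_re, conj_im, sub_re, sub_im] at h₁ h₂ ⊢
  nlinarith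

theorem mixed_nonneg {m₁ m₂ : ℝ} (h₁ : 0 ≤ m₁) (h₂ : 0 ≤ m₂) (X Y : C3) :
    2 * tau X Y * (hq m₁ m₂ X.1 Y.1).im ≤ (hq m₁ m₂ (mu X Y) (mu X Y)).re := by
  have e₁ := mul_le_mul_of_nonneg_left (AlgW_mix X.1.1 Y.1.1 X.2 Y.2) h₁
  have e₂ := mul_le_mul_of_nonneg_left (AlgW_mix X.1.2 Y.1.2 X.2 Y.2) h₂
  simp only [tau, hq, mu, Prod.fst_sub, Prod.snd_sub, Prod.smul_fst, Prod.smul_snd, smul_eq_mul,
    add_re, add_im, re_ofReal_mul, im_ofReal_mul]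
  linarith

theorem bw_bounds {A u s C : ℝ} (hA : C ≤ A) (hu : 0 < u) (h : 2 ≤ s) (k : s ≤ C) :
    1 + u ≤ bw A u s ∧ bw A u s ≤ (1 + 2 * u) * C := by
  have hs : 0 < s := by linarith
  have hd : 0 < 4 * A + 2 * u * s := by nlinarith [mul_pos hu hs]
  have e₀ : 0 ≤ 2 * (u * (1 + u)) * s / (4 * A + 2 * u * s) := by positivity
  have e₁ : 2 * (u * (1 + u)) * s / (4 * A + 2 * u * s) ≤ (1 + 3 * u) / 2 := by
    rw [div_le_div_iff₀ hd two_pos]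
    have hAs : s ≤ A := k.trans hA
    nlinarith [mul_pos hu hs, mul_pos hu (mul_pos hu hs), mul_le_mul_of_nonneg_left hAs hu.le]
  unfold bw
  constructor
  · nlinarith
  · nlinarith

theorem AlgW_nu {A u s : ℝ} (hA : 0 < A) (hu : 0 < u) (h : 2 ≤ s) :
    ∃ e : ℝ, |e| ≤ (1 + u) * (1 - u / (A + u) / 2) / 2 ∧
      bw A u s = s * (3 / 2 * ((1 + u) * (1 - u / (A + u) / 2)) + e - 1) := by
  have hs : 0 < s := by linarith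
  have hd : 0 < 4 * A + 2 * u * s := by nlinarith [mul_pos hu hs]
  have hd' : 0 < A + u := by linarith
  have e₁ : u / (A + u) ≤ 2 * u * s / (4 * A + 2 * u * s) := by
    rw [div_le_div_iff₀ hd' hd]
    nlinarith [mul_le_mul_of_nonneg_left h (mul_pos hu hA).le]
  have e₂ : 2 * u * s / (4 * A + 2 * u * s) ≤ 1 := by
    rw [div_le_one hd]
    linarith
  have e₃ : 0 ≤ u / (A + u) := by positivity
  have e₄ : 2 * (u * (1 + u)) * s / (4 * A + 2 * u * s) =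
      (1 + u) * (2 * u * s / (4 * A + 2 * u * s)) := by ring
  refine ⟨(1 + u) * (2 - 2 * u * s / (4 * A + 2 * u * s)) -
    3 / 2 * ((1 + u) * (1 - u / (A + u) / 2)), ?_, ?_⟩
  · have hu' : 0 ≤ 1 + u := by linarith
    rw [abs_le]
    constructor
    · nlinarith [mul_le_mul_of_nonneg_left e₂ hu', mul_nonneg hu' e₃]
    · nlinarith [mul_le_mul_of_nonneg_left e₁ hu']
  · unfold bw
    rw [e₄]
    ring

theorem AlgW_main {L e₁ e₂ p₁ p₂ W : ℝ} (hL : 0 ≤ L) (h₁ : |e₁| ≤ L / 2) (h₂ : |e₂| ≤ L / 2)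
    (k₁ : 2 * (p₁ * p₂) ≤ W) (k₂ : -(2 * (p₁ * p₂)) ≤ W) :
    ((3 / 2 * L + e₁ - 1) * p₁ + (3 / 2 * L + e₂ - 1) * p₂) ^ 2 ≤
      (L + 1 / 2) ^ 2 * (p₁ ^ 2 + p₂ ^ 2 + W + 3 * (p₁ + p₂) ^ 2) := by
  have ha : (|p₁| + |p₂|) ^ 2 ≤ p₁ ^ 2 + p₂ ^ 2 + W := by
    have h3 : |2 * (p₁ * p₂)| ≤ W := abs_le.mpr ⟨by linarith, k₁⟩
    rw [abs_mul, abs_mul, abs_two] at h3
    nlinarith [sq_abs p₁, sq_abs p₂]
  have hc : |p₁ + p₂| ≤ |p₁| + |p₂| := abs_add_le _ _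
  have hc0 : 0 ≤ |p₁ + p₂| := abs_nonneg _
  have hD : 0 ≤ p₁ ^ 2 + p₂ ^ 2 + W + 3 * (p₁ + p₂) ^ 2 := by
    nlinarith [sq_nonneg (|p₁| + |p₂|), sq_nonneg (p₁ + p₂)]
  obtain ⟨S, hS0, hS⟩ : ∃ S : ℝ, 0 ≤ S ∧ S ^ 2 = p₁ ^ 2 + p₂ ^ 2 + W + 3 * (p₁ + p₂) ^ 2 :=
    ⟨_, Real.sqrt_nonneg _, Real.sq_sqrt hD⟩
  have f₁ : (3 * |p₁ + p₂| + (|p₁| + |p₂|)) / 2 ≤ S := by
    refine abs_le_of_sq_le_sq' ?_ hS0 |>.2
    nlinarith [sq_nonneg (|p₁| + |p₂| - |p₁ + p₂|), sq_abs (p₁ + p₂)]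
  have f₂ : 2 * |p₁ + p₂| ≤ S := by linarith
  have g₁ : |e₁ * p₁| ≤ L / 2 * |p₁| := by
    rw [abs_mul]
    exact mul_le_mul_of_nonneg_right h₁ (abs_nonneg _)
  have g₂ : |e₂ * p₂| ≤ L / 2 * |p₂| := by
    rw [abs_mul]
    exact mul_le_mul_of_nonneg_right h₂ (abs_nonneg _)
  have g₃ : |3 / 2 * L * (p₁ + p₂)| = 3 / 2 * L * |p₁ + p₂| := by
    rw [abs_mul, abs_of_nonneg (by positivity : 0 ≤ 3 / 2 * L)]
  have g₄ := mul_le_mul_of_nonneg_left f₁ hL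
  rw [← hS, ← mul_pow]
  have a₁ := abs_le.mp g₁
  have a₂ := abs_le.mp g₂
  have a₃ := abs_le.mp g₃.le
  have a₄ := abs_le.mp (le_refl |p₁ + p₂|)
  refine sq_le_sq' ?_ ?_ <;> nlinarith [a₁.1, a₁.2, a₂.1, a₂.2, a₃.1, a₃.2, a₄.1, a₄.2]

theorem beta_le {A u s₁ s₂ : ℝ} (hA : 0 < A) (hu : 0 < u) (h₁ : 2 ≤ s₁) (h₂ : 2 ≤ s₂) (x y : B2) :
    (hq (bw A u s₁) (bw A u s₂) x y).im ^ 2 ≤ ((1 + u) * (1 - u / (A + u) / 2) + 1 / 2) ^ 2 *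
      (ww s₁ s₂ x y + 3 * (hq s₁ s₂ x y).im ^ 2) := by
  obtain ⟨b₁, b₂, R, k₁, k₂, h⟩ := AlgW_dec x y
  obtain ⟨e₁, he₁, hb₁⟩ := AlgW_nu hA hu h₁
  obtain ⟨e₂, he₂, hb₂⟩ := AlgW_nu hA hu h₂
  have hs : 0 ≤ s₁ * s₂ := by nlinarith
  have hL : 0 ≤ (1 + u) * (1 - u / (A + u) / 2) := by linarith [abs_nonneg e₁]
  have key := AlgW_main (p₁ := s₁ * b₁) (p₂ := s₂ * b₂) (W := s₁ * s₂ * R) hL he₁ he₂
    (by nlinarith [mul_le_mul_of_nonneg_left k₁ hs])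
    (by nlinarith [mul_le_mul_of_nonneg_left k₂ hs])
  rw [(h _ _).2, (h _ _).2, (h _ _).1, hb₁, hb₂]
  refine le_of_eq_of_le ?_ (key.trans_eq ?_) <;> ring

end Vale.Agent.P250
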