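import Vale.Agent.P250.AlgId
import Vale.Agent.P250.AlgErr
import Vale.Agent.P250.AlgW
import Vale.Agent.P250.AlgFin

set_option maxSynthPendingDepth 3

namespace Vale.Agent.P250

open scoped ContDiff Topology ComplexConjugate
open Complex Set Filter Vale.Agent.P255

theorem algMain_lo {m₁ m₂ m : ℝ} (k₁ : m ≤ m₁) (k₂ : m ≤ m₂) (v : B2) :
    m * (hq 1 1 v v).re ≤ (hq m₁ m₂ v v).re := by
  rw [hq_self, hq_self]
  nlinarith [mul_le_mul_of_nonneg_right k₁ (sq_nonneg ‖v.1‖),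
    mul_le_mul_of_nonneg_right k₂ (sq_nonneg ‖v.2‖)]

theorem algMain_hi {m₁ m₂ m : ℝ} (k₁ : m₁ ≤ m) (k₂ : m₂ ≤ m) (v : B2) :
    (hq m₁ m₂ v v).re ≤ m * (hq 1 1 v v).re := by
  rw [hq_self, hq_self]
  nlinarith [mul_le_mul_of_nonneg_right k₁ (sq_nonneg ‖v.1‖),
    mul_le_mul_of_nonneg_right k₂ (sq_nonneg ‖v.2‖)]

theorem algMain_g (A : ℝ) {u s C : ℝ} (hu : 0 < u) (l : 2 ≤ s) (k : s ≤ C) :
    4 * A + 4 * u ≤ 4 * A + 2 * u * s ∧ 4 * A + 2 * u * s ≤ 4 * A + 2 * u * C := by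
  constructor <;> nlinarith

theorem algMain_mix {u t b m : ℝ} (hu : 0 < u) (h : 2 * t * b ≤ m) :
    2 * (u * (1 + u) * t) * b ≤ u * (1 + u) * m := by
  have uu : 0 < u * (1 + u) := by positivity
  nlinarith [mul_le_mul_of_nonneg_left h uu.le]

theorem algMain_fin {a b N K K' : ℝ} (h : -K' = K) (k : a * N ≤ K ∧ K ≤ b * N) :
    -b * N ≤ K' ∧ K' ≤ -a * N := by
  constructor <;> linarith [k.1, k.2]

theorem algMain_D {C w W β : ℝ} (d₁ : 2 ^ 2 * W ≤ w) (d₂ : w ≤ C ^ 2 * W) (d₃ : β ^ 2 ≤ w) :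
    4 * W ≤ w + 3 * β ^ 2 ∧ w + 3 * β ^ 2 ≤ 4 * C ^ 2 * W := by
  constructor <;> nlinarith [sq_nonneg β]

theorem alg_main {C : ℝ} (hC : 2 ≤ C) :
    ∃ A a b : ℝ, 1 ≤ A ∧ 0 < a ∧ a ≤ b ∧ AlgOK C A a b := by
  obtain ⟨A, a, b, hA, ha, hab, H⟩ := alg_fin hC
  refine ⟨A, a, b, by linarith, ha, hab, ?_⟩
  intro u s₁ s₂ T U hu jb X Y h₁ h₂ h₃ e₁ e₂ e₃
  have A0 : 0 < A := by linarith
  have l₁ := jb.l₁
  have l₂ := jb.l₂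
  have u₁ := jb.u₁
  have u₂ := jb.u₂
  have p₁ : 0 ≤ s₁ := by linarith
  have p₂ : 0 ≤ s₂ := by linarith
  rw [hv_eq A0 hu p₁ p₂ T e₁, hv_eq A0 hu p₁ p₂ T e₂, hv_eq A0 hu p₁ p₂ T e₃]
  have hc := curv_id A0 hu jb X Y
  rw [area_id]
  have g₁ := (algMain_g A hu l₁ u₁).1
  have g₂ := (algMain_g A hu l₂ u₂).1
  have g₃ := (algMain_g A hu l₁ u₁).2
  have g₄ := (algMain_g A hu l₂ u₂).2
  have g₀ : 0 < 4 * A + 4 * u := by positivity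
  have G₁ : 0 < 4 * A + 2 * u * s₁ := by linarith
  have G₂ : 0 < 4 * A + 2 * u * s₂ := by linarith
  have W0 := ww_nonneg zero_le_one zero_le_one X.1 Y.1
  have n0 : 0 ≤ (hq 1 1 (mu X Y) (mu X Y)).re := by rw [hq_self]; positivity
  have b₁ := bw_bounds hA hu l₁ u₁
  have b₂ := bw_bounds hA hu l₂ u₂
  have d₁ := le_ww (m := 2) (by norm_num) l₁ l₂ X.1 Y.1
  have d₂ := ww_le p₁ p₂ u₁ u₂ X.1 Y.1
  have d₃ := im_sq_le p₁ p₂ X.1 Y.1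
  have d₄ := algMain_D d₁ d₂ d₃
  have mx := mixed_nonneg G₁.le G₂.le X Y
  have o₁ : 4 * A / (4 * A + 2 * u * s₁) ≤ 1 := (div_le_one G₁).2 (by linarith)
  have o₂ : 4 * A / (4 * A + 2 * u * s₂) ≤ 1 := (div_le_one G₂).2 (by linarith)
  have K := H u (ww 1 1 X.1 Y.1) (hq 1 1 X.1 Y.1).im
    (ww s₁ s₂ X.1 Y.1 + 3 * (hq s₁ s₂ X.1 Y.1).im ^ 2) (hq (bw A u s₁) (bw A u s₂) X.1 Y.1).im
    (hq 1 1 (mu X Y) (mu X Y)).re (hq (bw A u s₁) (bw A u s₂) (mu X Y) (mu X Y)).re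
    (u * (1 + u) * tau X Y) (e13 A u s₁ s₂ T U X.1 Y.1)
    (om (4 * A / (4 * A + 2 * u * s₁)) (4 * A / (4 * A + 2 * u * s₂)) T (mu X Y) X.1 Y.1)
    (ww (4 * A + 2 * u * s₁) (4 * A + 2 * u * s₂) X.1 Y.1)
    (hq (4 * A + 2 * u * s₁) (4 * A + 2 * u * s₂) X.1 Y.1).im
    (hq (4 * A + 2 * u * s₁) (4 * A + 2 * u * s₂) (mu X Y) (mu X Y)).re hu W0 n0
    (im_sq_le zero_le_one zero_le_one X.1 Y.1) d₄.1 d₄.2
    (beta_le A0 hu l₁ l₂ X.1 Y.1) (algMain_lo b₁.1 b₂.1 _) (algMain_hi b₁.2 b₂.2 _)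
    (e13_le A0 hu jb X.1 Y.1)
    (om_le jb (div_nonneg (by linarith) G₁.le) o₁ (div_nonneg (by linarith) G₂.le) o₂ _ _ _)
    (le_ww g₀.le g₁ g₂ _ _) (ww_le G₁.le G₂.le g₃ g₄ _ _) (im_sq_le G₁.le G₂.le _ _)
    (algMain_lo g₁ g₂ _) (algMain_hi g₃ g₄ _)
    (algMain_mix hu mx)
  exact algMain_fin hc K

end Vale.Agent.P250
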