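import Vale.Agent.P250.SCV
import Vale.Agent.P250.Aff

set_option maxSynthPendingDepth 3

namespace Vale.Agent.P250

open scoped ContDiff Topology ComplexConjugate
open Complex Set Filter Vale.Agent.P255

variable {f g : B2 → ℝ} {p : B2}

theorem PH.add (hf : PH f p) (hg : PH g p) : PH (fun q => f q + g q) p := by
  obtain ⟨O, H, hO, hp, hH, e⟩ := hf
  obtain ⟨O', H', hO', hp', hH', e'⟩ := hg
  refine ⟨O ∩ O', fun q => H q + H' q, hO.inter hO', ⟨hp, hp'⟩,
    (hH.mono inter_subset_left).add (hH'.mono inter_subset_right), fun q hq => ?_⟩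
  simp only [e q hq.1, e' q hq.2, add_re]

theorem PH.mul (hf : PH f p) (c : ℝ) : PH (fun q => c * f q) p := by
  obtain ⟨O, H, hO, hp, hH, e⟩ := hf
  refine ⟨O, fun q => (c : ℂ) * H q, hO, hp, hH.const_mul _, fun q hq => ?_⟩
  simp only [e q hq, re_ofReal_mul]

theorem PH.const (c : ℝ) (p : B2) : PH (fun _ => c) p := by
  exact ⟨univ, fun _ => (c : ℂ), isOpen_univ, mem_univ _, differentiableOn_const _,
    fun q _ => (ofReal_re c).symm⟩

theorem PH.congr (hf : PH f p) (h : g =ᶠ[𝓝 p] f) : PH g p := by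
  obtain ⟨O, H, hO, hp, hH, e⟩ := hf
  obtain ⟨O', hs, hO', hp'⟩ := mem_nhds_iff.mp h
  refine ⟨O ∩ O', H, hO.inter hO', ⟨hp, hp'⟩, hH.mono inter_subset_left, fun q hq => ?_⟩
  rw [← e q hq.1]
  exact hs hq.2

theorem PH.sum {ι : Type} (s : Finset ι) {F : ι → B2 → ℝ} (h : ∀ i ∈ s, PH (F i) p) :
    PH (fun q => ∑ i ∈ s, F i q) p := by
  classical
  induction s using Finset.induction_on with
  | empty => simpa using PH.const 0 p
  | insert a s ha ih =>
    simp only [Finset.sum_insert ha]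
    exact (h a (Finset.mem_insert_self _ _)).add
      (ih fun i hi => h i (Finset.mem_insert_of_mem hi))

theorem PH.log {J : B2 → ℂ} {O : Set B2} (hO : IsOpen O) (hp : p ∈ O)
    (hJ : DifferentiableOn ℂ J O) (h0 : J p ≠ 0) : PH (fun q => Real.log (‖J q‖ ^ 2)) p := by
  have hK : DifferentiableOn ℂ (fun q => J q / J p) O := by
    simpa only [div_eq_mul_inv] using hJ.mul_const (J p)⁻¹
  have ho : IsOpen (O ∩ (fun q => J q / J p) ⁻¹' slitPlane) :=
    hK.continuousOn.isOpen_inter_preimage hO isOpen_slitPlane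
  refine ⟨_, fun q => 2 * Complex.log (J q / J p) + (Real.log (‖J p‖ ^ 2) : ℝ), ho,
    ⟨hp, by simp [div_self h0]⟩, ?_, fun q hq => ?_⟩
  · refine DifferentiableOn.add_const _ (DifferentiableOn.const_mul ?_ _)
    exact (hK.mono inter_subset_left).clog fun q hq => hq.2
  · have h1 : J q / J p ≠ 0 := slitPlane_ne_zero hq.2
    have h2 : J q ≠ 0 := fun h => h1 (by simp [h])
    have h3 : ‖J q‖ ≠ 0 := norm_ne_zero_iff.mpr h2
    have h4 : ‖J p‖ ≠ 0 := norm_ne_zero_iff.mpr h0
    simp only [add_re, ofReal_re, mul_re, re_ofNat, im_ofNat, zero_mul, sub_zero, log_re,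
      norm_div, Real.log_pow, Real.log_div h3 h4]
    push_cast
    ring

theorem PH.harm {Γ : ℂ → B2} {z : ℂ} (hΓ : Differentiable ℂ Γ) (hf : PH f (Γ z)) :
    InnerProductSpace.HarmonicAt (fun y => f (Γ y)) z := by
  obtain ⟨O, H, hO, hp, hH, e⟩ := hf
  have hO' : IsOpen (Γ ⁻¹' O) := hO.preimage hΓ.continuous
  have hd : DifferentiableOn ℂ (fun y => H (Γ y)) (Γ ⁻¹' O) :=
    hH.comp hΓ.differentiableOn (fun y hy => hy)
  have ha : AnalyticAt ℂ (fun y => H (Γ y)) z := hd.analyticAt (hO'.mem_nhds hp)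
  have he : (fun y => f (Γ y)) =ᶠ[𝓝 z] fun y => (H (Γ y)).re := by
    filter_upwards [hO'.mem_nhds hp] with y hy using e _ hy
  exact (InnerProductSpace.harmonicAt_congr_nhds he).mpr ha.harmonicAt_re

theorem PH.smooth (hf : PH f p) : ∃ O, IsOpen O ∧ p ∈ O ∧ ContDiffOn ℝ ∞ f O := by
  obtain ⟨O, H, hO, hp, hH, e⟩ := hf
  refine ⟨O, hO, hp, ?_⟩
  have h1 : ContDiffOn ℝ ∞ H O := (scv_smooth hO hH).restrict_scalars ℝ
  exact (reCLM.contDiff.comp_contDiffOn h1).congr fun q hq => e q hq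

/-- an inactive well is locally pluriharmonic -/
theorem ph_well {η : ℝ} {ψ : ℂ → ℝ} (hη : 0 < η) (hψ : IsWell η ψ) {Z : B2 → ℂ}
    (hZ : Differentiable ℂ Z) (h : ‖Z p - I‖ < η / 2 ∨ η < ‖Z p - I‖) :
    PH (fun q => ψ (Z q - I)) p := by
  have hc : Continuous fun q => ‖Z q - I‖ := (hZ.continuous.sub continuous_const).norm
  rcases h with h | h
  · refine (PH.const (ψ 0) p).congr ?_
    filter_upwards [(isOpen_lt hc continuous_const).mem_nhds h] with q hq
    exact hψ.flat _ (le_of_lt hq)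
  · have h0 : Z p - I ≠ 0 := norm_pos_iff.mp (hη.trans h)
    refine (PH.log (J := fun q => Z q - I) isOpen_univ (mem_univ p)
      (hZ.sub_const I).differentiableOn h0).congr ?_
    filter_upwards [(isOpen_lt continuous_const hc).mem_nhds h] with q hq
    exact hψ.out _ (le_of_lt hq)

/-- the correction terms are pluriharmonic -/
theorem ph_corr {Z : B2 → ℂ} (hZ : Differentiable ℂ Z) (h : Z p ≠ 0) :
    PH (fun q => -Real.log (‖Z q‖ ^ 2) + 2 * (I / Z q).re) p := by
  have h1 := (PH.log isOpen_univ (mem_univ p) hZ.differentiableOn h).mul (-1)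
  have h2 : PH (fun q => (I / Z q).re) p :=
    ⟨{q | Z q ≠ 0}, fun q => I / Z q, isOpen_ne_fun hZ.continuous continuous_const, h,
      by
        simp only [div_eq_mul_inv]
        exact (hZ.differentiableOn.inv (S := {q | Z q ≠ 0}) fun q hq => hq).const_mul I,
      fun q _ => rfl⟩
  simpa using h1.add (h2.mul 2)

end Vale.Agent.P250
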