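import Vale.Agent.P250.Levi
import Vale.Agent.P250.PHa

set_option maxSynthPendingDepth 3

namespace Vale.Agent.P250

open scoped ContDiff Topology ComplexConjugate
open Complex Set Filter Vale.Agent.P255

theorem Base_two : (2 : WithTop ℕ∞) ≤ ∞ := WithTop.coe_le_coe.2 (le_top : (2 : ℕ∞) ≤ ⊤)

theorem Base_dl_smooth : ContDiff ℝ ∞ dl :=
  (Complex.imCLM.contDiff.comp contDiff_snd).sub ((contDiff_norm_sq ℝ (E := ℂ)).comp contDiff_fst)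

/-- linear part of the defining function -/
noncomputable def Base_l : B2 →L[ℝ] ℝ := Complex.imCLM.comp (ContinuousLinearMap.snd ℝ ℂ ℂ)

/-- quadratic part of the defining function -/
noncomputable def Base_B : B2 →L[ℝ] B2 →L[ℝ] ℝ :=
  -(innerSL ℝ (E := ℂ)).bilinearComp (ContinuousLinearMap.fst ℝ ℂ ℂ)
    (ContinuousLinearMap.fst ℝ ℂ ℂ)

theorem Base_l_apply (a : B2) : Base_l a = a.2.im := rfl

theorem Base_B_apply (a b : B2) : Base_B a b = -(a.1.re * b.1.re + a.1.im * b.1.im) := by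
  simp [Base_B, ContinuousLinearMap.bilinearComp_apply, Complex.inner]
  ring

theorem Base_dl_eq : dl = fun y => 0 + Base_l y + Base_B y y := by
  funext y
  rw [Base_B_apply, Base_l_apply, dl, Complex.sq_norm, Complex.normSq_apply]
  ring

theorem Base_dl_fderiv (p a : B2) :
    fderiv ℝ dl p a = a.2.im - 2 * (a.1.re * p.1.re + a.1.im * p.1.im) := by
  rw [Base_dl_eq, (D_poly 0 Base_l Base_B p).1 a, Base_B_apply, Base_B_apply, Base_l_apply]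
  ring

theorem Base_dl_levi (p a : B2) : levi dl p a a = -4 * ‖a.1‖ ^ 2 := by
  rw [levi_apply, Base_dl_eq, (D_poly 0 Base_l Base_B p).2.1, (D_poly 0 Base_l Base_B p).2.1,
    Complex.sq_norm, Complex.normSq_apply]
  simp only [Base_B_apply, Prod.smul_fst, smul_eq_mul, mul_re, mul_im, I_re, I_im]
  ring

theorem Base_W (p a : B2) : ‖a.2 - 2 * I * conj p.1 * a.1‖ ^ 2
    = fderiv ℝ dl p a ^ 2 + fderiv ℝ dl p (I • a) ^ 2 := by
  rw [Base_dl_fderiv, Base_dl_fderiv, Complex.sq_norm, Complex.normSq_apply]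
  simp only [Prod.smul_fst, Prod.smul_snd, smul_eq_mul, mul_re, mul_im, I_re, I_im, sub_re,
    sub_im, conj_re, conj_im, re_ofNat, im_ofNat]
  ring

theorem Base_hd {t : ℝ} (ht : 0 < t) : HasDerivAt (fun t : ℝ => -Real.log t) (-t⁻¹) t :=
  (Real.hasDerivAt_log ht.ne').fun_neg

theorem tt_smooth : ContDiffOn ℝ ∞ tt HH :=
  (Base_dl_smooth.contDiffOn.log fun _ hp => ne_of_gt hp).neg

theorem tt_levi {p : B2} (hp : p ∈ HH) (v : B2) : levi tt p v v = 4 * ‖v.1‖ ^ 2 / dl p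
    + ‖v.2 - 2 * I * conj p.1 * v.1‖ ^ 2 / dl p ^ 2 := by
  have h0 : 0 < dl p := hp
  have hF : ContDiffAt ℝ 2 (fun t : ℝ => -Real.log t) (dl p) := (contDiffAt_id.log h0.ne').neg
  have h := levi_comp (F := fun t : ℝ => -Real.log t) (f := dl) (x := p) hF
    (Base_dl_smooth.contDiffAt.of_le Base_two) v
  have e1 : deriv (fun t : ℝ => -Real.log t) =ᶠ[𝓝 (dl p)] fun t => -t⁻¹ := by
    filter_upwards [Ioi_mem_nhds h0] with t ht
    exact (Base_hd ht).deriv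
  have e2 : iteratedDeriv 2 (fun t : ℝ => -Real.log t) (dl p) = (dl p ^ 2)⁻¹ := by
    rw [iteratedDeriv_succ, iteratedDeriv_one, e1.deriv_eq, (hasDerivAt_inv h0.ne').fun_neg.deriv,
      neg_neg]
  have e : tt = fun z => -Real.log (dl z) := rfl
  rw [e, h, e2, iteratedDeriv_one, (Base_hd h0).deriv, Base_dl_levi, Base_W]
  field_simp

theorem tt_pos {p : B2} (hp : p ∈ HH) {v : B2} (hv : v ≠ 0) : 0 < levi tt p v v := by
  have h0 : 0 < dl p := hp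
  rw [tt_levi hp]
  by_cases h1 : v.1 = 0
  · have h2 : v.2 ≠ 0 := fun h2 => hv (Prod.ext h1 h2)
    have h3 : 0 < ‖v.2‖ := norm_pos_iff.2 h2
    rw [h1, mul_zero, sub_zero]
    positivity
  · have h3 : 0 < ‖v.1‖ := norm_pos_iff.2 h1
    positivity

theorem tt_grad {p : B2} (hp : p ∈ HH) (v : B2) : fderiv ℝ tt p v ^ 2 ≤ levi tt p v v := by
  have h0 : 0 < dl p := hp
  have hd : DifferentiableAt ℝ dl p :=
    (Base_dl_smooth.differentiable (by simp)).differentiableAt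
  have a : HasFDerivAt tt (-(dl p)⁻¹ • fderiv ℝ dl p) p :=
    (Base_hd h0).comp_hasFDerivAt p hd.hasFDerivAt
  rw [a.fderiv, tt_levi hp, Base_W, ContinuousLinearMap.smul_apply, smul_eq_mul, add_div]
  have e : (-(dl p)⁻¹ * fderiv ℝ dl p v) ^ 2 = fderiv ℝ dl p v ^ 2 / dl p ^ 2 := by
    field_simp
  rw [e]
  have t1 : 0 ≤ 4 * ‖v.1‖ ^ 2 / dl p := by positivity
  have t2 : 0 ≤ fderiv ℝ dl p (I • v) ^ 2 / dl p ^ 2 := by positivity
  linarith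

theorem lg_grad {p : B2} (hp : p ∈ HH) (v : B2) :
    fderiv ℝ (fun q : B2 => Real.log (‖q.2 + I‖ ^ 2)) p v ^ 2 ≤ 100 * levi tt p v v := by
  have h0 : 0 < dl p := hp
  have hlow : dl p + ‖p.1‖ ^ 2 + 1 ≤ ‖p.2 + I‖ := by
    have h1 := (le_abs_self _).trans (Complex.abs_im_le_norm (p.2 + I))
    have h2 : dl p = p.2.im - ‖p.1‖ ^ 2 := rfl
    rw [add_im, I_im] at h1
    linarith
  have hR : 0 < ‖p.2 + I‖ := lt_of_lt_of_le (by positivity) hlow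
  have a1 : HasFDerivAt (fun q : B2 => q.2 + I) (ContinuousLinearMap.snd ℝ ℂ ℂ) p :=
    hasFDerivAt_snd.add_const I
  have a2 := (a1.norm_sq).log (pow_ne_zero 2 hR.ne')
  have a3 : |inner ℝ (p.2 + I) v.2| ≤ ‖p.2 + I‖ * ‖v.2‖ := abs_real_inner_le_norm _ _
  have e : fderiv ℝ (fun q : B2 => Real.log (‖q.2 + I‖ ^ 2)) p v
      = (‖p.2 + I‖ ^ 2)⁻¹ * (2 * inner ℝ (p.2 + I) v.2) := by
    rw [a2.fderiv]
    simp only [ContinuousLinearMap.smul_apply, ContinuousLinearMap.comp_apply, smul_eq_mul,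
      nsmul_eq_mul, ContinuousLinearMap.coe_snd', innerSL_apply_apply, Nat.cast_ofNat]
  have b1 : fderiv ℝ (fun q : B2 => Real.log (‖q.2 + I‖ ^ 2)) p v ^ 2
      ≤ 4 * ‖v.2‖ ^ 2 / ‖p.2 + I‖ ^ 2 := by
    have a4 : inner ℝ (p.2 + I) v.2 ^ 2 ≤ (‖p.2 + I‖ * ‖v.2‖) ^ 2 := by
      rw [← sq_abs]
      gcongr
    rw [e, mul_pow, mul_pow]
    calc _ ≤ (‖p.2 + I‖ ^ 2)⁻¹ ^ 2 * (2 ^ 2 * (‖p.2 + I‖ * ‖v.2‖) ^ 2) := by gcongr
      _ = _ := by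
        field_simp
        ring
  have b2 : ‖v.2‖ ≤ ‖v.2 - 2 * I * conj p.1 * v.1‖ + 2 * (‖p.1‖ * ‖v.1‖) := by
    have h1 := norm_add_le (v.2 - 2 * I * conj p.1 * v.1) (2 * I * conj p.1 * v.1)
    have h2 : ‖2 * I * conj p.1 * v.1‖ = 2 * (‖p.1‖ * ‖v.1‖) := by
      simp [mul_assoc]
    rw [sub_add_cancel, h2] at h1
    exact h1
  refine b1.trans ?_
  rw [tt_levi hp]
  generalize ‖v.2 - 2 * I * conj p.1 * v.1‖ = W at *
  have b3 : ‖v.2‖ ^ 2 ≤ 2 * W ^ 2 + 8 * (‖p.1‖ ^ 2 * ‖v.1‖ ^ 2) := by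
    have h1 : ‖v.2‖ ^ 2 ≤ (W + 2 * (‖p.1‖ * ‖v.1‖)) ^ 2 := by gcongr
    nlinarith [sq_nonneg (W - 2 * (‖p.1‖ * ‖v.1‖))]
  have c0 : (dl p + ‖p.1‖ ^ 2 + 1) ^ 2 ≤ ‖p.2 + I‖ ^ 2 := by gcongr
  have n1 : 0 ≤ ‖p.1‖ ^ 2 := by positivity
  have c1 : dl p ^ 2 ≤ ‖p.2 + I‖ ^ 2 := by nlinarith
  have c2 : dl p * ‖p.1‖ ^ 2 ≤ ‖p.2 + I‖ ^ 2 := by nlinarith
  have d1 : W ^ 2 / ‖p.2 + I‖ ^ 2 ≤ W ^ 2 / dl p ^ 2 := by gcongr
  have d2 : ‖p.1‖ ^ 2 * ‖v.1‖ ^ 2 / ‖p.2 + I‖ ^ 2 ≤ ‖v.1‖ ^ 2 / dl p := by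
    rw [div_le_div_iff₀ (by positivity) h0]
    nlinarith [sq_nonneg ‖v.1‖]
  have d3 : 4 * ‖v.2‖ ^ 2 / ‖p.2 + I‖ ^ 2 ≤ 8 * (W ^ 2 / ‖p.2 + I‖ ^ 2)
      + 32 * (‖p.1‖ ^ 2 * ‖v.1‖ ^ 2 / ‖p.2 + I‖ ^ 2) := by
    calc _ ≤ 4 * (2 * W ^ 2 + 8 * (‖p.1‖ ^ 2 * ‖v.1‖ ^ 2)) / ‖p.2 + I‖ ^ 2 := by gcongr
      _ = _ := by ring
  have d4 : 0 ≤ W ^ 2 / dl p ^ 2 := by positivity
  have d5 : 0 ≤ ‖v.1‖ ^ 2 / dl p := by positivity
  have d6 : 4 * ‖v.1‖ ^ 2 / dl p = 4 * (‖v.1‖ ^ 2 / dl p) := by ring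
  linarith

theorem Base_Z (z₀ : ℂ) (x₀ r : ℝ) : ContDiff ℂ ∞ fun q : B2 => (ainv z₀ x₀ r q).2 - I :=
  contDiffOn_univ.1 (scv_smooth isOpen_univ
    (((diff_ainv z₀ x₀ r).snd.sub_const I).differentiableOn))

theorem Base_ph_smooth {f : B2 → ℝ} {p : B2} (h : PH f p) : ContDiffAt ℝ ∞ f p := by
  obtain ⟨O, hO, hp, hs⟩ := h.smooth
  exact hs.contDiffAt (hO.mem_nhds hp)

theorem Base_ph_levi {f : B2 → ℝ} {p : B2} (h : PH f p) : levi f p = 0 := by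
  obtain ⟨O, H, hO, hp, hH, e⟩ := h
  have h1 : f =ᶠ[𝓝 p] fun q => (H q).re := by
    filter_upwards [hO.mem_nhds hp] with q hq
    exact e q hq
  rw [levi_congr h1]
  exact levi_re (((scv_smooth hO hH).contDiffAt (hO.mem_nhds hp)).of_le Base_two)

theorem good_smooth {η c : ℝ} {ψ : ℂ → ℝ} {f : B2 → ℝ} (hψ : IsWell η ψ) (hf : Good η c ψ f) :
    ContDiffOn ℝ ∞ f HH := by
  intro p hp
  refine ContDiffAt.contDiffWithinAt ?_
  rcases hf p hp with h | ⟨z₀, x₀, r, -, -, h⟩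
  · exact Base_ph_smooth h
  · have h1 : ContDiff ℝ ∞ fun q : B2 => c * ψ ((ainv z₀ x₀ r q).2 - I) :=
      contDiff_const.mul (hψ.smooth.comp ((Base_Z z₀ x₀ r).restrict_scalars ℝ))
    have h2 := (Base_ph_smooth h).add h1.contDiffAt
    simpa only [sub_add_cancel] using h2

theorem good_psh {η c : ℝ} {ψ : ℂ → ℝ} {f : B2 → ℝ} (hc : 0 ≤ c) (hψ : IsWell η ψ)
    (hf : Good η c ψ f) {p : B2} (hp : p ∈ HH) (v : B2) : 0 ≤ levi f p v v := by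
  rcases hf p hp with h | ⟨z₀, x₀, r, -, -, h⟩
  · rw [Base_ph_levi h]
    simp
  · have h1 : ContDiff ℝ ∞ fun q : B2 => ψ ((ainv z₀ x₀ r q).2 - I) :=
      hψ.smooth.comp ((Base_Z z₀ x₀ r).restrict_scalars ℝ)
    have h2 : ContDiffAt ℝ 2 (fun q : B2 => ψ ((ainv z₀ x₀ r q).2 - I)) p :=
      h1.contDiffAt.of_le Base_two
    have e : f = fun q => (f q - c * ψ ((ainv z₀ x₀ r q).2 - I))
        + c * ψ ((ainv z₀ x₀ r q).2 - I) := by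
      funext q
      ring
    rw [e, levi_add ((Base_ph_smooth h).of_le Base_two) (contDiffAt_const.mul h2), Base_ph_levi h,
      levi_mul h2]
    simp only [zero_add, ContinuousLinearMap.smul_apply, smul_eq_mul]
    rw [levi_hol (f := ψ) (Ψ := fun q : B2 => (ainv z₀ x₀ r q).2 - I)
      ((Base_Z z₀ x₀ r).contDiffAt.of_le Base_two) (hψ.smooth.contDiffAt.of_le Base_two)]
    exact mul_nonneg hc (hψ.psh _ _)

end Vale.Agent.P250
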