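import Vale.Agent.P250.Curv

set_option maxSynthPendingDepth 3

namespace Vale.Agent.P250

open scoped ContDiff Topology ComplexConjugate
open Complex Set Filter Vale.Agent.P255

variable {V : Type} [NormedAddCommGroup V] [NormedSpace ℝ V] [FiniteDimensional ℝ V]

theorem cnat_law {g g' : V → V →L[ℝ] V →L[ℝ] ℝ} (hg : IsMetric g) (hg' : IsMetric g') {φ : V → V}
    (hφ : ContDiff ℝ ∞ φ) {y : V} (hiso : ∀ᶠ x in 𝓝 y, IsoAt g g' φ x) (u a b : V) :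
    fderiv ℝ (fderiv ℝ φ) y u (chrL g y a b) + fderiv ℝ φ y (fderiv ℝ (chrL g) y u a b)
      = fderiv ℝ (fderiv ℝ (fderiv ℝ φ)) y u a b
        + (fderiv ℝ (chrL g') (φ y) (fderiv ℝ φ y u) (fderiv ℝ φ y a) (fderiv ℝ φ y b)
        + chrL g' (φ y) (fderiv ℝ (fderiv ℝ φ) y u a) (fderiv ℝ φ y b)
        + chrL g' (φ y) (fderiv ℝ φ y a) (fderiv ℝ (fderiv ℝ φ) y u b)) := by
  have hl : HasDerivAt (fun s : ℝ => y + s • u) u 0 := by
    simpa using ((hasDerivAt_id (0 : ℝ)).smul_const u).const_add y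
  have h0 : y + (0 : ℝ) • u = y := by simp
  have hφd := hφ.differentiable (by simp)
  have hLd := (nat_s1 hφ).differentiable (by simp)
  have hHd := (nat_s2 hφ).differentiable (by simp)
  have c1 : HasDerivAt (fun s : ℝ => φ (y + s • u)) (fderiv ℝ φ (y + (0 : ℝ) • u) u) 0 :=
    (hφd _).hasFDerivAt.comp_hasDerivAt (0 : ℝ) hl
  have c2 : HasDerivAt (fun s : ℝ => fderiv ℝ φ (y + s • u))
      (fderiv ℝ (fderiv ℝ φ) (y + (0 : ℝ) • u) u) 0 :=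
    (hLd _).hasFDerivAt.comp_hasDerivAt (0 : ℝ) hl
  have c3 := (hasDerivAt_apply₂ (hHd _) hl (hasDerivAt_const (0 : ℝ) a)
    (hasDerivAt_const (0 : ℝ) b)).add (hasDerivAt_apply₂ (hg'.diff_chr _) c1
    (c2.clm_apply (hasDerivAt_const _ a)) (c2.clm_apply (hasDerivAt_const _ b)))
  have c4 := c2.clm_apply (hasDerivAt_apply₂ (hg.diff_chr _) hl (hasDerivAt_const (0 : ℝ) a)
    (hasDerivAt_const (0 : ℝ) b))
  have ht : Tendsto (fun s : ℝ => y + s • u) (𝓝 0) (𝓝 y) := by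
    have := hl.continuousAt.tendsto
    rwa [h0] at this
  have c5 := c4.unique (c3.congr_of_eventuallyEq
    ((ht.eventually hiso.eventually_nhds).mono fun s hs => nat_law hg hg' hφ hs a b))
  simpa only [h0, map_zero, add_zero, zero_apply] using c5

theorem cnat_curv {g g' : V → V →L[ℝ] V →L[ℝ] ℝ} (hg : IsMetric g) (hg' : IsMetric g')
    {φ : V → V} (hφ : ContDiff ℝ ∞ φ) {y : V} (hiso : ∀ᶠ x in 𝓝 y, IsoAt g g' φ x) (X Y : V) :
    curv g' (φ y) (fderiv ℝ φ y X) (fderiv ℝ φ y Y) (fderiv ℝ φ y Y) =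
      fderiv ℝ φ y (curv g y X Y Y) := by
  have e1 := cnat_law hg hg' hφ hiso X Y Y
  have e2 := cnat_law hg hg' hφ hiso Y X Y
  have e3 := nat_law hg hg' hφ hiso X (chrL g y Y Y)
  have e4 := nat_law hg hg' hφ hiso Y (chrL g y X Y)
  have e5 : fderiv ℝ (fderiv ℝ (fderiv ℝ φ)) y X Y Y = fderiv ℝ (fderiv ℝ (fderiv ℝ φ)) y Y X Y :=
    congrArg (fun L => L Y) ((nat_s1 hφ).contDiffAt.isSymmSndFDerivAt (x := y) two_le_inf X Y)
  rw [nat_law hg hg' hφ hiso Y Y, map_add] at e3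
  rw [nat_law hg hg' hφ hiso X Y, map_add] at e4
  rw [nat_H hφ y Y X] at e2
  rw [hg.curv_eq, hg'.curv_eq, map_sub, map_add, map_sub, e3, e4, eq_sub_of_add_eq' e1,
    eq_sub_of_add_eq' e2, e5]
  abel
/-- the curvature is invariant under local isometries -/
theorem num_nat {g g' : V → V →L[ℝ] V →L[ℝ] ℝ} {U U' : Set V} {Ψ : V → V} {x : V}
    (hU : IsOpen U) (hx : x ∈ U) (hs : ContDiffOn ℝ ∞ g U)
    (hsy : ∀ y ∈ U, ∀ v w, g y v w = g y w v) (hp : ∀ v, v ≠ 0 → 0 < g x v v)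
    (hU' : IsOpen U') (hx' : Ψ x ∈ U') (hs' : ContDiffOn ℝ ∞ g' U')
    (hsy' : ∀ y ∈ U', ∀ v w, g' y v w = g' y w v) (hp' : ∀ v, v ≠ 0 → 0 < g' (Ψ x) v v)
    (hΨ : ContDiffOn ℝ ∞ Ψ U)
    (hiso : ∀ᶠ y in 𝓝 x, ∀ v w, g' (Ψ y) (fderiv ℝ Ψ y v) (fderiv ℝ Ψ y w) = g y v w) (X Y : V) :
    num g' (Ψ x) (fderiv ℝ Ψ x X) (fderiv ℝ Ψ x Y) = num g x X Y := by
  obtain ⟨g1, hg1, h1⟩ := loc_metric hU hx hs hsy hp
  obtain ⟨g2, hg2, h2⟩ := loc_metric hU' hx' hs' hsy' hp'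
  obtain ⟨χ, -, -, -, c3, c4⟩ := curv_bump (isCompact_singleton (x := x)) hU
    (singleton_subset_iff.2 hx)
  obtain ⟨φ, hφ, e⟩ : ∃ φ : V → V, ContDiff ℝ ∞ φ ∧ φ =ᶠ[𝓝 x] Ψ := by
    refine ⟨_, c4 _ ⊤ Ψ hΨ, ?_⟩
    filter_upwards [c3 x rfl] with y hy
    simp [hy]
  have hc : ContinuousAt Ψ x := hΨ.continuousOn.continuousAt (hU.mem_nhds hx)
  have hi : ∀ᶠ y in 𝓝 x, IsoAt g1 g2 φ y := by
    filter_upwards [hiso, h1, hc.eventually h2, e, e.fderiv (𝕜 := ℝ)] with y a1 a2 a3 a4 a5 v w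
    rw [a4, a5, a2, a3]
    exact a1 v w
  have k := cnat_curv hg1 hg2 hφ hi X Y
  have k2 := hi.self_of_nhds (curv g1 x X Y Y) X
  rw [← k] at k2
  rw [e.eq_of_nhds, e.fderiv_eq] at k2
  rw [← num_congr h1, ← num_congr h2]
  exact k2

end Vale.Agent.P250
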