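import Vale.Agent.P250.Defs
import Vale.Agent.P255.Nat

/-! Auxiliary definitions for the disc bundle counterexample. -/

set_option maxSynthPendingDepth 3

namespace Vale.Agent.P250

open scoped ContDiff Topology ComplexConjugate
open Complex Set

section Jets

variable {E : Type} [NormedAddCommGroup E] [NormedSpace ℝ E]

noncomputable def D2 (f : E → ℝ) (x : E) : E →L[ℝ] E →L[ℝ] ℝ := fderiv ℝ (fderiv ℝ f) x

noncomputable def D3 (f : E → ℝ) (x : E) : E →L[ℝ] E →L[ℝ] E →L[ℝ] ℝ := fderiv ℝ (D2 f) x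

noncomputable def D4 (f : E → ℝ) (x : E) : E →L[ℝ] E →L[ℝ] E →L[ℝ] E →L[ℝ] ℝ :=
  fderiv ℝ (D3 f) x

variable [NormedSpace ℂ E] [IsScalarTower ℝ ℂ E]

/-- multiplication by `i` -/
noncomputable def Jm (E : Type) [NormedAddCommGroup E] [NormedSpace ℝ E] [NormedSpace ℂ E]
    [IsScalarTower ℝ ℂ E] : E →L[ℝ] E :=
  (I • ContinuousLinearMap.id ℂ E).restrictScalars ℝ

theorem Jm_apply (v : E) : Jm E v = I • v := rfl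

/-- the Levi form (as a real symmetric bilinear form) -/
noncomputable def levi (f : E → ℝ) (x : E) : E →L[ℝ] E →L[ℝ] ℝ :=
  D2 f x + (D2 f x).bilinearComp (Jm E) (Jm E)

theorem levi_apply (f : E → ℝ) (x a b : E) :
    levi f x a b = D2 f x a b + D2 f x (I • a) (I • b) := rfl

end Jets

section Forms

variable {E : Type} [SMul ℂ E]

/-- lowered Christoffel symbols of a Levi form with third jet `T` -/
noncomputable def gamF (T : E → E → E → ℝ) (X Y Z : E) : ℝ :=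
  1 / 2 * (T X Y Z + T X (I • Y) (I • Z) + T Y (I • X) (I • Z) - T Z (I • X) (I • Y))

/-- the fourth order part of the sectional curvature -/
noncomputable def q4 (U : E → E → E → E → ℝ) (X Y : E) : ℝ :=
  U X X (I • Y) (I • Y) + U Y Y (I • X) (I • X) - 2 * U X Y (I • X) (I • Y)

end Forms

/-- the base -/
abbrev B2 : Type := ℂ × ℂ

abbrev T3 : Type := B2 →L[ℝ] B2 →L[ℝ] B2 →L[ℝ] ℝ

abbrev T4 : Type := B2 →L[ℝ] B2 →L[ℝ] B2 →L[ℝ] B2 →L[ℝ] ℝ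

/-- diagonal Hermitian form -/
noncomputable def hq (m₁ m₂ : ℝ) (a b : B2) : ℂ := m₁ * (a.1 * conj b.1) + m₂ * (a.2 * conj b.2)

/-- squared area of the parallelogram for a diagonal Hermitian form -/
noncomputable def ww (m₁ m₂ : ℝ) (x y : B2) : ℝ :=
  (hq m₁ m₂ x x).re * (hq m₁ m₂ y y).re - (hq m₁ m₂ x y).re ^ 2

noncomputable def el (X : C3) : ℝ := 2 * X.2.re

noncomputable def P2 (A u s₁ s₂ : ℝ) (X Y : C3) : ℝ :=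
  2 * A * (hq 1 1 X.1 Y.1).re + u * (hq s₁ s₂ X.1 Y.1).re + u * (1 + u) * (el X * el Y)

noncomputable def P3 (u s₁ s₂ : ℝ) (T : T3) (X Y Z : C3) : ℝ :=
  u * T X.1 Y.1 Z.1 + u * (1 + u) * ((hq s₁ s₂ X.1 Y.1).re * el Z + (hq s₁ s₂ X.1 Z.1).re * el Y
    + (hq s₁ s₂ Y.1 Z.1).re * el X) + u * (1 + u) * (1 + 2 * u) * (el X * el Y * el Z)

noncomputable def P4 (A u s₁ s₂ : ℝ) (T : T3) (U : T4) (X Y Z W : C3) : ℝ :=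
  4 * A * ((hq 1 1 X.1 Y.1).re * (hq 1 1 Z.1 W.1).re + (hq 1 1 X.1 Z.1).re * (hq 1 1 Y.1 W.1).re
      + (hq 1 1 X.1 W.1).re * (hq 1 1 Y.1 Z.1).re)
    + u * U X.1 Y.1 Z.1 W.1
    + u * (1 + u) * (T Y.1 Z.1 W.1 * el X + T X.1 Z.1 W.1 * el Y + T X.1 Y.1 W.1 * el Z
      + T X.1 Y.1 Z.1 * el W + (hq s₁ s₂ X.1 Y.1).re * (hq s₁ s₂ Z.1 W.1).re
      + (hq s₁ s₂ X.1 Z.1).re * (hq s₁ s₂ Y.1 W.1).re
      + (hq s₁ s₂ X.1 W.1).re * (hq s₁ s₂ Y.1 Z.1).re)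
    + u * (1 + u) * (1 + 2 * u) * ((hq s₁ s₂ X.1 Y.1).re * (el Z * el W)
      + (hq s₁ s₂ X.1 Z.1).re * (el Y * el W) + (hq s₁ s₂ X.1 W.1).re * (el Y * el Z)
      + (hq s₁ s₂ Y.1 Z.1).re * (el X * el W) + (hq s₁ s₂ Y.1 W.1).re * (el X * el Z)
      + (hq s₁ s₂ Z.1 W.1).re * (el X * el Y))
    + u * (1 + u) * (1 + 6 * u + 6 * u ^ 2) * (el X * el Y * el Z * el W)

/-- the model metric -/
noncomputable def Gm (A u s₁ s₂ : ℝ) (X Y : C3) : ℝ :=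
  P2 A u s₁ s₂ X Y + P2 A u s₁ s₂ (I • X) (I • Y)

/-- bounded symmetric jets -/
structure JB (C s₁ s₂ : ℝ) (T : T3) (U : T4) : Prop where
  l₁ : 2 ≤ s₁
  l₂ : 2 ≤ s₂
  u₁ : s₁ ≤ C
  u₂ : s₂ ≤ C
  t12 : ∀ a b c, T a b c = T b a c
  t23 : ∀ a b c, T a b c = T a c b
  q12 : ∀ a b c d, U a b c d = U b a c d
  q23 : ∀ a b c d, U a b c d = U a c b d
  q34 : ∀ a b c d, U a b c d = U a b d c
  tb : ∀ a b c, |T a b c| ≤ C * (‖a‖ * ‖b‖ * ‖c‖)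
  qb : ∀ a b c d, |U a b c d| ≤ C * (‖a‖ * ‖b‖ * ‖c‖ * ‖d‖)

/-- the vector representing `gamF T x y` -/
noncomputable def cv (T : T3) (x y : B2) : B2 :=
  ((gamF (fun a b c => T a b c) x y (1, 0) : ℂ) + I * (gamF (fun a b c => T a b c) x y (I, 0) : ℂ),
   (gamF (fun a b c => T a b c) x y (0, 1) : ℂ) + I * (gamF (fun a b c => T a b c) x y (0, I) : ℂ))

/-- the Christoffel vector of the model -/
noncomputable def hv (A u s₁ s₂ : ℝ) (T : T3) (X Y : C3) : C3 :=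
  (((u * (cv T X.1 Y.1).1 + 2 * (u * (1 + u)) * s₁ * (Y.2 * X.1.1 + X.2 * Y.1.1))
      / (4 * A + 2 * u * s₁ : ℝ),
    (u * (cv T X.1 Y.1).2 + 2 * (u * (1 + u)) * s₂ * (Y.2 * X.1.2 + X.2 * Y.1.2))
      / (4 * A + 2 * u * s₂ : ℝ)),
   (1 + 2 * u) * (X.2 * Y.2))

noncomputable def mu (X Y : C3) : B2 := conj Y.2 • X.1 - conj X.2 • Y.1

noncomputable def tau (X Y : C3) : ℝ := (X.2 * conj Y.2).im

noncomputable def bw (A u s : ℝ) : ℝ := s * (1 + 2 * u - 2 * (u * (1 + u)) * s / (4 * A + 2 * u * s))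

/-- error terms quadratic in the horizontal area -/
noncomputable def e13 (A u s₁ s₂ : ℝ) (T : T3) (U : T4) (x y : B2) : ℝ :=
  1 / 2 * u * q4 (fun a b c d => U a b c d) x y
    - u ^ 2 * ((hq (1 / (4 * A + 2 * u * s₁)) (1 / (4 * A + 2 * u * s₂)) (cv T x y) (cv T x y)).re
      - (hq (1 / (4 * A + 2 * u * s₁)) (1 / (4 * A + 2 * u * s₂)) (cv T x x) (cv T y y)).re)

/-- mixed error term -/
noncomputable def om (m₁ m₂ : ℝ) (T : T3) (v x y : B2) : ℝ :=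
  (hq m₁ m₂ (cv T v y) x).re - (hq m₁ m₂ (cv T v x) y).re

/-! The Siegel domain and its affine automorphisms. -/

noncomputable def dl (p : B2) : ℝ := p.2.im - ‖p.1‖ ^ 2

def HH : Set B2 := {p | 0 < dl p}

noncomputable def tt (p : B2) : ℝ := -Real.log (dl p)

noncomputable def aff (z₀ : ℂ) (x₀ r : ℝ) (p : B2) : B2 :=
  (z₀ + r * p.1, x₀ + I * (‖z₀‖ ^ 2 : ℝ) + r ^ 2 * p.2 + 2 * I * r * conj z₀ * p.1)

noncomputable def ainv (z₀ : ℂ) (x₀ r : ℝ) (p : B2) : B2 :=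
  ((p.1 - z₀) / r, (p.2 - x₀ + I * (‖z₀‖ ^ 2 : ℝ) - 2 * I * conj z₀ * p.1) / r ^ 2)

noncomputable def rr (a : ℂ) : ℝ := Real.sqrt (1 - ‖a‖ ^ 2)

noncomputable def kap (a : ℂ) : ℂ := -2 * I * conj a / (1 - ‖a‖ ^ 2 : ℝ)

/-- the automorphism attached to a word -/
noncomputable def Gam : List ℂ → B2 → B2
  | [], p => p
  | a :: g, p => aff a 0 (rr a) (Gam g p)

noncomputable def Gin : List ℂ → B2 → B2
  | [], p => p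
  | a :: g, p => Gin g (ainv a 0 (rr a) p)

noncomputable def rad (g : List ℂ) : ℝ := (g.map rr).prod

/-- a logarithmic well with flat bottom -/
structure IsWell (η : ℝ) (ψ : ℂ → ℝ) : Prop where
  smooth : ContDiff ℝ ∞ ψ
  out : ∀ z, η ≤ ‖z‖ → ψ z = Real.log (‖z‖ ^ 2)
  flat : ∀ z, ‖z‖ ≤ η / 2 → ψ z = ψ 0
  bot : Real.log (η ^ 2) - 1 ≤ ψ 0
  ge : ∀ z, ψ 0 ≤ ψ z
  le : ∀ z, ‖z‖ ≤ η → ψ z ≤ Real.log (η ^ 2)
  psh : ∀ z v, 0 ≤ levi ψ z v v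

/-- a separated, relatively dense net near the unit circle -/
structure IsNet (δ : ℝ) (N : Set ℂ) : Prop where
  count : N.Countable
  lo : ∀ a ∈ N, 1 - δ ≤ ‖a‖
  hi : ∀ a ∈ N, ‖a‖ < 1
  sep : ∀ a ∈ N, ∀ b ∈ N, a ≠ b → min (1 - ‖a‖) (1 - ‖b‖) / 100 ≤ ‖a - b‖
  cov : ∀ y : ℂ, 1 - δ - δ / 100 ≤ ‖y‖ → ‖y‖ < 1 → ∃ a ∈ N, ‖y - a‖ ≤ (1 - ‖y‖) / 50
  sum : ∀ s : Finset ℂ, (∀ a ∈ s, a ∈ N) → ∑ a ∈ s, (1 - ‖a‖ ^ 2) ^ 2 ≤ 1 / 2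

/-- words in the net -/
def Wd (N : Set ℂ) : Set (List ℂ) := {g | ∀ a ∈ g, a ∈ N}

noncomputable def psiT (ψ : ℂ → ℝ) (ζ : ℂ) : ℝ :=
  ψ (ζ - I) - Real.log (‖ζ‖ ^ 2) + 2 * (I / ζ).re

noncomputable def phi0 (c : ℝ) (ψ : ℂ → ℝ) (N : Set ℂ) (p : B2) : ℝ :=
  c * ∑' g : Wd N, psiT ψ (Gin g.1 p).2

/-- locally the real part of a holomorphic function -/
def PH (f : B2 → ℝ) (p : B2) : Prop :=
  ∃ (O : Set B2) (H : B2 → ℂ), IsOpen O ∧ p ∈ O ∧ DifferentiableOn ℂ H O ∧ ∀ q ∈ O, f q = (H q).re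

/-- locally at most one well is visible -/
def Good (η c : ℝ) (ψ : ℂ → ℝ) (f : B2 → ℝ) : Prop :=
  ∀ p ∈ HH, PH f p ∨ ∃ (z₀ : ℂ) (x₀ r : ℝ), 0 < r ∧ ‖(ainv z₀ x₀ r p).2 - I‖ ≤ η ∧
    PH (fun q => f q - c * ψ ((ainv z₀ x₀ r q).2 - I)) p

noncomputable def LL (z : B2) : ℝ := -Real.log (1 - (‖z.1‖ ^ 2 + ‖z.2‖ ^ 2))

/-- holomorphic coordinates centred at `p` with bounded jets -/
structure NF0 (φ : B2 → ℝ) (C : ℝ) (p : B2) (O : Set B2) (θ : B2 → B2) (h k : B2 → ℂ)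
    (f : B2 → ℝ) : Prop where
  op : IsOpen O
  mem : (0 : B2) ∈ O
  ctr : θ 0 = p
  maps : MapsTo θ O HH
  small : ∀ z ∈ O, ‖z.1‖ ^ 2 + ‖z.2‖ ^ 2 < 1
  hθ : ContDiffOn ℂ ∞ θ O
  hh : ContDiffOn ℂ ∞ h O
  hk : ContDiffOn ℂ ∞ k O
  hf : ContDiffOn ℝ ∞ f O
  eφ : ∀ z ∈ O, φ (θ z) = f z + (h z).re
  et : ∀ z ∈ O, tt (θ z) = LL z + (k z).re
  low : ∀ a, 4 * (‖a.1‖ ^ 2 + ‖a.2‖ ^ 2) ≤ levi f 0 a a
  b2 : ‖D2 f 0‖ ≤ C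
  b3 : ‖D3 f 0‖ ≤ C
  b4 : ‖D4 f 0‖ ≤ C

/-- normal form at `p` -/
structure NF (φ : B2 → ℝ) (C : ℝ) (p : B2) (O : Set B2) (θ : B2 → B2) (h k : B2 → ℂ)
    (f : B2 → ℝ) (s₁ s₂ : ℝ) : Prop where
  op : IsOpen O
  mem : (0 : B2) ∈ O
  ctr : θ 0 = p
  maps : MapsTo θ O HH
  small : ∀ z ∈ O, ‖z.1‖ ^ 2 + ‖z.2‖ ^ 2 < 1
  hθ : ContDiffOn ℂ ∞ θ O
  hh : ContDiffOn ℂ ∞ h O
  hk : ContDiffOn ℂ ∞ k O
  hf : ContDiffOn ℝ ∞ f O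
  eφ : ∀ z ∈ O, φ (θ z) = f z + (h z).re
  et : ∀ z ∈ O, tt (θ z) = LL z + (k z).re
  f0 : f 0 = 0
  f1 : fderiv ℝ f 0 = 0
  f2 : ∀ a b, D2 f 0 a b = (hq s₁ s₂ a b).re
  jb : JB C s₁ s₂ (D3 f 0) (D4 f 0)

/-- the disc bundle -/
def MM (φ : B2 → ℝ) : Set C3 := {x | x.1 ∈ HH ∧ ‖x.2‖ ^ 2 * Real.exp (φ x.1) < 1}

/-- the Kähler potential -/
noncomputable def Pot (A : ℝ) (φ : B2 → ℝ) (x : C3) : ℝ :=
  A * tt x.1 - Real.log (1 - ‖x.2‖ ^ 2 * Real.exp (φ x.1))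

/-- the model potential -/
noncomputable def Mod (A s : ℝ) (f : B2 → ℝ) (x : C3) : ℝ :=
  A * LL x.1 - Real.log (1 - s * Real.exp (2 * x.2.re + f x.1))

/-- a proper exhaustion -/
noncomputable def Exh (φ : B2 → ℝ) (x : C3) : ℝ :=
  tt x.1 + Real.log (‖x.1.2 + I‖ ^ 2) - Real.log (1 - ‖x.2‖ ^ 2 * Real.exp (φ x.1))

/-- numerator of the sectional curvature -/
noncomputable def num {V : Type} [NormedAddCommGroup V] [NormedSpace ℝ V]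
    (g : V → V →L[ℝ] V →L[ℝ] ℝ) (x X Y : V) : ℝ := g x (P255.curv g x X Y Y) X

noncomputable def KK : ℝ := Real.exp 250

noncomputable def ETA : ℝ := 1 / (10 ^ 6 * KK ^ 2)

/-- a nonnegative function on the unit disc with wells at the points of the net -/
structure Disc (η c : ℝ) (ψ : ℂ → ℝ) (N : Set ℂ) (U : ℂ → ℝ) : Prop where
  nn : ∀ z, ‖z‖ < 1 → 0 ≤ U z
  harm : ∀ z, ‖z‖ < 1 → ∀ a ∈ N, (∀ b ∈ N, b ≠ a → η < ‖kap b * (z - b)‖) →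
    InnerProductSpace.HarmonicAt
      (fun y => U y + 5 * Real.log (1 - ‖y‖ ^ 2) - c * ψ (kap a * (y - a))) z

/-- the well of the word `g` is not active at `p` -/
def Inact (η : ℝ) (g : List ℂ) (p : B2) : Prop :=
  ‖(Gin g p).2 - I‖ < η / 2 ∨ η < ‖(Gin g p).2 - I‖

/-- the pinching inequality for the model jets -/
def AlgOK (C A a b : ℝ) : Prop :=
  ∀ (u s₁ s₂ : ℝ) (T : T3) (U : T4), 0 < u → JB C s₁ s₂ T U → ∀ X Y h₁ h₂ h₃ : C3,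
    (∀ Z, Gm A u s₁ s₂ h₁ Z = gamF (P3 u s₁ s₂ T) X Y Z) →
    (∀ Z, Gm A u s₁ s₂ h₂ Z = gamF (P3 u s₁ s₂ T) X X Z) →
    (∀ Z, Gm A u s₁ s₂ h₃ Z = gamF (P3 u s₁ s₂ T) Y Y Z) →
    -b * (Gm A u s₁ s₂ X X * Gm A u s₁ s₂ Y Y - Gm A u s₁ s₂ X Y ^ 2) ≤
        -(1 / 2) * q4 (P4 A u s₁ s₂ T U) X Y + Gm A u s₁ s₂ h₁ h₁ - Gm A u s₁ s₂ h₂ h₃ ∧
      -(1 / 2) * q4 (P4 A u s₁ s₂ T U) X Y + Gm A u s₁ s₂ h₁ h₁ - Gm A u s₁ s₂ h₂ h₃ ≤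
        -a * (Gm A u s₁ s₂ X X * Gm A u s₁ s₂ Y Y - Gm A u s₁ s₂ X Y ^ 2)

end Vale.Agent.P250
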