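import Vale.Agent.P255.Bnd
import Vale.Agent.P250.PD

set_option maxSynthPendingDepth 3

namespace Vale.Agent.P250

open scoped ContDiff Topology ComplexConjugate
open Complex Set Filter Vale.Agent.P255

variable {V : Type} [NormedAddCommGroup V] [NormedSpace ℝ V] [FiniteDimensional ℝ V]
  {g : V → V →L[ℝ] V →L[ℝ] ℝ} {U : Set V} {x : V}

theorem curv_bump {W : Type} [NormedAddCommGroup W] [NormedSpace ℝ W] [FiniteDimensional ℝ W]
    {S Ω : Set W} (hS : IsCompact S) (hΩ : IsOpen Ω) (h : S ⊆ Ω) :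
    ∃ χ : W → ℝ, HasCompactSupport χ ∧ (∀ y, 0 ≤ χ y ∧ χ y ≤ 1) ∧ (∀ y, χ y ≠ 0 → y ∈ Ω) ∧
      (∀ y ∈ S, χ =ᶠ[𝓝 y] 1) ∧ ∀ (E : Type) [NormedAddCommGroup E] [NormedSpace ℝ E] (n : ℕ∞)
        (F : W → E), ContDiffOn ℝ n F Ω → ContDiff ℝ n (fun y => χ y • F y) := by
  have : ProperSpace W := FiniteDimensional.proper_real W
  obtain ⟨L, hL, h1, h2⟩ := exists_compact_between hS hΩ h
  obtain ⟨f, f0, f1, f2⟩ := exists_contMDiffMap_zero_one_nhds_of_isClosed (n := ⊤)
    (modelWithCornersSelf ℝ W) (s := (interior L)ᶜ) (t := S) isOpen_interior.isClosed_compl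
    hS.isClosed (disjoint_compl_left_iff_subset.2 h1)
  have hf : ContDiff ℝ ∞ f := f.contMDiff.contDiff
  have h0 : ∀ y, y ∉ L → (f : W → ℝ) =ᶠ[𝓝 y] 0 := fun y hy =>
    f0.filter_mono (nhds_le_nhdsSet (s := (interior L)ᶜ) fun c => hy (interior_subset c))
  refine ⟨f, HasCompactSupport.intro hL fun y hy => (h0 y hy).eq_of_nhds, f2, fun y hy => ?_,
    fun y hy => f1.filter_mono (nhds_le_nhdsSet hy), fun E _ _ n F hF => ?_⟩
  · by_contra c
    exact hy (h0 y fun c' => c (h2 c')).eq_of_nhds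
  · refine contDiff_iff_contDiffAt.2 fun y => ?_
    by_cases hy : y ∈ Ω
    · exact (hf.of_le (by exact_mod_cast le_top)).contDiffAt.smul
        (hF.contDiffAt (hΩ.mem_nhds hy))
    · refine (contDiffAt_const (c := (0 : E))).congr_of_eventuallyEq ?_
      filter_upwards [h0 y fun c' => hy (h2 c')] with z hz
      simp [hz]
theorem loc_metric (hU : IsOpen U) (hx : x ∈ U) (hs : ContDiffOn ℝ ∞ g U)
    (hsy : ∀ y ∈ U, ∀ v w, g y v w = g y w v) (hp : ∀ v, v ≠ 0 → 0 < g x v v) :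
    ∃ g', IsMetric g' ∧ g' =ᶠ[𝓝 x] g := by
  have h0 : IsMetric (fun _ : V => g x) := ⟨contDiff_const, fun _ => hsy x hx, fun _ => hp⟩
  obtain ⟨m, hm, hmx⟩ := bnd_m h0 (isCompact_singleton (x := x))
  have hc : ContinuousAt g x := hs.continuousOn.continuousAt (hU.mem_nhds hx)
  have h1 : ∀ᶠ y in 𝓝 x, y ∈ U ∧ ‖g y - g x‖ < m := by
    refine (show ∀ᶠ y in 𝓝 x, y ∈ U from hU.mem_nhds hx).and ?_
    have := hc.eventually (Metric.ball_mem_nhds (g x) hm)
    simpa only [dist_eq_norm] using this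
  obtain ⟨O, hO, hO1, hO2⟩ := eventually_nhds_iff.1 h1
  obtain ⟨χ, -, c1, c2, c3, c4⟩ := curv_bump (isCompact_singleton (x := x)) hO1
    (singleton_subset_iff.2 hO2)
  refine ⟨fun y => g x + χ y • (g y - g x), ⟨contDiff_const.add (c4 _ ⊤ _
    ((hs.mono fun y hy => (hO y hy).1).sub contDiffOn_const)), fun y v w => ?_, fun y v hv => ?_⟩,
    ?_⟩
  · by_cases hy : χ y = 0
    · simp [hy, hsy x hx v w]
    · simp [hsy x hx v w, hsy y (hO y (c2 y hy)).1 v w]
  · by_cases hy : χ y = 0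
    · simpa [hy] using hp v hv
    · have e1 := (hO y (c2 y hy)).2
      have e2 := hmx x rfl v
      have e3 : |(g y - g x) v v| ≤ ‖g y - g x‖ * ‖v‖ * ‖v‖ := (g y - g x).le_opNorm₂ v v
      have e4 : 0 < ‖v‖ := norm_pos_iff.2 hv
      have e5 : ‖g y - g x‖ * ‖v‖ * ‖v‖ < m * ‖v‖ ^ 2 := by
        rw [mul_assoc, ← pow_two]; exact mul_lt_mul_of_pos_right e1 (by positivity)
      have e6 := neg_abs_le ((g y - g x) v v)
      have e7 := abs_nonneg ((g y - g x) v v)
      show 0 < g x v v + χ y * (g y - g x) v v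
      nlinarith [(c1 y).1, (c1 y).2]
  · filter_upwards [c3 x rfl] with y hy
    simp [hy]

omit [FiniteDimensional ℝ V] in
theorem chr_congr {g' : V → V →L[ℝ] V →L[ℝ] ℝ} (h : g' =ᶠ[𝓝 x] g) (v w : V) :
    chr g' x v w = chr g x v w := by
  rw [chr, chr, h.eq_of_nhds, h.fderiv_eq]

omit [FiniteDimensional ℝ V] in
theorem num_congr {g' : V → V →L[ℝ] V →L[ℝ] ℝ} (h : g' =ᶠ[𝓝 x] g) (X Y : V) :
    num g' x X Y = num g x X Y := by
  have e : ∀ a b : V, (fun y => chr g' y a b) =ᶠ[𝓝 x] fun y => chr g y a b := fun a b =>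
    h.eventually_nhds.mono fun y hy => chr_congr hy a b
  rw [num, num, curv, curv, h.eq_of_nhds, (e Y Y).fderiv_eq, (e X Y).fderiv_eq]
  simp only [chr_congr h]

theorem chr_form (hU : IsOpen U) (hx : x ∈ U) (hs : ContDiffOn ℝ ∞ g U)
    (hsy : ∀ y ∈ U, ∀ v w, g y v w = g y w v) (hp : ∀ v, v ≠ 0 → 0 < g x v v) (X Y Z : V) :
    g x (chr g x X Y) Z =
      1 / 2 * (fderiv ℝ g x X Y Z + fderiv ℝ g x Y X Z - fderiv ℝ g x Z X Y) := by
  obtain ⟨g', hg, h⟩ := loc_metric hU hx hs hsy hp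
  rw [← chr_congr h, ← h.eq_of_nhds, ← h.fderiv_eq]
  exact hg.chr_spec x X Y Z

theorem curv_dchr (hg : IsMetric g) (x w a b u : V) :
    fderiv ℝ g x w (chrL g x a b) u + g x (fderiv ℝ (chrL g) x w a b) u =
      1 / 2 * (fderiv ℝ (fderiv ℝ g) x w a b u + fderiv ℝ (fderiv ℝ g) x w b a u
        - fderiv ℝ (fderiv ℝ g) x w u a b) := by
  have hd := hg.smooth_fderiv.differentiable (by simp)
  have b1 : HasFDerivAt (fun x => g x (chrL g x a b) u) _ x :=
    ((hg.diff x).hasFDerivAt.clm_apply (((hg.diff_chr x).hasFDerivAt.clm_apply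
      (hasFDerivAt_const a _)).clm_apply (hasFDerivAt_const b _))).clm_apply
      (hasFDerivAt_const u _)
  have b0 : ∀ a b e : V, HasFDerivAt (fun x => fderiv ℝ g x a b e) _ x := fun a b e =>
    (((hd x).hasFDerivAt.clm_apply (hasFDerivAt_const a _)).clm_apply
      (hasFDerivAt_const b _)).clm_apply (hasFDerivAt_const e _)
  have b2 := (((b0 a b u).add (b0 b a u)).sub (b0 u a b)).const_mul (1 / 2 : ℝ)
  have b3 := congrArg (fun L => L w) (b1.unique (b2.congr_of_eventuallyEq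
    (Eventually.of_forall fun x => hg.chr_spec x _ _ _)))
  simp only [ContinuousLinearMap.add_apply, ContinuousLinearMap.comp_apply,
    ContinuousLinearMap.flip_apply, map_zero, zero_add,
    ContinuousLinearMap.smul_apply, ContinuousLinearMap.sub_apply, smul_eq_mul,
    ContinuousLinearMap.comp_zero] at b3
  linarith

theorem curv_dd (hg : IsMetric g) (x w a b c : V) :
    fderiv ℝ (fderiv ℝ g) x w a b c = fderiv ℝ (fderiv ℝ g) x w a c b := by
  have hd := hg.smooth_fderiv.differentiable (by simp)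
  have b0 : ∀ a b e : V, HasFDerivAt (fun x => fderiv ℝ g x a b e) _ x := fun a b e =>
    (((hd x).hasFDerivAt.clm_apply (hasFDerivAt_const a _)).clm_apply
      (hasFDerivAt_const b _)).clm_apply (hasFDerivAt_const e _)
  have b3 := congrArg (fun L => L w) ((b0 a b c).unique ((b0 a c b).congr_of_eventuallyEq
    (Eventually.of_forall fun x => hg.fderiv_symm x _ _ _)))
  simpa using b3
theorem num_form (hU : IsOpen U) (hx : x ∈ U) (hs : ContDiffOn ℝ ∞ g U)
    (hsy : ∀ y ∈ U, ∀ v w, g y v w = g y w v) (hp : ∀ v, v ≠ 0 → 0 < g x v v) (X Y : V) :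
    num g x X Y = fderiv ℝ (fderiv ℝ g) x X Y X Y - 1 / 2 * fderiv ℝ (fderiv ℝ g) x X X Y Y
      - 1 / 2 * fderiv ℝ (fderiv ℝ g) x Y Y X X + g x (chr g x X Y) (chr g x X Y)
      - g x (chr g x X X) (chr g x Y Y) := by
  obtain ⟨g', hg, h⟩ := loc_metric hU hx hs hsy hp
  rw [← num_congr h, ← h.eq_of_nhds, ← h.fderiv.fderiv_eq]
  simp only [← chr_congr h, ← chrL_apply]
  rw [num, hg.curv_eq]
  have e1 := curv_dchr hg x X Y Y X
  have e2 := curv_dchr hg x Y X Y X
  have e3 := hg.compat x X (chrL g' x Y Y) X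
  have e4 := hg.compat x Y (chrL g' x X Y) X
  have e5 := curv_dd hg x X Y Y X
  have e6 := curv_dd hg x Y X Y X
  have e7 := hg.symm x (chrL g' x Y Y) (chrL g' x X X)
  rw [hg.chr_symm x Y X] at e4
  simp only [map_add, map_sub, ContinuousLinearMap.add_apply, ContinuousLinearMap.sub_apply]
  linarith

theorem num_cont (hU : IsOpen U) (hx : x ∈ U) (hs : ContDiffOn ℝ ∞ g U)
    (hsy : ∀ y ∈ U, ∀ v w, g y v w = g y w v) (hp : ∀ v, v ≠ 0 → 0 < g x v v) (X Y : V) :
    ContinuousAt (fun y => num g y X Y) x := by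
  obtain ⟨g', hg, h⟩ := loc_metric hU hx hs hsy hp
  have h1 : Continuous (chrL g') := hg.smooth_chr.continuous
  have h2 : Continuous (fderiv ℝ (chrL g')) := hg.smooth_chr.continuous_fderiv (by simp)
  have h3 : Continuous fun y => num g' y X Y := by
    simp only [num, hg.curv_eq]
    refine (hg.smooth.continuous.clm_apply ?_).clm_apply continuous_const
    exact (((((h2.clm_apply continuous_const).clm_apply continuous_const).clm_apply
      continuous_const).sub (((h2.clm_apply continuous_const).clm_apply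
      continuous_const).clm_apply continuous_const)).add ((h1.clm_apply continuous_const).clm_apply
      ((h1.clm_apply continuous_const).clm_apply continuous_const))).sub
      ((h1.clm_apply continuous_const).clm_apply
      ((h1.clm_apply continuous_const).clm_apply continuous_const))
  exact h3.continuousAt.congr (h.eventually_nhds.mono fun y hy => num_congr hy X Y)

end Vale.Agent.P250
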