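import Vale.Agent.P255.Defs

/-! Kähler metrics on open subsets of `ℂ³`, completeness, pinching, biholomorphisms. -/

namespace Vale.Agent.P250

open scoped ContDiff
open Vale.Agent.P255 Complex

/-- complex three-space -/
abbrev C3 : Type := (ℂ × ℂ) × ℂ

/-- fields of real bilinear forms on `ℂ³` -/
abbrev Met : Type := C3 → C3 →L[ℝ] C3 →L[ℝ] ℝ

/-- `g` is a smooth Riemannian metric on `M`, Hermitian for the complex structure of `ℂ³`, and
its Kähler form `ω(v, w) = g(i v, w)` is closed -/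
structure IsKahlerOn (M : Set C3) (g : Met) : Prop where
  smooth : ContDiffOn ℝ ∞ g M
  symm : ∀ x ∈ M, ∀ v w, g x v w = g x w v
  pos : ∀ x ∈ M, ∀ v, v ≠ 0 → 0 < g x v v
  herm : ∀ x ∈ M, ∀ v w, g x (I • v) (I • w) = g x v w
  closed : ∀ x ∈ M, ∀ u v w,
    fderiv ℝ g x u (I • v) w + fderiv ℝ g x v (I • w) u + fderiv ℝ g x w (I • u) v = 0

/-- geodesic completeness: every initial condition has a geodesic `ℝ → M` -/
def GeodComplete (M : Set C3) (g : Met) : Prop :=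
  ∀ x ∈ M, ∀ v, ∃ c : ℝ → C3, IsGeodesic g c ∧ (∀ s, c s ∈ M) ∧ c 0 = x ∧ deriv c 0 = v

/-- sectional curvature of the real plane spanned by `X, Y` at `x` -/
noncomputable def sec (g : Met) (x X Y : C3) : ℝ :=
  g x (curv g x X Y Y) X / (g x X X * g x Y Y - g x X Y ^ 2)

/-- all real sectional curvatures lie in `[-b, -a]` with `0 < a ≤ b` -/
def Pinched (M : Set C3) (g : Met) : Prop :=
  ∃ a b : ℝ, 0 < a ∧ a ≤ b ∧ ∀ x ∈ M, ∀ X Y : C3, LinearIndependent ℝ ![X, Y] →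
    -b ≤ sec g x X Y ∧ sec g x X Y ≤ -a

/-- `M` is biholomorphic to a bounded domain of `ℂ³` -/
def BiholToBounded (M : Set C3) : Prop :=
  ∃ (Ω : Set C3) (F G : C3 → C3), IsOpen Ω ∧ IsConnected Ω ∧ Bornology.IsBounded Ω ∧
    DifferentiableOn ℂ F M ∧ DifferentiableOn ℂ G Ω ∧ Set.MapsTo F M Ω ∧ Set.MapsTo G Ω M ∧
    (∀ x ∈ M, G (F x) = x) ∧ ∀ y ∈ Ω, F (G y) = y

end Vale.Agent.P250
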