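import Vale.Agent.P250.Harn

set_option maxSynthPendingDepth 3

namespace Vale.Agent.P250

open scoped ContDiff Topology ComplexConjugate
open Complex Set Filter Vale.Agent.P255

variable {δ c : ℝ} {ψ : ℂ → ℝ} {N : Set ℂ} {U : ℂ → ℝ}

theorem desc_near (hδ : 0 < δ) (hδ1 : δ ≤ 1 / 10 ^ 7) (hc : 0 ≤ c) (hN : IsNet δ N)
    (hψ : IsWell ETA ψ) (hU : Disc ETA c ψ N U) {a y : ℂ} (ha : a ∈ N)
    (hn : ‖kap a * (y - a)‖ ≤ KK * ETA) : U a / 2 - c / 4 - 10 ≤ U y := by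
  obtain ⟨e0, e1, -, e3⟩ := eta_facts
  have e2 : KK * ETA ≤ 1 / 10 ^ 8 := by
    rw [ETA, mul_one_div, div_le_div_iff₀ (by positivity) (by positivity)]; nlinarith
  have e4 : -1108 ≤ Real.log (ETA ^ 2) := by
    have := Real.log_le_sub_one_of_pos (x := 10) (by norm_num)
    rw [ETA, KK, Real.log_pow, one_div, Real.log_inv, Real.log_mul (by positivity) (by positivity),
      Real.log_pow, Real.log_pow, Real.log_exp]
    push_cast; linarith
  have hk : ∀ b ∈ N, 2 / 3 ≤ ‖kap b‖ * (1 - ‖b‖) ∧ ‖kap b‖ * (1 - ‖b‖) ≤ 1 := fun b hb =>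
    kap_norm (by linarith [hN.lo b hb]) (hN.hi b hb)
  have a1 := hN.hi a ha
  obtain ⟨k1, k2⟩ := hk a ha
  have k0 := norm_nonneg (kap a)
  have hosc : ∀ z ∈ Metric.closedBall a ((1 - ‖a‖) / 200), ‖z‖ < 1 ∧
      |Real.log (1 - ‖z‖ ^ 2) - Real.log (1 - ‖a‖ ^ 2)| ≤ 1 := fun z hz =>
    log_osc a1 (by rw [mem_closedBall_iff_norm] at hz; linarith)
  have hψ0 : ∀ w : ℂ, ‖w‖ ≤ 1 → ψ w ≤ 0 := fun w hw => by
    rcases le_total ETA ‖w‖ with h | h
    · rw [hψ.out w h]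
      exact Real.log_nonpos (by positivity) (by nlinarith [norm_nonneg w])
    · exact (hψ.le w h).trans (Real.log_nonpos (by positivity) (by nlinarith))
  have hs : ‖y - a‖ ≤ 3 / 2 / 10 ^ 8 * (1 - ‖a‖) := by
    rw [norm_mul] at hn
    nlinarith [norm_nonneg (y - a), mul_le_mul_of_nonneg_right (hn.trans e2) (sub_pos.2 a1).le]
  have hy : y ∈ Metric.ball a ((1 - ‖a‖) / 200) := by rw [mem_ball_iff_norm]; linarith
  have H := (harnack (V := fun z => U z + 5 * Real.log (1 - ‖z‖ ^ 2) - c * ψ (kap a * (z - a))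
      - (5 * Real.log (1 - ‖a‖ ^ 2) - 5)) (fun z hz => ?_) (fun z hz => ?_) hy).1
  · have t : 1 - 1 / 10 ^ 5 ≤ ((1 - ‖a‖) / 200 - ‖y - a‖) / ((1 - ‖a‖) / 200 + ‖y - a‖) := by
      rw [le_div_iff₀ (by linarith [norm_nonneg (y - a)])]; linarith
    simp only [sub_self, mul_zero] at H
    have b1 := hU.nn a a1
    have b2 := mul_nonneg hc (neg_nonneg.2 (hψ0 0 (by simp)))
    have b3 := mul_le_mul_of_nonneg_left (hψ.ge (kap a * (y - a))) hc
    have b4 := mul_le_mul_of_nonneg_left ((sub_le_sub_right e4 1).trans hψ.bot) hc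
    have b5 := abs_le.1 (hosc y (Metric.ball_subset_closedBall hy)).2
    have b6 := mul_le_mul_of_nonneg_right t (show 0 ≤ U a + 5 * Real.log (1 - ‖a‖ ^ 2) - c * ψ 0
      - (5 * Real.log (1 - ‖a‖ ^ 2) - 5) by linarith)
    linarith
  · refine (hU.harm z (hosc z hz).1 a ha fun b hb hba => ?_).sub
      (InnerProductSpace.harmonicAt_const _)
    rw [mem_closedBall_iff_norm] at hz
    have c1 := hN.sep a ha b hb hba.symm
    have c2 := abs_le.1 (abs_norm_sub_norm_le a b)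
    have c3 : ‖a - b‖ ≤ ‖z - a‖ + ‖z - b‖ := by
      simpa [norm_sub_rev, add_comm] using norm_sub_le (z - b) (z - a)
    have c4 : (1 - ‖b‖) / 300 ≤ ‖z - b‖ := by
      rcases min_choice (1 - ‖a‖) (1 - ‖b‖) with h | h <;> rw [h] at c1 <;> linarith
    rw [norm_mul]
    nlinarith [(hk b hb).1, mul_le_mul_of_nonneg_left c4 (norm_nonneg (kap b))]
  · have b1 := hU.nn z (hosc z hz).1
    have b5 := abs_le.1 (hosc z hz).2
    rw [mem_closedBall_iff_norm] at hz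
    have b2 := mul_nonneg hc (neg_nonneg.2 (hψ0 (kap a * (z - a)) (by
      rw [norm_mul]; nlinarith [mul_le_mul_of_nonneg_left hz k0])))
    linarith

end Vale.Agent.P250
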