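import Vale.Agent.P250.Harn

set_option maxSynthPendingDepth 3

namespace Vale.Agent.P250

open scoped ContDiff Topology ComplexConjugate
open Complex Set Filter Vale.Agent.P255

variable {δ c : ℝ} {ψ : ℂ → ℝ} {N : Set ℂ} {U : ℂ → ℝ}

theorem descB_pick (hδ1 : δ ≤ 1 / 10 ^ 7) (hN : IsNet δ N) {y : ℂ}
    (h0 : 1 - δ - δ / 100 ≤ ‖y‖) (h1 : ‖y‖ < 1)
    (hf : ∀ a ∈ N, KK * ETA < ‖kap a * (y - a)‖) :
    ∃ a ∈ N, ‖y - a‖ ≤ (1 - ‖y‖) / 50 ∧ ∀ b ∈ N, ‖y - a‖ ≤ 1.01 * ‖y - b‖ := by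
  obtain ⟨e1, e2, -, -⟩ := eta_facts
  have hκ : 0 < KK * ETA := by positivity
  obtain ⟨a₀, ha₀, h2⟩ := hN.cov y h0 h1
  set S : Set ℝ := (fun b => ‖y - b‖) '' N with hS
  have hne : S.Nonempty := ⟨_, a₀, ha₀, rfl⟩
  have hlow : ∀ t ∈ S, KK * ETA * (1 - ‖y‖) / (1 + KK * ETA) ≤ t := by
    rintro _ ⟨b, hb, rfl⟩
    have k1 := (kap_norm (a := b) (by linarith [hN.lo b hb]) (hN.hi b hb)).2
    have k2 := hf b hb
    have k3 : ‖b‖ ≤ ‖y‖ + ‖y - b‖ := by
      simpa using norm_sub_le y (y - b)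
    have k4 := sub_pos.2 (hN.hi b hb)
    rw [norm_mul] at k2
    have k5 : KK * ETA * (1 - ‖b‖) ≤ ‖y - b‖ := by
      nlinarith [mul_le_mul_of_nonneg_right k2.le k4.le,
        mul_le_mul_of_nonneg_right k1 (norm_nonneg (y - b))]
    rw [div_le_iff₀ (by positivity)]
    nlinarith
  have hb : BddBelow S := ⟨_, hlow⟩
  have hm : 0 < sInf S := lt_of_lt_of_le (div_pos (mul_pos hκ (sub_pos.2 h1)) (by positivity))
    (le_csInf hne hlow)
  have hle : ∀ b ∈ N, sInf S ≤ ‖y - b‖ := fun b hb' => csInf_le hb ⟨b, hb', rfl⟩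
  by_cases h3 : ‖y - a₀‖ ≤ 1.01 * sInf S
  · exact ⟨a₀, ha₀, h2, fun b hb' => by linarith [hle b hb']⟩
  · obtain ⟨_, ⟨a, ha, rfl⟩, h4⟩ := exists_lt_of_csInf_lt hne (show sInf S < 1.01 * sInf S by linarith)
    exact ⟨a, ha, by linarith, fun b hb' => by linarith [hle b hb']⟩

theorem descB_sep (hN : IsNet δ N) {y a b : ℂ} (ha : a ∈ N) (hb : b ∈ N) (hab : b ≠ a)
    (h1 : ‖y - a‖ ≤ (1 - ‖y‖) / 50) (h2 : ‖y - a‖ ≤ 1.01 * ‖y - b‖) :
    0.598 * ‖y - a‖ ≤ ‖b - (a + y) / 2‖ := by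
  have s0 := norm_nonneg (y - a)
  by_cases h3 : ‖y - b‖ ≤ 3 * (1 - ‖y‖) / 100
  · have k1 : ‖b‖ ≤ ‖y‖ + ‖y - b‖ := by simpa using norm_sub_le y (y - b)
    have k2 : ‖a‖ ≤ ‖y‖ + ‖y - a‖ := by simpa using norm_sub_le y (y - a)
    have k3 : 0.485 * ‖y - a‖ ≤ ‖b - a‖ := by
      have := hN.sep b hb a ha hab
      rcases min_cases (1 - ‖b‖) (1 - ‖a‖) with h | h <;> rw [h.1] at this <;> linarith
    have k4 : ‖b - (a + y) / 2‖ ^ 2 = (‖y - b‖ ^ 2 + ‖b - a‖ ^ 2) / 2 - ‖y - a‖ ^ 2 / 4 := by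
      simp only [Complex.sq_norm, Complex.normSq_apply, sub_re, sub_im, div_ofNat_re, div_ofNat_im,
        add_re, add_im]
      ring
    refine le_of_sq_le_sq ?_ (norm_nonneg _)
    have k5 := pow_le_pow_left₀ (by positivity) k3 2
    have k6 := pow_le_pow_left₀ s0 h2 2
    nlinarith
  · have k1 := norm_sub_le (b - (a + y) / 2) ((y - a) / 2)
    rw [show b - (a + y) / 2 - (y - a) / 2 = -(y - b) by ring, norm_neg, norm_div,
      Complex.norm_ofNat] at k1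
    linarith

theorem desc_far (hδ : 0 < δ) (hδ1 : δ ≤ 1 / 10 ^ 7) (hc : 0 ≤ c) (hN : IsNet δ N)
    (hψ : IsWell ETA ψ) (hU : Disc ETA c ψ N U) {y : ℂ} (h0 : 1 - δ - δ / 100 ≤ ‖y‖) (h1 : ‖y‖ < 1)
    (hf : ∀ a ∈ N, KK * ETA < ‖kap a * (y - a)‖) : c - 5 ≤ U y := by
  obtain ⟨e1, e2, -, -⟩ := eta_facts
  obtain ⟨a, ha, h2, h3⟩ := descB_pick hδ1 hN h0 h1 hf
  have h4 := hf a ha
  rw [norm_mul] at h4
  set s := ‖y - a‖ with hs
  set k := ‖kap a‖ with hk
  have k0 : 0 ≤ k := norm_nonneg _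
  have e3 : ETA < KK * ETA := by nlinarith
  have s0 : 0 < s := by
    rcases (norm_nonneg (y - a)).eq_or_lt with h | h
    · rw [← hs] at h; rw [← h] at h4; linarith
    · exact h
  have m1 : ‖y - (a + y) / 2‖ = s / 2 := by
    rw [show y - (a + y) / 2 = (y - a) / 2 by ring, norm_div, Complex.norm_ofNat]
  have m2 : ‖a - (a + y) / 2‖ = s / 2 := by
    rw [show a - (a + y) / 2 = -((y - a) / 2) by ring, norm_neg, norm_div, Complex.norm_ofNat]
  set V : ℂ → ℝ := (fun z => U z + 5 * Real.log (1 - ‖z‖ ^ 2) - c * ψ (kap a * (z - a))) +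
    fun _ => -5 * Real.log (1 - ‖y‖ ^ 2) + 5 + c * Real.log ((k * (1.05 * s)) ^ 2) with hV
  have tri : ∀ z w : ℂ, z ∈ Metric.closedBall ((a + y) / 2) (0.55 * s) →
      ‖w - (a + y) / 2‖ = s / 2 → ‖z - w‖ ≤ 1.05 * s := fun z w hz hw => by
    have := norm_sub_le_norm_sub_add_norm_sub z ((a + y) / 2) w
    rw [mem_closedBall_iff_norm] at hz
    rw [norm_sub_rev ((a + y) / 2) w, hw] at this
    linarith
  have osc : ∀ z ∈ Metric.closedBall ((a + y) / 2) (0.55 * s), ‖z‖ < 1 ∧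
      |Real.log (1 - ‖z‖ ^ 2) - Real.log (1 - ‖y‖ ^ 2)| ≤ 1 := fun z hz =>
    log_osc h1 (by linarith [tri z y hz m1])
  have hH : InnerProductSpace.HarmonicOnNhd V (Metric.closedBall ((a + y) / 2) (0.55 * s)) :=
    fun z hz => (hU.harm z (osc z hz).1 a ha fun b hb hab => by
      have k1 := descB_sep hN ha hb hab h2 (h3 b hb)
      have k2 := norm_sub_le_norm_sub_add_norm_sub b z ((a + y) / 2)
      have k3 := norm_sub_le_norm_sub_add_norm_sub y ((a + y) / 2) b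
      have k4 := hf b hb
      rw [mem_closedBall_iff_norm] at hz
      rw [norm_sub_rev b z] at k2
      rw [norm_sub_rev ((a + y) / 2) b, m1] at k3
      have k5 : ‖y - b‖ ≤ 25 * ‖z - b‖ := by linarith
      rw [norm_mul] at k4 ⊢
      nlinarith [mul_le_mul_of_nonneg_left k5 (norm_nonneg (kap b))]).add
        (InnerProductSpace.harmonicAt_const _)
  have wl : Real.log (ETA ^ 2) + 500 ≤ Real.log ((k * (1.05 * s)) ^ 2) := by
    have k1 : Real.log ((KK * ETA) ^ 2) = Real.log (ETA ^ 2) + 500 := by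
      rw [mul_pow, Real.log_mul (by positivity) (by positivity), KK, Real.log_pow, Real.log_exp]
      push_cast; ring
    rw [← k1]
    exact Real.log_le_log (by positivity) (pow_le_pow_left₀ (by positivity) (by nlinarith) 2)
  have hnn : ∀ z ∈ Metric.closedBall ((a + y) / 2) (0.55 * s), 0 ≤ V z := fun z hz => by
    have k1 := hU.nn z (osc z hz).1
    have k2 := (abs_le.1 (osc z hz).2).1
    have k3 : ψ (kap a * (z - a)) ≤ Real.log ((k * (1.05 * s)) ^ 2) := by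
      rcases le_total ETA ‖kap a * (z - a)‖ with h | h
      · rw [hψ.out _ h]
        refine Real.log_le_log (pow_pos (e1.trans_le h) 2) (pow_le_pow_left₀ (norm_nonneg _) ?_ 2)
        rw [norm_mul]
        exact mul_le_mul_of_nonneg_left (tri z a hz m2) k0
      · linarith [hψ.le _ h]
    simp only [hV, Pi.add_apply]
    nlinarith [mul_le_mul_of_nonneg_left k3 hc]
  have ba : a ∈ Metric.ball ((a + y) / 2) (0.55 * s) := by
    rw [mem_ball_iff_norm, m2]; linarith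
  have by' : y ∈ Metric.ball ((a + y) / 2) (0.55 * s) := by
    rw [mem_ball_iff_norm, m1]; linarith
  have q : (0.55 * s - s / 2) / (0.55 * s + s / 2) = 1 / 21 := by field_simp; ring
  have g1 := (harnack hH hnn ba).2
  have g2 := (harnack hH hnn by').1
  rw [m2, q] at g1
  rw [m1, q] at g2
  have va : 500 * c ≤ V a := by
    have k1 := hU.nn a (hN.hi a ha)
    have k2 := (abs_le.1 (osc a (Metric.ball_subset_closedBall ba)).2).1
    have k3 := hψ.le 0 (by simpa using e1.le)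
    simp only [hV, Pi.add_apply, sub_self, mul_zero]
    nlinarith [mul_le_mul_of_nonneg_left k3 hc, mul_le_mul_of_nonneg_left wl hc]
  have vy : V y ≤ U y + 5 + 0.1025 * c := by
    have k1 : Real.log ((k * (1.05 * s)) ^ 2) ≤ ψ (kap a * (y - a)) + 0.1025 := by
      have k2 : 0 < k * s := by nlinarith
      rw [hψ.out _ (by rw [norm_mul]; linarith), norm_mul,
        show (k * (1.05 * s)) ^ 2 = (k * s) ^ 2 * 1.1025 by ring,
        Real.log_mul (by positivity) (by norm_num)]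
      linarith [Real.log_le_sub_one_of_pos (show (0 : ℝ) < 1.1025 by norm_num)]
    simp only [hV, Pi.add_apply]
    nlinarith [mul_le_mul_of_nonneg_left k1 hc]
  linarith

end Vale.Agent.P250
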