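import Vale.Agent.P250.DescB

set_option maxSynthPendingDepth 3

namespace Vale.Agent.P250

open scoped ContDiff Topology ComplexConjugate
open Complex Set Filter Vale.Agent.P255

variable {δ c : ℝ} {ψ : ℂ → ℝ} {N : Set ℂ} {U : ℂ → ℝ}

theorem descI_far (hδ : 0 < δ) (hδ1 : δ ≤ 1 / 10 ^ 7) (hN : IsNet δ N) {z b : ℂ} (hb : b ∈ N)
    (hz : ‖z‖ ≤ 1 - δ - δ / 100) : 1 / 150 ≤ ‖kap b * (z - b)‖ := by
  have h1 := hN.lo b hb
  have h2 := hN.hi b hb
  have h3 := (kap_norm (a := b) (by linarith) h2).1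
  have h4 : ‖b‖ - ‖z‖ ≤ ‖z - b‖ := by
    rw [norm_sub_rev]
    exact norm_sub_norm_le b z
  have h5 : (1 - ‖b‖) / 100 ≤ ‖z - b‖ := by linarith
  have h6 := mul_le_mul_of_nonneg_left h5 (norm_nonneg (kap b))
  rw [norm_mul]
  linarith

theorem desc_in (hδ : 0 < δ) (hδ1 : δ ≤ 1 / 10 ^ 7) (hc : 0 ≤ c) (hN : IsNet δ N)
    (hψ : IsWell ETA ψ) (hU : Disc ETA c ψ N U) {y : ℂ} (h0 : ‖y‖ ≤ 1 - δ - δ / 100) :
    c - 5 + 5 * Real.log δ ≤ U y := by
  obtain ⟨e0, e1, e2, e3⟩ := eta_facts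
  have hR : 0 < 1 - δ - δ / 100 := by linarith
  have hn : ‖((1 - δ - δ / 100 : ℝ) : ℂ)‖ = 1 - δ - δ / 100 := by
    rw [Complex.norm_real, Real.norm_of_nonneg hR.le]
  obtain ⟨a, ha, -⟩ := hN.cov ((1 - δ - δ / 100 : ℝ) : ℂ) hn.ge (by rw [hn]; linarith)
  have hV : InnerProductSpace.HarmonicOnNhd (fun y => U y + 5 * Real.log (1 - ‖y‖ ^ 2))
      (Metric.closedBall 0 (1 - δ - δ / 100)) := by
    intro z hz
    rw [mem_closedBall_zero_iff] at hz
    have h1 := hU.harm z (by linarith) a ha fun b hb _ => by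
      linarith [descI_far hδ hδ1 hN hb hz]
    have h2 := descI_far hδ hδ1 hN ha hz
    have h3 : AnalyticAt ℂ (fun y => kap a * (y - a)) z := by fun_prop
    have h4 := (h3.harmonicAt_log_norm (norm_pos_iff.1 (by linarith))).const_smul (c := 2 * c)
    refine (InnerProductSpace.harmonicAt_congr_nhds ?_).1 (h1.add h4)
    have h5 : ∀ᶠ y in 𝓝 z, ETA < ‖kap a * (y - a)‖ :=
      h3.continuousAt.norm.eventually_const_lt (by linarith)
    filter_upwards [h5] with y hy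
    simp only [Pi.add_apply, Pi.smul_apply, smul_eq_mul]
    rw [hψ.out _ hy.le, Real.log_pow]
    push_cast
    ring
  have h1 := minp (m := c - 5 + 5 * Real.log δ) hR hV (fun z hz => by
    rw [mem_sphere_zero_iff_norm] at hz
    have h2 := desc_far hδ hδ1 hc hN hψ hU hz.ge (by linarith) fun b hb => by
      linarith [descI_far hδ hδ1 hN hb hz.le]
    have h3 : Real.log δ ≤ Real.log (1 - ‖z‖ ^ 2) :=
      Real.log_le_log hδ (by rw [hz]; nlinarith)
    linarith) (mem_closedBall_zero_iff.2 h0)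
  have h2 : Real.log (1 - ‖y‖ ^ 2) ≤ 0 :=
    Real.log_nonpos (by nlinarith [norm_nonneg y]) (by nlinarith [norm_nonneg y])
  linarith

end Vale.Agent.P250
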