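import Vale.Agent.P250.DescA
import Vale.Agent.P250.DescI

set_option maxSynthPendingDepth 3

namespace Vale.Agent.P250

open scoped ContDiff Topology ComplexConjugate
open Complex Set Filter Vale.Agent.P255

theorem descent {δ : ℝ} {ψ : ℂ → ℝ} {N : Set ℂ} (hδ : 0 < δ) (hδ1 : δ ≤ 1 / 10 ^ 7)
    (hN : IsNet δ N) (hψ : IsWell ETA ψ) {u : List ℂ → ℂ → ℝ}
    (hu : ∀ g ∈ Wd N, Disc ETA (100 - 20 * Real.log δ) ψ N (u g))
    (hch : ∀ g ∈ Wd N, ∀ a ∈ N, u g a = u (g ++ [a]) 0) : False := by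
  have hL : Real.log δ ≤ 0 := Real.log_nonpos hδ.le (by linarith)
  have hc : 0 ≤ 100 - 20 * Real.log δ := by linarith
  let S : Set ℝ := {t | ∃ g ∈ Wd N, ∃ z : ℂ, ‖z‖ < 1 ∧ u g z = t}
  have hb : BddBelow S := ⟨0, fun t ⟨g, hg, z, hz, e⟩ => e ▸ (hu g hg).nn z hz⟩
  have hD : ∀ g ∈ Wd N, Disc ETA (100 - 20 * Real.log δ) ψ N (fun z => u g z - sInf S) :=
    fun g hg => ⟨fun z hz => sub_nonneg.2 (csInf_le hb ⟨g, hg, z, hz, rfl⟩), fun z hz a ha h => by
      convert ((hu g hg).harm z hz a ha h).sub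
        (InnerProductSpace.harmonicAt_const (c := sInf S)) using 1
      funext y; simp only [Pi.sub_apply]; ring⟩
  have : sInf S + 1 ≤ sInf S := by
    refine le_csInf ⟨_, [], by simp [Wd], 0, by simp, rfl⟩ ?_
    rintro t ⟨g, hg, y, hy, rfl⟩
    by_cases h0 : ‖y‖ ≤ 1 - δ - δ / 100
    · linarith [desc_in hδ hδ1 hc hN hψ (hD g hg) h0]
    by_cases h1 : ∀ a ∈ N, KK * ETA < ‖kap a * (y - a)‖
    · linarith [desc_far hδ hδ1 hc hN hψ (hD g hg) (not_le.1 h0).le hy h1]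
    push Not at h1
    obtain ⟨a, ha, h1⟩ := h1
    have hg' : g ++ [a] ∈ Wd N := fun b hb => by
      rcases List.mem_append.1 hb with h | h
      · exact hg b h
      · rwa [List.mem_singleton.1 h]
    have a1 := desc_near hδ hδ1 hc hN hψ (hD g hg) ha h1
    have a2 := desc_in (y := 0) hδ hδ1 hc hN hψ (hD _ hg') (by rw [norm_zero]; linarith)
    rw [hch g hg a ha] at a1
    linarith
  linarith

end Vale.Agent.P250
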