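import Vale.Agent.P250.PD

set_option maxSynthPendingDepth 3

namespace Vale.Agent.P250

open scoped ContDiff Topology ComplexConjugate
open Complex Set Filter Vale.Agent.P255

theorem Diag_dec (a : B2) : a = a.1.re • ((1, 0) : B2) + a.1.im • ((I, 0) : B2)
    + a.2.re • ((0, 1) : B2) + a.2.im • ((0, I) : B2) := by
  ext <;> simp

theorem Diag_form (S : B2 →L[ℝ] B2 →L[ℝ] ℝ) (hs : ∀ a b, S a b = S b a)
    (hj : ∀ a b, S (I • a) (I • b) = S a b) :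
    ∃ (p r : ℝ) (q : ℂ), ∀ a b : B2, S a b = (p * (a.1 * conj b.1) + r * (a.2 * conj b.2)
      + q * (a.1 * conj b.2) + conj q * (a.2 * conj b.1)).re := by
  have n1 : ∀ a b, S (I • a) b = -S a (I • b) := by
    intro a b
    rw [← hj a (I • b), smul_smul, I_mul_I, neg_one_smul, map_neg, neg_neg]
  have i1 : ((I, 0) : B2) = I • ((1, 0) : B2) := by simp
  have i2 : ((0, I) : B2) = I • ((0, 1) : B2) := by simp
  have a1 : S (I, 0) (I, 0) = S (1, 0) (1, 0) := by rw [i1, hj]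
  have a2 : S (0, I) (0, I) = S (0, 1) (0, 1) := by rw [i2, hj]
  have a3 : S (I, 0) (0, I) = S (1, 0) (0, 1) := by rw [i1, i2, hj]
  have a4 : S (I, 0) (0, 1) = -S (1, 0) (0, I) := by rw [i1, i2, n1]
  have a5 : S (1, 0) (I, 0) = 0 := by
    have h := n1 (1, 0) (1, 0)
    rw [← i1, hs] at h
    linarith
  have a6 : S (0, 1) (0, I) = 0 := by
    have h := n1 (0, 1) (0, 1)
    rw [← i2, hs] at h
    linarith
  refine ⟨S (1, 0) (1, 0), S (0, 1) (0, 1), ⟨S (1, 0) (0, 1), S (1, 0) (0, I)⟩, fun a b => ?_⟩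
  conv_lhs => rw [Diag_dec a, Diag_dec b]
  simp only [map_add, map_smul, _root_.add_apply, _root_.smul_apply,
    smul_eq_mul]
  rw [hs (I, 0) (1, 0), hs (0, 1) (1, 0), hs (0, I) (1, 0), hs (0, 1) (I, 0), hs (0, I) (I, 0),
    hs (0, I) (0, 1), a1, a2, a3, a4, a5, a6]
  simp
  ring

theorem Diag_rot (A ρ : ℝ) : ∃ c s : ℝ, c ^ 2 + s ^ 2 = 1 ∧ A * (s * c) + ρ * (c ^ 2 - s ^ 2) = 0 := by
  set z : ℂ := ⟨A / 2, -ρ⟩
  refine ⟨Real.cos (arg z / 2), Real.sin (arg z / 2), Real.cos_sq_add_sin_sq _, ?_⟩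
  have h1 : ‖z‖ * Real.cos (arg z) = A / 2 := norm_mul_cos_arg z
  have h2 : ‖z‖ * Real.sin (arg z) = -ρ := norm_mul_sin_arg z
  have h3 : Real.cos (arg z) = Real.cos (arg z / 2) ^ 2 - Real.sin (arg z / 2) ^ 2 := by
    rw [← Real.cos_two_mul']
    congr 1
    ring
  have h4 : Real.sin (arg z) = 2 * Real.sin (arg z / 2) * Real.cos (arg z / 2) := by
    rw [← Real.sin_two_mul]
    congr 1
    ring
  rw [← h3]
  have h5 : A = 2 * (‖z‖ * Real.cos (arg z)) := by linarith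
  have h6 : ρ = -(‖z‖ * Real.sin (arg z)) := by linarith
  generalize ‖z‖ = n at h5 h6
  rw [h5, h6, h4]
  ring

theorem diag (S : B2 →L[ℝ] B2 →L[ℝ] ℝ) (hs : ∀ a b, S a b = S b a)
    (hj : ∀ a b, S (I • a) (I • b) = S a b) :
    ∃ (L : B2 →L[ℂ] B2) (s₁ s₂ : ℝ),
      (∀ a, ‖(L a).1‖ ^ 2 + ‖(L a).2‖ ^ 2 = ‖a.1‖ ^ 2 + ‖a.2‖ ^ 2) ∧
      ∀ a b, S (L a) (L b) = (hq s₁ s₂ a b).re := by
  obtain ⟨p, r, q, h⟩ := Diag_form S hs hj
  obtain ⟨c, s, h1, h2⟩ := Diag_rot (r - p) ‖q‖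
  set θ : ℂ := exp (arg q * I) with hθ
  have hq1 : q = (‖q‖ : ℂ) * θ := (norm_mul_exp_arg_mul_I q).symm
  have hn : ‖θ‖ = 1 := norm_exp_ofReal_mul_I _
  have hc : θ * conj θ = 1 := by
    rw [mul_conj, normSq_eq_norm_sq, hn]
    simp
  generalize ‖q‖ = ρ at hq1 h2
  let f := ContinuousLinearMap.fst ℂ ℂ ℂ
  let g := ContinuousLinearMap.snd ℂ ℂ ℂ
  let L : B2 →L[ℂ] B2 :=
    ((c : ℂ) • f - (s : ℂ) • g).prod (θ • ((s : ℂ) • f + (c : ℂ) • g))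
  have hL : ∀ a : B2, L a = (c * a.1 - s * a.2, θ * (s * a.1 + c * a.2)) := fun a => rfl
  have h1' : (c : ℂ) ^ 2 + (s : ℂ) ^ 2 = 1 := by exact_mod_cast h1
  have h2' : ((r : ℂ) - p) * (s * c) + ρ * (c ^ 2 - s ^ 2) = 0 := by exact_mod_cast h2
  refine ⟨L, p * c ^ 2 + r * s ^ 2 + 2 * ρ * (s * c), p * s ^ 2 + r * c ^ 2 - 2 * ρ * (s * c),
    fun a => ?_, fun a b => ?_⟩
  · rw [hL]
    simp only [norm_mul, hn, one_mul, ← normSq_eq_norm_sq, normSq_apply]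
    simp
    linear_combination (a.1.re ^ 2 + a.1.im ^ 2 + a.2.re ^ 2 + a.2.im ^ 2) * h1
  · rw [h, hL, hL]
    congr 1
    unfold hq
    rw [hq1]
    simp only [map_mul, map_sub, map_add, conj_ofReal]
    push_cast
    linear_combination (a.1 * conj b.2 + a.2 * conj b.1) * h2'
      + (r * ((s * a.1 + c * a.2) * (s * conj b.1 + c * conj b.2))
        + ρ * ((c * a.1 - s * a.2) * (s * conj b.1 + c * conj b.2))
        + ρ * ((s * a.1 + c * a.2) * (c * conj b.1 - s * conj b.2))) * hc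

end Vale.Agent.P250
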