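import Vale.Agent.P250.Curv

set_option maxSynthPendingDepth 3

namespace Vale.Agent.P250

open scoped ContDiff Topology ComplexConjugate
open Complex Set Filter Vale.Agent.P255

theorem geod_ode {W : Type} [NormedAddCommGroup W] [NormedSpace ℝ W] [FiniteDimensional ℝ W]
    {S Ω : Set W} (hS : IsCompact S) (hΩ : IsOpen Ω) (h : S ⊆ Ω) {F : W → W}
    (hF : ContDiffOn ℝ 1 F Ω) {p : W} (hp : p ∈ S) {T : ℝ} (hT : 0 < T) :
    ∃ (χ : W → ℝ) (K : NNReal) (z : ℝ → W), LipschitzWith K (fun y => χ y • F y) ∧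
      (∀ y, 0 ≤ χ y ∧ χ y ≤ 1) ∧ (∀ y ∈ S, χ y = 1) ∧ z 0 = p ∧
      ∀ t ∈ Ioo (-T) T, z t ∈ Ω ∧ HasDerivAt z (χ (z t) • F (z t)) t := by
  have : CompleteSpace W := FiniteDimensional.complete ℝ W
  obtain ⟨χ, c0, c1, c2, c3, c4⟩ := curv_bump hS hΩ h
  have hG : ContDiff ℝ 1 (fun y => χ y • F y) := c4 _ 1 F hF
  have hGc : HasCompactSupport (fun y => χ y • F y) := c0.smul_right (f' := F)
  obtain ⟨K, hK⟩ := hG.lipschitzWith_of_hasCompactSupport hGc one_ne_zero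
  obtain ⟨L, hL⟩ := hGc.exists_bound_of_continuous hG.continuous
  have hPL : IsPicardLindelof (fun (_ : ℝ) y => χ y • F y) (tmin := -T) (tmax := T)
      ⟨0, by constructor <;> linarith⟩ p (L.toNNReal * T.toNNReal) 0 L.toNNReal K :=
    ⟨fun t ht => hK.lipschitzOnWith, fun x _ => continuousOn_const,
      fun t ht x _ => (hL x).trans (Real.le_coe_toNNReal _), by
      simp [hT.le]⟩
  obtain ⟨z, h0, h1⟩ := hPL.exists_eq_forall_mem_Icc_hasDerivWithinAt₀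
  have h2 : ∀ t ∈ Ioo (-T) T, HasDerivAt z (χ (z t) • F (z t)) t := fun t ht =>
    (h1 t (Ioo_subset_Icc_self ht)).hasDerivAt (Icc_mem_nhds ht.1 ht.2)
  have h3 : ∀ y ∈ S, χ y = 1 := fun y hy => (c3 y hy).eq_of_nhds
  refine ⟨χ, K, z, hK, c1, h3, h0, fun t ht => ⟨c2 _ fun c => ?_, h2 t ht⟩⟩
  have := ODE_solution_unique_of_mem_Ioo (v := fun _ y => χ y • F y) (s := fun _ => univ)
    (K := K) (f := z) (g := fun _ => z t) (a := -T) (b := T) (t₀ := t)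
    (fun _ _ => hK.lipschitzOnWith) ht (fun s hs => ⟨h2 s hs, trivial⟩)
    (fun s _ => ⟨by simpa [c] using hasDerivAt_const s (z t), trivial⟩) rfl
    (show (0 : ℝ) ∈ _ from ⟨by linarith, hT⟩)
  have e : z 0 = z t := this
  have h4 : z 0 = p := h0
  rw [← e, h4, h3 p hp] at c
  exact one_ne_zero c

theorem geod_m {M K : Set C3} {g : Met} (hs : ContDiffOn ℝ ∞ g M)
    (hp : ∀ x ∈ M, ∀ v, v ≠ 0 → 0 < g x v v) (hK : IsCompact K) (hKM : K ⊆ M) (E : ℝ) :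
    ∃ R : ℝ, ∀ x ∈ K, ∀ v, g x v v = E → ‖v‖ ≤ R := by
  have hc : ContinuousOn (fun p : C3 × C3 => g p.1 p.2 p.2) (K ×ˢ Metric.sphere (0 : C3) 1) :=
    ((hs.continuousOn.comp continuousOn_fst fun p hp => hKM hp.1).clm_apply
      continuousOn_snd).clm_apply continuousOn_snd
  obtain ⟨m, hm, h⟩ := (hK.prod (isCompact_sphere (0 : C3) 1)).exists_forall_le' hc
    (a := 0) fun p hq => hp _ (hKM hq.1) _ fun h0 => by simpa [h0] using hq.2
  refine ⟨|E| / m + 1, fun x hx v hE => ?_⟩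
  by_cases hv : v = 0
  · rw [hv, norm_zero]; positivity
  have hn : 0 < ‖v‖ := norm_pos_iff.2 hv
  have h1 := h (x, ‖v‖⁻¹ • v) ⟨hx, by simp [norm_smul, hn.ne']⟩
  simp only [map_smul, smul_apply, smul_eq_mul] at h1
  have h2 : g x v v = ‖v‖⁻¹ * (‖v‖⁻¹ * g x v v) * ‖v‖ ^ 2 := by field_simp
  have h3 : m * ‖v‖ ^ 2 ≤ g x v v := by
    rw [h2]
    exact mul_le_mul_of_nonneg_right h1 (by positivity)
  have h4 : ‖v‖ ^ 2 ≤ |E| / m := by
    rw [le_div_iff₀ hm]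
    linarith [le_abs_self E]
  nlinarith [sq_nonneg (‖v‖ - 1), sq_nonneg ‖v‖]
theorem geod_complete {M : Set C3} {g : Met} (hM : IsOpen M) (hs : ContDiffOn ℝ ∞ g M)
    (hsy : ∀ x ∈ M, ∀ v w, g x v w = g x w v) (hp : ∀ x ∈ M, ∀ v, v ≠ 0 → 0 < g x v v)
    {ρ : C3 → ℝ} (hρ : ContDiffOn ℝ 1 ρ M) {C : ℝ}
    (hb : ∀ x ∈ M, ∀ v, fderiv ℝ ρ x v ^ 2 ≤ C * g x v v)
    (hc : ∀ c : ℝ, IsCompact {x | x ∈ M ∧ ρ x ≤ c}) : GeodComplete M g := by
  intro x hx v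
  have loc : ∀ y ∈ M, ∃ g', IsMetric g' ∧ g' =ᶠ[𝓝 y] g ∧ chrL g' =ᶠ[𝓝 y] chrL g := by
    intro y hy
    obtain ⟨g', h1, h2⟩ := loc_metric hM hy hs hsy (hp y hy)
    refine ⟨g', h1, h2, h2.eventually_nhds.mono fun z hz => ?_⟩
    exact ContinuousLinearMap.ext fun a => ContinuousLinearMap.ext fun b => chr_congr hz a b
  obtain ⟨F, hF⟩ : ∃ F : C3 × C3 → C3 × C3, F = fun p => (p.2, -chrL g p.1 p.2 p.2) := ⟨_, rfl⟩
  have hΩ : IsOpen (M ×ˢ (univ : Set C3)) := hM.prod isOpen_univ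
  have hchr : ContDiffOn ℝ 1 (chrL g) M := fun y hy => by
    obtain ⟨g', h1, -, h3⟩ := loc y hy
    exact ((h1.smooth_chr.of_le (by simp)).contDiffAt.congr_of_eventuallyEq
      h3.symm).contDiffWithinAt
  have hFs : ContDiffOn ℝ 1 F (M ×ˢ univ) := by
    rw [hF]
    exact contDiffOn_snd.prodMk (((hchr.comp contDiffOn_fst fun p hp => hp.1).clm_apply
      contDiffOn_snd).clm_apply contDiffOn_snd).neg
  obtain ⟨B, hB⟩ : ∃ B, B = Real.sqrt (C * g x v v) := ⟨_, rfl⟩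
  have hB0 : 0 ≤ B := by rw [hB]; exact Real.sqrt_nonneg _
  have key : ∀ n : ℕ, ∃ (G : C3 × C3 → C3 × C3) (K : NNReal) (z : ℝ → C3 × C3),
      LipschitzWith K G ∧ (∀ p : C3 × C3, p.1 ∈ M → ρ p.1 ≤ ρ x + B * (n + 1) →
        g p.1 p.2 p.2 = g x v v → G p = F p) ∧ z 0 = (x, v) ∧
      ∀ t ∈ Ioo (-((n : ℝ) + 1)) (n + 1), (z t).1 ∈ M ∧ ρ (z t).1 ≤ ρ x + B * (n + 1) ∧
        g (z t).1 (z t).2 (z t).2 = g x v v ∧ HasDerivAt z (F (z t)) t := by
    intro n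
    have hT : (0 : ℝ) < n + 1 := by positivity
    have hK := hc (ρ x + B * (n + 1))
    obtain ⟨R, hR⟩ := geod_m hs hp hK (fun y hy => hy.1) (g x v v)
    have hxK : x ∈ {y | y ∈ M ∧ ρ y ≤ ρ x + B * (n + 1)} :=
      ⟨hx, le_add_of_nonneg_right (by positivity)⟩
    obtain ⟨χ, K, z, z1, z2, z3, z4, z5⟩ := geod_ode (hK.prod (isCompact_closedBall (0 : C3) R)) hΩ
      (fun p hq => ⟨hq.1.1, trivial⟩) hFs (p := (x, v))
      ⟨hxK, mem_closedBall_zero_iff.2 (hR x hxK v rfl)⟩ hT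
    have hχ : ∀ p : C3 × C3, p.1 ∈ M → ρ p.1 ≤ ρ x + B * (n + 1) →
        g p.1 p.2 p.2 = g x v v → χ p • F p = F p := fun p p1 p2 p3 => by
      rw [z3 p ⟨⟨p1, p2⟩, mem_closedBall_zero_iff.2 (hR _ ⟨p1, p2⟩ _ p3)⟩, one_smul]
    have d1 : ∀ t ∈ Ioo (-((n : ℝ) + 1)) (n + 1),
        HasDerivAt (fun t => (z t).1) (χ (z t) • (z t).2) t := fun t ht => by
      have := (ContinuousLinearMap.fst ℝ C3 C3).hasFDerivAt.comp_hasDerivAt t (z5 t ht).2
      rw [hF] at this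
      exact this
    have d2 : ∀ t ∈ Ioo (-((n : ℝ) + 1)) (n + 1),
        HasDerivAt (fun t => (z t).2) (χ (z t) • -chrL g (z t).1 (z t).2 (z t).2) t :=
      fun t ht => by
      have := (ContinuousLinearMap.snd ℝ C3 C3).hasFDerivAt.comp_hasDerivAt t (z5 t ht).2
      rw [hF] at this
      exact this
    have h0 : (0 : ℝ) ∈ Ioo (-((n : ℝ) + 1)) (n + 1) := ⟨by linarith, hT⟩
    have d3 : ∀ t ∈ Ioo (-((n : ℝ) + 1)) (n + 1),
        HasDerivAt (fun t => g (z t).1 (z t).2 (z t).2) 0 t := fun t ht => by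
      obtain ⟨g', h1, h2, h3⟩ := loc _ (z5 t ht).1.1
      have a1 := h1.hasDerivAt_g (d1 t ht) (d2 t ht) (d2 t ht)
      rw [h3.eq_of_nhds] at a1
      refine (a1.congr_deriv (by simp)).congr_of_eventuallyEq ?_
      filter_upwards [(d1 t ht).continuousAt.eventually h2] with s hs
      rw [hs]
    have e1 : ∀ t ∈ Ioo (-((n : ℝ) + 1)) (n + 1), g (z t).1 (z t).2 (z t).2 = g x v v := by
      intro t ht
      have := (convex_Ioo _ _).norm_image_sub_le_of_norm_hasDerivWithin_le (C := 0)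
        (f' := fun _ => 0) (fun t ht => (d3 t ht).hasDerivWithinAt) (fun _ _ => by simp) h0 ht
      rw [zero_mul, norm_le_zero_iff, sub_eq_zero, z4] at this
      exact this
    have e2 : ∀ t ∈ Ioo (-((n : ℝ) + 1)) (n + 1), ρ (z t).1 ≤ ρ x + B * (n + 1) := by
      intro t ht
      have := (convex_Ioo _ _).norm_image_sub_le_of_norm_hasDerivWithin_le (C := B)
        (f := fun t => ρ (z t).1) (f' := fun t => fderiv ℝ ρ (z t).1 (χ (z t) • (z t).2))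
        (fun t ht => (((hρ.contDiffAt (hM.mem_nhds (z5 t ht).1.1)).differentiableAt
          one_ne_zero).hasFDerivAt.comp_hasDerivAt t (d1 t ht)).hasDerivWithinAt)
        (fun t ht => by
          have b1 := hb _ (z5 t ht).1.1 (z t).2
          rw [e1 t ht] at b1
          have b2 := Real.abs_le_sqrt b1
          rw [← hB] at b2
          rw [map_smul, norm_smul, Real.norm_eq_abs, Real.norm_eq_abs, abs_of_nonneg (z2 _).1]
          exact (mul_le_of_le_one_left (abs_nonneg _) (z2 _).2).trans b2) h0 ht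
      rw [z4, sub_zero, Real.norm_eq_abs, Real.norm_eq_abs] at this
      have b3 : |t| ≤ n + 1 := abs_le.2 ⟨ht.1.le, ht.2.le⟩
      have b4 := mul_le_mul_of_nonneg_left b3 hB0
      have b5 := le_abs_self (ρ (z t).1 - ρ x)
      linarith
    refine ⟨_, K, z, z1, hχ, z4, fun t ht => ⟨(z5 t ht).1.1, e2 t ht, e1 t ht, ?_⟩⟩
    have := (z5 t ht).2
    rwa [hχ _ (z5 t ht).1.1 (e2 t ht) (e1 t ht)] at this
  choose G K z hK hG z0 hz using key
  have uq : ∀ n m : ℕ, n ≤ m → ∀ t ∈ Ioo (-((n : ℝ) + 1)) (n + 1), z n t = z m t := by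
    intro n m hnm
    have c1 : (n : ℝ) ≤ m := by exact_mod_cast hnm
    have sub : Ioo (-((n : ℝ) + 1)) (n + 1) ⊆ Ioo (-((m : ℝ) + 1)) (m + 1) :=
      Ioo_subset_Ioo (by linarith) (by linarith)
    have hT : (0 : ℝ) < n + 1 := by positivity
    refine ODE_solution_unique_of_mem_Ioo (v := fun _ => G m) (s := fun _ => univ) (K := K m)
      (t₀ := 0) (fun _ _ => (hK m).lipschitzOnWith) ⟨by linarith, hT⟩ (fun t ht => ⟨?_, trivial⟩)
      (fun t ht => ⟨?_, trivial⟩) (by rw [z0, z0])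
    · obtain ⟨a1, a2, a3, a4⟩ := hz n t ht
      rw [hG m _ a1 (a2.trans (by nlinarith)) a3]
      exact a4
    · obtain ⟨a1, a2, a3, a4⟩ := hz m t (sub ht)
      rw [hG m _ a1 a2 a3]
      exact a4
  obtain ⟨Z, hZ⟩ : ∃ Z : ℝ → C3 × C3, Z = fun t => z ⌈|t|⌉₊ t := ⟨_, rfl⟩
  have mem : ∀ t : ℝ, t ∈ Ioo (-((⌈|t|⌉₊ : ℝ) + 1)) (⌈|t|⌉₊ + 1) := fun t => by
    have := abs_le.1 (Nat.le_ceil |t|)
    constructor <;> linarith [this.1, this.2]
  have ev : ∀ t : ℝ, Z =ᶠ[𝓝 t] z ⌈|t|⌉₊ := fun t => by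
    filter_upwards [Ioo_mem_nhds (mem t).1 (mem t).2] with s hs
    rw [hZ]
    rcases le_total ⌈|s|⌉₊ ⌈|t|⌉₊ with c | c
    · exact uq _ _ c s (mem s)
    · exact (uq _ _ c s hs).symm
  have hZM : ∀ t, (Z t).1 ∈ M := fun t => by rw [hZ]; exact (hz _ t (mem t)).1
  have hZd : ∀ t, HasDerivAt Z (F (Z t)) t := fun t => by
    rw [(ev t).eq_of_nhds]
    exact (hz _ t (mem t)).2.2.2.congr_of_eventuallyEq (ev t)
  have hZc : Continuous Z := continuous_iff_continuousAt.2 fun t => (hZd t).continuousAt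
  have d1 : ∀ t, HasDerivAt (fun t => (Z t).1) (Z t).2 t := fun t => by
    have := (ContinuousLinearMap.fst ℝ C3 C3).hasFDerivAt.comp_hasDerivAt t (hZd t)
    rw [hF] at this
    exact this
  have d2 : ∀ t, HasDerivAt (fun t => (Z t).2) (F (Z t)).2 t := fun t =>
    (ContinuousLinearMap.snd ℝ C3 C3).hasFDerivAt.comp_hasDerivAt t (hZd t)
  have e1 : deriv (fun t => (Z t).1) = fun t => (Z t).2 := funext fun t => (d1 t).deriv
  have e2 : deriv (fun t => (Z t).2) = fun t => (F (Z t)).2 := funext fun t => (d2 t).deriv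
  have hZ0 : Z 0 = (x, v) := by rw [hZ]; exact z0 _
  refine ⟨fun t => (Z t).1, ⟨?_, fun s => ?_⟩, hZM, by simp [hZ0], by simp [e1, hZ0]⟩
  · rw [show (2 : WithTop ℕ∞) = 1 + 1 from rfl, contDiff_succ_iff_deriv]
    refine ⟨fun t => (d1 t).differentiableAt, by simp, ?_⟩
    rw [e1, contDiff_one_iff_deriv, e2]
    exact ⟨fun t => (d2 t).differentiableAt, (hFs.continuousOn.comp_continuous hZc
      fun t => ⟨hZM t, trivial⟩).snd⟩
  · rw [cov, e1, e2, hF]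
    exact neg_add_cancel _

end Vale.Agent.P250
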