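import Vale.Agent.P250.LLj
import Vale.Agent.P250.Base

set_option maxSynthPendingDepth 3

namespace Vale.Agent.P250

open scoped ContDiff Topology ComplexConjugate
open Complex Set Filter Vale.Agent.P255

/-- the Cayley transform -/
noncomputable def nfaCay (z : B2) : B2 := (z.1 / (1 - z.2), I * (1 + z.2) / (1 - z.2))

/-- the unit ball -/
def nfaB : Set B2 := {z | ‖z.1‖ ^ 2 + ‖z.2‖ ^ 2 < 1}

/-- the argument of the well -/
noncomputable def nfaZ (q : ℝ × ℂ × ℂ × ℂ) (z : B2) : ℂ :=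
  q.2.1 + q.2.2.1 * (z.2 / (1 - z.2)) + q.2.2.2 * (z.1 / (1 - z.2))

theorem nfaB_open : IsOpen nfaB := isOpen_lt (by fun_prop) continuous_const

theorem nfaB_zero : (0 : B2) ∈ nfaB := by simp [nfaB]

theorem nfa_re {z : B2} (hz : z ∈ nfaB) : 0 < (1 - z.2).re := by
  have h1 : ‖z.1‖ ^ 2 + ‖z.2‖ ^ 2 < 1 := hz
  have h2 := (Complex.re_le_norm z.2)
  have h3 : ‖z.2‖ < 1 := by nlinarith [norm_nonneg z.2, sq_nonneg ‖z.1‖]
  simp only [sub_re, one_re]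
  linarith

theorem nfa_ne {z : B2} (hz : z ∈ nfaB) : 1 - z.2 ≠ 0 := fun h => by
  have := nfa_re hz
  rw [h] at this
  simp at this

theorem nfa_dl {z : B2} (hz : z ∈ nfaB) :
    dl (nfaCay z) = (1 - (‖z.1‖ ^ 2 + ‖z.2‖ ^ 2)) / ‖1 - z.2‖ ^ 2 := by
  have h := normSq_pos.2 (nfa_ne hz)
  simp only [dl, nfaCay, norm_div, div_pow, Complex.sq_norm, div_im]
  field_simp
  simp [normSq_apply]
  ring

theorem nfaCay_diff : DifferentiableOn ℂ nfaCay nfaB := fun z hz => by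
  have := nfa_ne hz
  refine DifferentiableAt.differentiableWithinAt ?_
  unfold nfaCay
  fun_prop (disch := assumption)

theorem nfaZ_diff (q : ℝ × ℂ × ℂ × ℂ) : DifferentiableOn ℂ (nfaZ q) nfaB := fun z hz => by
  have := nfa_ne hz
  refine DifferentiableAt.differentiableWithinAt ?_
  unfold nfaZ
  fun_prop (disch := assumption)

theorem nfa_smooth {ψ : ℂ → ℝ} (hψ : ContDiff ℝ ∞ ψ) :
    ContDiffOn ℝ ∞ (fun x : (ℝ × ℂ × ℂ × ℂ) × B2 => LL x.2 + x.1.1 * ψ (nfaZ x.1 x.2))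
      (Prod.snd ⁻¹' nfaB) := fun x hx => by
  have h1 : 1 - x.2.2 ≠ 0 := nfa_ne hx
  have h2 : ContDiffAt ℝ ∞ LL x.2 := LL_smooth.contDiffAt (nfaB_open.mem_nhds hx)
  have h3 : ContDiffAt ℝ ∞ (fun x : (ℝ × ℂ × ℂ × ℂ) × B2 => nfaZ x.1 x.2) x := by
    have h4 : ContDiffAt ℝ ∞ (fun x : (ℝ × ℂ × ℂ × ℂ) × B2 => (1 - x.2.2)⁻¹) x :=
      ContDiffAt.inv (by fun_prop) h1
    simp only [nfaZ, div_eq_mul_inv]
    fun_prop
  exact ((h2.comp x contDiffAt_snd).add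
    ((contDiffAt_fst.fst).mul (hψ.contDiffAt.comp x h3))).contDiffWithinAt

theorem nfa_low {η : ℝ} {ψ : ℂ → ℝ} (hψ : IsWell η ψ) (q : ℝ × ℂ × ℂ × ℂ) (hq : 0 ≤ q.1) (a : B2) :
    4 * (‖a.1‖ ^ 2 + ‖a.2‖ ^ 2) ≤ levi (fun z => LL z + q.1 * ψ (nfaZ q z)) 0 a a := by
  have two : (2 : WithTop ℕ∞) ≤ ∞ := WithTop.coe_le_coe.2 (le_top : (2 : ℕ∞) ≤ ⊤)
  have h1 : ContDiffAt ℝ 2 LL 0 :=
    (LL_smooth.contDiffAt (nfaB_open.mem_nhds nfaB_zero)).of_le two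
  have h2 : ContDiffAt ℂ 2 (nfaZ q) 0 :=
    ((scv_smooth nfaB_open (nfaZ_diff q)).contDiffAt (nfaB_open.mem_nhds nfaB_zero)).of_le two
  have h3 : ContDiffAt ℝ 2 ψ (nfaZ q 0) := hψ.smooth.contDiffAt.of_le two
  have h4 : ContDiffAt ℝ 2 (fun z => ψ (nfaZ q z)) 0 := h3.comp 0 (h2.restrict_scalars ℝ)
  rw [levi_add h1 (contDiffAt_const.mul h4), levi_mul h4]
  simp only [ContinuousLinearMap.add_apply, ContinuousLinearMap.smul_apply, smul_eq_mul]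
  rw [levi_hol h2 h3, levi_apply, LL_jets.2.2.1, LL_jets.2.2.1]
  have h5 := mul_nonneg hq (hψ.psh (nfaZ q 0) (fderiv ℝ (nfaZ q) 0 a))
  have h6 : ∀ a : B2, (P250.hq 1 1 a a).re = ‖a.1‖ ^ 2 + ‖a.2‖ ^ 2 := fun a => by
    simp [P250.hq, mul_conj, Complex.sq_norm]
  rw [h6, h6]
  simp only [Prod.smul_fst, Prod.smul_snd, norm_smul, norm_I, one_mul]
  linarith

/-- the centred coordinates -/
noncomputable def nfaT (p z : B2) : B2 := aff p.1 p.2.re √(dl p) (nfaCay z)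

/-- the holomorphic correction -/
noncomputable def nfaK (p z : B2) : ℂ := -(Real.log (dl p) : ℂ) + 2 * log (1 - z.2)

theorem nfaT_diff (p : B2) : DifferentiableOn ℂ (nfaT p) nfaB :=
  (diff_aff _ _ _).comp_differentiableOn nfaCay_diff

theorem nfaT_zero {p : B2} (hp : p ∈ HH) : nfaT p 0 = p := by
  simpa [nfaT, nfaCay] using aff_ctr hp

theorem nfaK_diff (p : B2) : DifferentiableOn ℂ (nfaK p) nfaB := fun z hz => by
  have : 1 - z.2 ∈ slitPlane := Or.inl (nfa_re hz)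
  refine DifferentiableAt.differentiableWithinAt ?_
  exact (differentiableAt_const _).add
    ((DifferentiableAt.clog (f := fun z : B2 => 1 - z.2) (by fun_prop) this).const_mul _)

theorem nfaT_dl {p z : B2} (hp : p ∈ HH) (hz : z ∈ nfaB) :
    dl (nfaT p z) = dl p * ((1 - (‖z.1‖ ^ 2 + ‖z.2‖ ^ 2)) / ‖1 - z.2‖ ^ 2) := by
  rw [nfaT, dl_aff, Real.sq_sqrt (le_of_lt hp), nfa_dl hz]

theorem nfaT_mem {p z : B2} (hp : p ∈ HH) (hz : z ∈ nfaB) : nfaT p z ∈ HH := by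
  have hd : 0 < dl p := hp
  have h1 : 0 < 1 - (‖z.1‖ ^ 2 + ‖z.2‖ ^ 2) := sub_pos.2 hz
  have h2 := norm_pos_iff.2 (nfa_ne hz)
  change 0 < dl _
  rw [nfaT_dl hp hz]
  positivity

theorem nfaT_tt {p z : B2} (hp : p ∈ HH) (hz : z ∈ nfaB) :
    tt (nfaT p z) = LL z + (nfaK p z).re := by
  have hd : 0 < dl p := hp
  have h1 : 0 < 1 - (‖z.1‖ ^ 2 + ‖z.2‖ ^ 2) := sub_pos.2 hz
  have h2 := norm_pos_iff.2 (nfa_ne hz)
  rw [tt, nfaT_dl hp hz, Real.log_mul hd.ne' (by positivity), Real.log_div h1.ne' (by positivity),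
    Real.log_pow, LL]
  simp [nfaK, log_re]
  ring

theorem nfa_sF {ψ : ℂ → ℝ} (hψ : ContDiff ℝ ∞ ψ) (q : ℝ × ℂ × ℂ × ℂ) :
    ContDiffOn ℝ ∞ (fun z => LL z + q.1 * ψ (nfaZ q z)) nfaB :=
  (nfa_smooth hψ).comp (f := fun z => (q, z)) (contDiffOn_const.prodMk contDiffOn_id)
    fun _ hz => hz

theorem nfa_mk {η : ℝ} {ψ : ℂ → ℝ} {f : B2 → ℝ} (hψ : IsWell η ψ) {C : ℝ} {p : B2} (hp : p ∈ HH)
    (q : ℝ × ℂ × ℂ × ℂ) (hq : 0 ≤ q.1)
    (hC : ‖D2 (fun z => LL z + q.1 * ψ (nfaZ q z)) 0‖ ≤ C ∧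
      ‖D3 (fun z => LL z + q.1 * ψ (nfaZ q z)) 0‖ ≤ C ∧
      ‖D4 (fun z => LL z + q.1 * ψ (nfaZ q z)) 0‖ ≤ C)
    {g : B2 → ℝ} (hg : PH g p)
    (hfg : ∀ z ∈ nfaB, f (nfaT p z) = g (nfaT p z) + q.1 * ψ (nfaZ q z)) :
    ∃ O θ h k F, NF0 (fun q => tt q + f q) C p O θ h k F := by
  obtain ⟨O, H, hO, hpO, hH, e⟩ := hg
  have op : IsOpen (nfaB ∩ nfaT p ⁻¹' O) :=
    (nfaT_diff p).continuousOn.isOpen_inter_preimage nfaB_open hO
  have dθ : DifferentiableOn ℂ (nfaT p) (nfaB ∩ nfaT p ⁻¹' O) := (nfaT_diff p).mono inter_subset_left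
  have dk : DifferentiableOn ℂ (nfaK p) (nfaB ∩ nfaT p ⁻¹' O) := (nfaK_diff p).mono inter_subset_left
  have dh : DifferentiableOn ℂ (fun z => nfaK p z + H (nfaT p z)) (nfaB ∩ nfaT p ⁻¹' O) :=
    dk.add (hH.comp dθ fun z hz => hz.2)
  refine ⟨nfaB ∩ nfaT p ⁻¹' O, nfaT p, fun z => nfaK p z + H (nfaT p z), nfaK p,
    fun z => LL z + q.1 * ψ (nfaZ q z), op, ⟨nfaB_zero, by rwa [mem_preimage, nfaT_zero hp]⟩,
    nfaT_zero hp, fun z hz => nfaT_mem hp hz.1, fun z hz => hz.1, scv_smooth op dθ,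
    scv_smooth op dh, scv_smooth op dk, (nfa_sF hψ.smooth q).mono inter_subset_left,
    fun z hz => ?_, fun z hz => nfaT_tt hp hz.1, nfa_low hψ q hq, hC.1, hC.2.1, hC.2.2⟩
  have h1 := hfg z hz.1
  have h2 := e _ hz.2
  simp only [add_re]
  rw [nfaT_tt hp hz.1]
  linarith

theorem nf0 {η c : ℝ} {ψ : ℂ → ℝ} {f : B2 → ℝ} (hη : η ≤ 1) (hc : 0 ≤ c) (hψ : IsWell η ψ)
    (hf : Good η c ψ f) :
    ∃ C : ℝ, ∀ p ∈ HH, ∃ O θ h k F, NF0 (fun q => tt q + f q) C p O θ h k F := by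
  obtain ⟨C, hC⟩ := jet_bound (nfaB_open.preimage continuous_snd) (nfa_smooth hψ.smooth)
    (isCompact_closedBall 0 (4 + c)) fun _ _ => nfaB_zero
  refine ⟨C, fun p hp => ?_⟩
  rcases hf p hp with h | ⟨z₀, x₀, r, hr, h1, h⟩
  · exact nfa_mk hψ hp 0 le_rfl (hC 0 (Metric.mem_closedBall_self (by linarith))) h
      fun z _ => by simp
  · obtain ⟨z₂, x₂, e⟩ := ainv_aff' z₀ p.1 x₀ p.2.re hr.ne' √(dl p)
    set ρ := √(dl p) / r with hρ
    have ρ0 : 0 ≤ ρ := by positivity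
    have e0 : (ainv z₀ x₀ r p).2 = x₂ + I * (‖z₂‖ ^ 2 : ℝ) + ρ ^ 2 * I := by
      conv_lhs => rw [← aff_ctr hp, e]
      simp [aff]
    have h2 : ‖z₂‖ ^ 2 + ρ ^ 2 ≤ 2 := by
      have := (Complex.im_le_norm _).trans h1
      rw [e0] at this
      simp only [sub_im, add_im, ofReal_im, mul_im, I_re, I_im, ofReal_re, ← ofReal_pow] at this
      linarith
    refine nfa_mk hψ hp (c, (ainv z₀ x₀ r p).2 - I, 2 * ρ ^ 2 * I, 2 * I * ρ * conj z₂) hc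
      (hC _ ?_) h fun z hz => ?_
    · simp only [mem_closedBall_zero_iff, Prod.norm_mk, max_le_iff, norm_mul, norm_pow,
        Complex.norm_ofNat, norm_I, Complex.norm_real, Real.norm_of_nonneg ρ0,
        Real.norm_of_nonneg hc, RCLike.norm_conj]
      refine ⟨by linarith, by linarith, by nlinarith [sq_nonneg ‖z₂‖], ?_⟩
      nlinarith [sq_nonneg (ρ - ‖z₂‖)]
    · have h3 := nfa_ne hz
      have : (ainv z₀ x₀ r (nfaT p z)).2 - I = nfaZ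
          (c, (ainv z₀ x₀ r p).2 - I, 2 * ρ ^ 2 * I, 2 * I * ρ * conj z₂) z := by
        rw [nfaT, e, e0]
        simp only [aff, nfaCay, nfaZ]
        field_simp
        ring
      rw [this]
      ring

end Vale.Agent.P250
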