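import Vale.Agent.P250.JetA

set_option maxSynthPendingDepth 3

namespace Vale.Agent.P250

open scoped ContDiff Topology ComplexConjugate
open Complex Set Filter Vale.Agent.P255

variable {E : Type} [NormedAddCommGroup E] [NormedSpace ℝ E] {F : ℝ → ℝ} {y : E → ℝ} {x : E}

/-- directional derivative -/
def JetB.P (φ : E → ℝ) (x a : E) (v : ℝ) : Prop := DifferentiableAt ℝ φ x ∧ fderiv ℝ φ x a = v

theorem JetB.P.add {φ ψ : E → ℝ} {a : E} {v w : ℝ} (h : JetB.P φ x a v) (h' : JetB.P ψ x a w) :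
    JetB.P (fun z => φ z + ψ z) x a (v + w) :=
  ⟨h.1.add h'.1, by rw [fderiv_fun_add h.1 h'.1, ← h.2, ← h'.2]; rfl⟩

theorem JetB.P.mul {φ ψ : E → ℝ} {a : E} {v w : ℝ} (h : JetB.P φ x a v) (h' : JetB.P ψ x a w) :
    JetB.P (fun z => φ z * ψ z) x a (φ x * w + ψ x * v) :=
  ⟨h.1.mul h'.1, by rw [fderiv_fun_mul h.1 h'.1, ← h.2, ← h'.2]; rfl⟩

theorem jetB_diff (k : ℕ) : ∀ {F : ℝ → ℝ} {t : ℝ}, ContDiffAt ℝ (k + 1 : ℕ) F t →
    DifferentiableAt ℝ (iteratedDeriv k F) t := by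
  induction k with
  | zero => intro F t h; simpa using h.differentiableAt (by simp)
  | succ k ih =>
    intro F t h
    rw [iteratedDeriv_succ']
    exact ih ((h.fderiv_right (m := (k + 1 : ℕ)) (by push_cast; exact le_rfl)).clm_apply
      (contDiffAt_const (c := (1 : ℝ))))

theorem jetB_F {n : ℕ} (k : ℕ) (hk : k + 1 ≤ n) (hF : ContDiffAt ℝ n F (y x))
    (hy : ContDiffAt ℝ n y x) (a : E) : JetB.P (fun z => iteratedDeriv k F (y z)) x a
      (iteratedDeriv (k + 1) F (y x) * fderiv ℝ y x a) := by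
  have h1 := (jetB_diff k (hF.of_le (by exact_mod_cast hk))).hasDerivAt
  have h2 := h1.comp_hasFDerivAt x
    (hy.differentiableAt (by exact_mod_cast (by omega : n ≠ 0))).hasFDerivAt
  exact ⟨h2.differentiableAt, by
    rw [show (fun z => iteratedDeriv k F (y z)) = iteratedDeriv k F ∘ y from rfl, h2.fderiv,
      iteratedDeriv_succ]; rfl⟩

theorem jetB_1 (hy : ContDiffAt ℝ 2 y x) (a b : E) :
    JetB.P (fun z => fderiv ℝ y z b) x a (D2 y x a b) := ⟨(jet_ev2 hy b).1, (jet_ev2 hy b).2 a⟩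

theorem jetB_2 (hy : ContDiffAt ℝ 3 y x) (a b c : E) :
    JetB.P (fun z => D2 y z b c) x a (D3 y x a b c) := ⟨(jet_ev3 hy b c).1, (jet_ev3 hy b c).2 a⟩

theorem jetB_3 (hy : ContDiffAt ℝ 4 y x) (a b c d : E) :
    JetB.P (fun z => D3 y z b c d) x a (D4 y x a b c d) :=
  ⟨(jet_ev4 hy b c d).1, (jet_ev4 hy b c d).2 a⟩

theorem D2_comp (hF : ContDiffAt ℝ 2 F (y x)) (hy : ContDiffAt ℝ 2 y x) (a b : E) :
    D2 (fun z => F (y z)) x a b = iteratedDeriv 1 F (y x) * D2 y x a b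
      + iteratedDeriv 2 F (y x) * (fderiv ℝ y x a * fderiv ℝ y x b) := by
  have p1 := jetB_F (n := 2) 1 le_rfl hF hy a
  have e := (p1.mul (jetB_1 hy a b)).2
  rw [← (jet_ev2 (f := fun z => F (y z)) (hF.comp x hy) b).2]
  refine Eq.trans (congrArg (fun T : E →L[ℝ] ℝ => T a) (Filter.EventuallyEq.fderiv_eq ?_))
    (e.trans (by ring))
  filter_upwards [hy.continuousAt.eventually (jet_ev (n := 2) (m := 1) hF (by norm_num)),
    jet_ev (n := 2) (m := 1) hy (by norm_num)] with z h1 h2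
  exact (jetB_F (n := 1) 0 le_rfl h1 h2 b).2

theorem D3_comp (hF : ContDiffAt ℝ 3 F (y x)) (hy : ContDiffAt ℝ 3 y x) (a b c : E) :
    D3 (fun z => F (y z)) x a b c = iteratedDeriv 1 F (y x) * D3 y x a b c
      + iteratedDeriv 2 F (y x) * (D2 y x a b * fderiv ℝ y x c + D2 y x a c * fderiv ℝ y x b
        + D2 y x b c * fderiv ℝ y x a)
      + iteratedDeriv 3 F (y x) * (fderiv ℝ y x a * fderiv ℝ y x b * fderiv ℝ y x c) := by
  have p1 := jetB_F (n := 3) 1 (by norm_num) hF hy a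
  have p2 := jetB_F (n := 3) 2 le_rfl hF hy a
  have q1 := jetB_1 (hy.of_le (by norm_num)) a
  have e := ((p1.mul (jetB_2 hy a b c)).add (p2.mul ((q1 b).mul (q1 c)))).2
  rw [← (jet_ev3 (f := fun z => F (y z)) (hF.comp x hy) b c).2]
  refine Eq.trans (congrArg (fun T : E →L[ℝ] ℝ => T a) (Filter.EventuallyEq.fderiv_eq ?_))
    (e.trans (by ring))
  filter_upwards [hy.continuousAt.eventually (jet_ev (n := 3) (m := 2) hF (by norm_num)),
    jet_ev (n := 3) (m := 2) hy (by norm_num)] with z h1 h2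
  exact D2_comp h1 h2 b c

theorem D4_comp (hF : ContDiffAt ℝ 4 F (y x)) (hy : ContDiffAt ℝ 4 y x) (a b c d : E) :
    D4 (fun z => F (y z)) x a b c d = iteratedDeriv 1 F (y x) * D4 y x a b c d
      + iteratedDeriv 2 F (y x) * (D3 y x b c d * fderiv ℝ y x a + D3 y x a c d * fderiv ℝ y x b
        + D3 y x a b d * fderiv ℝ y x c + D3 y x a b c * fderiv ℝ y x d
        + D2 y x a b * D2 y x c d + D2 y x a c * D2 y x b d + D2 y x a d * D2 y x b c)
      + iteratedDeriv 3 F (y x) * (D2 y x a b * (fderiv ℝ y x c * fderiv ℝ y x d)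
        + D2 y x a c * (fderiv ℝ y x b * fderiv ℝ y x d)
        + D2 y x a d * (fderiv ℝ y x b * fderiv ℝ y x c)
        + D2 y x b c * (fderiv ℝ y x a * fderiv ℝ y x d)
        + D2 y x b d * (fderiv ℝ y x a * fderiv ℝ y x c)
        + D2 y x c d * (fderiv ℝ y x a * fderiv ℝ y x b))
      + iteratedDeriv 4 F (y x) *
        (fderiv ℝ y x a * fderiv ℝ y x b * fderiv ℝ y x c * fderiv ℝ y x d) := by
  have p1 := jetB_F (n := 4) 1 (by norm_num) hF hy a
  have p2 := jetB_F (n := 4) 2 (by norm_num) hF hy a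
  have p3 := jetB_F (n := 4) 3 le_rfl hF hy a
  have q1 := jetB_1 (hy.of_le (by norm_num)) a
  have q2 := jetB_2 (hy.of_le (by norm_num)) a
  have e := (((p1.mul (jetB_3 hy a b c d)).add (p2.mul ((((q2 b c).mul (q1 d)).add
    ((q2 b d).mul (q1 c))).add ((q2 c d).mul (q1 b))))).add
      (p3.mul (((q1 b).mul (q1 c)).mul (q1 d)))).2
  rw [← (jet_ev4 (f := fun z => F (y z)) (hF.comp x hy) b c d).2]
  refine Eq.trans (congrArg (fun T : E →L[ℝ] ℝ => T a) (Filter.EventuallyEq.fderiv_eq ?_))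
    (e.trans (by ring))
  filter_upwards [hy.continuousAt.eventually (jet_ev (n := 4) (m := 3) hF (by norm_num)),
    jet_ev (n := 4) (m := 3) hy (by norm_num)] with z h1 h2
  exact D3_comp h1 h2 b c d

end Vale.Agent.P250
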