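import Vale.Agent.P250.JetA
import Vale.Agent.P250.JetB

set_option maxSynthPendingDepth 3

namespace Vale.Agent.P250

open scoped ContDiff Topology ComplexConjugate
open Complex Set Filter Vale.Agent.P255

variable {E : Type} [NormedAddCommGroup E] [NormedSpace ℝ E] [NormedSpace ℂ E]
  [IsScalarTower ℝ ℂ E] {E' : Type} [NormedAddCommGroup E'] [NormedSpace ℝ E'] [NormedSpace ℂ E']
  [IsScalarTower ℝ ℂ E'] {f g : E → ℝ} {x : E}

theorem levi_eq_Levi (f : E → ℝ) : levi f = fun x => D2 f x +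
    ((ContinuousLinearMap.compL ℝ E E ℝ).flip (Jm E)).comp ((D2 f x).comp (Jm E)) := by
  funext x; ext a b; rfl

theorem levi_cd_Levi {n : WithTop ℕ∞} (h : ContDiffAt ℝ n (D2 f) x) :
    ContDiffAt ℝ n (levi f) x := by
  rw [levi_eq_Levi]
  exact h.add (contDiffAt_const.clm_comp (h.clm_comp contDiffAt_const))

theorem levi_congr (h : f =ᶠ[𝓝 x] g) : levi f x = levi g x := by
  rw [levi, levi, D2_congr h]

theorem levi_add (hf : ContDiffAt ℝ 2 f x) (hg : ContDiffAt ℝ 2 g x) :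
    levi (fun y => f y + g y) x = levi f x + levi g x := by
  ext a b
  simp only [levi_apply, D2_add hf hg, add_apply]; ring

theorem levi_mul (hf : ContDiffAt ℝ 2 f x) (c : ℝ) : levi (fun y => c * f y) x = c • levi f x := by
  ext a b
  simp only [levi_apply, D2_mul hf, smul_apply, smul_eq_mul]; ring

theorem levi_hol {Ψ : E' → E} {y : E'} (hΨ : ContDiffAt ℂ 2 Ψ y) (hf : ContDiffAt ℝ 2 f (Ψ y))
    (a b : E') :
    levi (fun z => f (Ψ z)) y a b = levi f (Ψ y) (fderiv ℝ Ψ y a) (fderiv ℝ Ψ y b) := by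
  have hR : ContDiffAt ℝ 2 Ψ y := hΨ.restrict_scalars ℝ
  have hev : ∀ᶠ z in 𝓝 y, fderiv ℝ Ψ z = (fderiv ℂ Ψ z).restrictScalars ℝ := by
    filter_upwards [hΨ.eventually (by simp)] with z hz
    exact (hz.differentiableAt (by simp)).fderiv_restrictScalars ℝ
  have hd : DifferentiableAt ℂ (fderiv ℂ Ψ) y :=
    (hΨ.fderiv_right (m := 1) (by norm_num)).differentiableAt one_ne_zero
  have key : ∀ a b, D2 (fun z => f (Ψ z)) y a b = D2 f (Ψ y) (fderiv ℝ Ψ y a) (fderiv ℝ Ψ y b) +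
      fderiv ℝ f (Ψ y) (fderiv ℂ (fderiv ℂ Ψ) y a b) := fun a b => by
    have h1 := ((jet_cd1 hf).differentiableAt one_ne_zero).hasFDerivAt.comp y
      (hR.differentiableAt (by simp)).hasFDerivAt
    have h2 := ((ContinuousLinearMap.apply ℂ E b).hasFDerivAt.comp y
      hd.hasFDerivAt).restrictScalars ℝ
    have h3 := (h1.clm_apply h2).fderiv
    rw [← (jet_ev2 (f := fun z => f (Ψ z)) (hf.comp y hR) b).2]
    refine Eq.trans (congrArg (fun T : E' →L[ℝ] ℝ => T a) (Filter.EventuallyEq.fderiv_eq ?_))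
      ((congrArg (fun T : E' →L[ℝ] ℝ => T a) h3).trans ?_)
    · filter_upwards [hev, jet_ev (n := 2) (m := 1) hR (by norm_num),
        hR.continuousAt.eventually (jet_ev (n := 2) (m := 1) hf (by norm_num))] with z e1 e2 e3
      have := (e3.differentiableAt (by simp)).hasFDerivAt.comp z
        (e2.differentiableAt (by simp)).hasFDerivAt
      rw [show (fun z => f (Ψ z)) = f ∘ Ψ from rfl, this.fderiv, e1]; rfl
    · rw [add_comm, hev.self_of_nhds]; rfl
  have hI : ∀ a, fderiv ℝ Ψ y (I • a) = I • fderiv ℝ Ψ y a := fun a => by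
    rw [hev.self_of_nhds]; exact map_smul (fderiv ℂ Ψ y) I a
  have hC : fderiv ℂ (fderiv ℂ Ψ) y (I • a) (I • b) = -fderiv ℂ (fderiv ℂ Ψ) y a b := by
    rw [map_smul, map_smul, smul_apply, smul_smul, I_mul_I, neg_one_smul]
  rw [levi_apply, levi_apply, key, key, hI, hI, hC, map_neg]
  ring

theorem levi_re {H : E → ℂ} (hH : ContDiffAt ℂ 2 H x) : levi (fun y => (H y).re) x = 0 := by
  ext a b
  have h0 : D2 (fun z : ℂ => z.re) (H x) = 0 := by
    have : fderiv ℝ (fun z : ℂ => z.re) = fun _ => reCLM := by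
      funext z; exact reCLM.fderiv
    rw [D2, this]; exact fderiv_const_apply _
  rw [levi_hol (f := fun z : ℂ => z.re) hH reCLM.contDiff.contDiffAt, levi_apply, h0]
  simp

theorem levi_comp {F : ℝ → ℝ} (hF : ContDiffAt ℝ 2 F (f x)) (hf : ContDiffAt ℝ 2 f x) (a : E) :
    levi (fun z => F (f z)) x a a = iteratedDeriv 1 F (f x) * levi f x a a
      + iteratedDeriv 2 F (f x) * (fderiv ℝ f x a ^ 2 + fderiv ℝ f x (I • a) ^ 2) := by
  rw [levi_apply, levi_apply, D2_comp hF hf, D2_comp hF hf]; ring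

theorem levi_smooth {O : Set E} (hO : IsOpen O) (hf : ContDiffOn ℝ ∞ f O) :
    ContDiffOn ℝ ∞ (levi f) O := by
  intro z hz
  have h := hf.contDiffAt (hO.mem_nhds hz)
  exact (levi_cd_Levi ((h.fderiv_right (m := ∞) le_rfl).fderiv_right le_rfl)).contDiffWithinAt

theorem levi_symm (hf : ContDiffAt ℝ 2 f x) (a b : E) : levi f x a b = levi f x b a := by
  rw [levi_apply, levi_apply, D2_symm hf a, D2_symm hf (I • a)]

theorem fderiv_levi (hf : ContDiffAt ℝ 3 f x) (u a b : E) :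
    fderiv ℝ (levi f) x u a b = D3 f x u a b + D3 f x u (I • a) (I • b) := by
  have h1 := jet_app ((levi_cd_Levi (f := f) (jet_cd1 (jet_cd2 hf))).differentiableAt one_ne_zero) a
  have h2 := jet_app h1.1 b
  rw [← h1.2, ← h2.2]
  exact ((jetB_2 hf u a b).add (jetB_2 hf u (I • a) (I • b))).2

theorem fderiv2_levi (hf : ContDiffAt ℝ 4 f x) (u v a b : E) :
    fderiv ℝ (fderiv ℝ (levi f)) x u v a b = D4 f x u v a b + D4 f x u v (I • a) (I • b) := by
  have h0 := jet_app ((jet_cd1 (levi_cd_Levi (f := f) (jet_cd2 (jet_cd3 hf)))).differentiableAt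
    one_ne_zero) v
  have h1 := jet_app h0.1 a
  have h2 := jet_app h1.1 b
  rw [← h0.2, ← h1.2, ← h2.2]
  refine Eq.trans (congrArg (fun T : E →L[ℝ] ℝ => T u) (Filter.EventuallyEq.fderiv_eq ?_))
    ((jetB_3 hf u v a b).add (jetB_3 hf u v (I • a) (I • b))).2
  filter_upwards [jet_ev (n := 4) (m := 3) hf (by norm_num)] with z hz using fderiv_levi hz v a b

theorem kahler_of {M : Set C3} {Φ : C3 → ℝ} (hM : IsOpen M) (hΦ : ContDiffOn ℝ ∞ Φ M)
    (hpos : ∀ x ∈ M, ∀ v, v ≠ 0 → 0 < levi Φ x v v) : IsKahlerOn M (levi Φ) := by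
  have h : ∀ x ∈ M, ∀ n : ℕ, ContDiffAt ℝ n Φ x := fun x hx n =>
    (hΦ.contDiffAt (hM.mem_nhds hx)).of_le (by exact_mod_cast le_top)
  have hII : ∀ v : C3, I • I • v = -v := fun v => by rw [smul_smul, I_mul_I, neg_one_smul]
  refine ⟨levi_smooth hM hΦ, fun x hx => levi_symm (h x hx 2), hpos, fun x _ v w => ?_,
    fun x hx u v w => ?_⟩
  · simp only [levi_apply, hII, map_neg, neg_apply]; ring
  · have h3 : ContDiffAt ℝ 3 Φ x := h x hx 3
    simp only [fderiv_levi h3, hII, map_neg, neg_apply]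
    rw [D3_symm23 h3 u (I • v) w, D3_symm12 h3 u w, D3_symm23 h3 v (I • w) u, D3_symm12 h3 v u,
      D3_symm23 h3 w (I • u) v, D3_symm12 h3 w v]
    ring

end Vale.Agent.P250
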