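import Vale.Agent.P250.Diag
import Vale.Agent.P250.Levi

set_option maxSynthPendingDepth 3

namespace Vale.Agent.P250

open scoped ContDiff Topology ComplexConjugate
open Complex Set Filter Vale.Agent.P255

theorem NFb_hol (k : ℝ) (l : B2 →L[ℝ] ℝ) (B : B2 →L[ℝ] B2 →L[ℝ] ℝ) (hs : ∀ a b, B a b = B b a) :
    ∃ q : B2 → ℂ, ContDiff ℂ ∞ q ∧
      ∀ z, (q z).re = k + l z + 1 / 4 * (B z z - B (I • z) (I • z)) := by
  refine ⟨fun z => (k : ℂ) + ((l (1, 0) : ℂ) - I * l (I, 0)) * z.1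
    + ((l (0, 1) : ℂ) - I * l (0, I)) * z.2
    + (((B (1, 0) (1, 0) - B (I, 0) (I, 0)) / 4 : ℝ) - I * (B (1, 0) (I, 0) / 2 : ℝ)) * (z.1 * z.1)
    + (((B (1, 0) (0, 1) - B (I, 0) (0, I)) / 2 : ℝ)
      - I * ((B (1, 0) (0, I) + B (I, 0) (0, 1)) / 2 : ℝ)) * (z.1 * z.2)
    + (((B (0, 1) (0, 1) - B (0, I) (0, I)) / 4 : ℝ) - I * (B (0, 1) (0, I) / 2 : ℝ)) * (z.2 * z.2),
    by fun_prop, fun z => ?_⟩
  have e1 : z = z.1.re • ((1, 0) : B2) + z.1.im • ((I, 0) : B2) + z.2.re • ((0, 1) : B2)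
      + z.2.im • ((0, I) : B2) := by
    ext <;> simp
  have e2 : I • z = (-z.1.im) • ((1, 0) : B2) + z.1.re • ((I, 0) : B2) + (-z.2.im) • ((0, 1) : B2)
      + z.2.re • ((0, I) : B2) := by
    ext <;> apply Complex.ext <;> simp
  have a1 : l z = z.1.re * l (1, 0) + z.1.im * l (I, 0) + z.2.re * l (0, 1) + z.2.im * l (0, I) := by
    conv_lhs => rw [e1]
    simp only [map_add, map_smul, smul_eq_mul]
  have a2 : ∀ x1 y1 x2 y2 : ℝ, B (x1 • ((1, 0) : B2) + y1 • ((I, 0) : B2) + x2 • ((0, 1) : B2)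
      + y2 • ((0, I) : B2)) (x1 • ((1, 0) : B2) + y1 • ((I, 0) : B2) + x2 • ((0, 1) : B2)
      + y2 • ((0, I) : B2)) = x1 ^ 2 * B (1, 0) (1, 0) + y1 ^ 2 * B (I, 0) (I, 0)
        + x2 ^ 2 * B (0, 1) (0, 1) + y2 ^ 2 * B (0, I) (0, I) + 2 * x1 * y1 * B (1, 0) (I, 0)
        + 2 * x1 * x2 * B (1, 0) (0, 1) + 2 * x1 * y2 * B (1, 0) (0, I)
        + 2 * y1 * x2 * B (I, 0) (0, 1) + 2 * y1 * y2 * B (I, 0) (0, I)
        + 2 * x2 * y2 * B (0, 1) (0, I) := by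
    intro x1 y1 x2 y2
    simp only [map_add, map_smul, ContinuousLinearMap.add_apply, ContinuousLinearMap.smul_apply,
      smul_eq_mul]
    rw [hs (I, 0) (1, 0), hs (0, 1) (1, 0), hs (0, I) (1, 0), hs (0, 1) (I, 0), hs (0, I) (I, 0),
      hs (0, I) (0, 1)]
    ring
  have a3 := a2 z.1.re z.1.im z.2.re z.2.im
  have a4 := a2 (-z.1.im) z.1.re (-z.2.im) z.2.re
  rw [← e1] at a3
  rw [← e2] at a4
  rw [a1, a3, a4]
  simp only [add_re, mul_re, sub_re, ofReal_re, ofReal_im, I_re, I_im, sub_im, mul_im]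
  ring

theorem NFb_sq (a : B2) : ‖a‖ ^ 2 ≤ ‖a.1‖ ^ 2 + ‖a.2‖ ^ 2 := by
  rw [Prod.norm_def]
  rcases le_total ‖a.1‖ ‖a.2‖ with h | h
  · rw [max_eq_right h]; nlinarith [sq_nonneg ‖a.1‖]
  · rw [max_eq_left h]; nlinarith [sq_nonneg ‖a.2‖]

set_option maxHeartbeats 800000 in
theorem nf_of (C : ℝ) : ∃ C' : ℝ, 2 ≤ C' ∧ ∀ φ p O θ h k f, NF0 φ C p O θ h k f →
    ∃ O' θ' h' k' f' s₁ s₂, NF φ C' p O' θ' h' k' f' s₁ s₂ := by
  refine ⟨max 2 (16 * C), le_max_left _ _, fun φ p O θ h k f H => ?_⟩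
  have hC : 0 ≤ C := (norm_nonneg _).trans H.b2
  have hC' : 16 * C ≤ max 2 (16 * C) := le_max_right _ _
  have hf0 : ContDiffAt ℝ ∞ f 0 := H.hf.contDiffAt (H.op.mem_nhds H.mem)
  have le4 : ∀ n : ℕ, ((n : ℕ∞) : WithTop ℕ∞) ≤ ∞ := fun n => by exact_mod_cast le_top
  have hf2 : ContDiffAt ℝ 2 f 0 := hf0.of_le (le4 2)
  have hf3 : ContDiffAt ℝ 3 f 0 := hf0.of_le (le4 3)
  have hf4 : ContDiffAt ℝ 4 f 0 := hf0.of_le (le4 4)
  obtain ⟨L, s₁, s₂, hL, hS⟩ := diag ((1 / 2 : ℝ) • levi f 0)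
    (fun a b => by
      simp only [ContinuousLinearMap.smul_apply, levi_symm hf2 a b])
    (fun a b => by
      simp only [ContinuousLinearMap.smul_apply, levi_apply, smul_smul, I_mul_I, neg_smul,
        one_smul, map_neg, ContinuousLinearMap.neg_apply, neg_neg, add_comm])
  have hS' : ∀ a b, 1 / 2 * (D2 f 0 (L a) (L b) + D2 f 0 (I • L a) (I • L b)) =
      (hq s₁ s₂ a b).re := fun a b => hS a b
  let Lr : B2 →L[ℝ] B2 := L.restrictScalars ℝ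
  have hLr : ∀ z, Lr z = L z := fun z => rfl
  have hL0 : Lr 0 = 0 := map_zero _
  let g : B2 → ℝ := fun z => f (Lr z)
  have hO' : IsOpen (L ⁻¹' O) := H.op.preimage L.continuous
  have h0' : (0 : B2) ∈ L ⁻¹' O := by simpa using H.mem
  have hg : ContDiffOn ℝ ∞ g (L ⁻¹' O) := H.hf.comp Lr.contDiff.contDiffOn fun z hz => hz
  have hg0 : ContDiffAt ℝ ∞ g 0 := hg.contDiffAt (hO'.mem_nhds h0')
  have g2 : ∀ a b, D2 g 0 a b = D2 f 0 (L a) (L b) := fun a b => by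
    have := D2_lin (f := f) Lr (y := 0) (by rw [hL0]; exact hf2) a b
    rwa [hL0] at this
  have g3 : ∀ a b c, D3 g 0 a b c = D3 f 0 (L a) (L b) (L c) := fun a b c => by
    have := D3_lin (f := f) Lr (y := 0) (by rw [hL0]; exact hf3) a b c
    rwa [hL0] at this
  have g4 : ∀ a b c d, D4 g 0 a b c d = D4 f 0 (L a) (L b) (L c) (L d) := fun a b c d => by
    have := D4_lin (f := f) Lr (y := 0) (by rw [hL0]; exact hf4) a b c d
    rwa [hL0] at this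
  have gs : ∀ a b, D2 g 0 a b = D2 g 0 b a := D2_symm (hg0.of_le (le4 2))
  obtain ⟨q, hq1, hq2⟩ := NFb_hol (g 0) (fderiv ℝ g 0) (D2 g 0) gs
  let Bq : B2 →L[ℝ] B2 →L[ℝ] ℝ := (1 / 4 : ℝ) • (D2 g 0 - (D2 g 0).bilinearComp (Jm B2) (Jm B2))
  have hBq : ∀ a b, Bq a b = 1 / 4 * (D2 g 0 a b - D2 g 0 (I • a) (I • b)) := fun a b => rfl
  let R : B2 → ℝ := fun y => g 0 + fderiv ℝ g 0 y + Bq y y
  have hR : ContDiff ℝ ∞ R :=
    (contDiff_const.add (fderiv ℝ g 0).contDiff).add (Bq.contDiff.clm_apply contDiff_id)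
  obtain ⟨r1, r2, r3, r4⟩ := D_poly (g 0) (fderiv ℝ g 0) Bq 0
  let f' : B2 → ℝ := fun z => g z + (-1) * R z
  have hR' : ContDiff ℝ ∞ fun z => (-1) * R z := contDiff_const.mul hR
  have hf' : ContDiffOn ℝ ∞ f' (L ⁻¹' O) := hg.add hR'.contDiffOn
  have hf'0 : ContDiffAt ℝ ∞ f' 0 := hf'.contDiffAt (hO'.mem_nhds h0')
  have d3 : D3 f' 0 = D3 g 0 := by
    rw [D3_add (hg0.of_le (le4 3)) (hR'.contDiffAt.of_le (le4 3)),
      D3_mul (hR.contDiffAt.of_le (le4 3)), r3]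
    refine ContinuousLinearMap.ext fun a => ContinuousLinearMap.ext fun b =>
      ContinuousLinearMap.ext fun c => ?_
    simp only [ContinuousLinearMap.add_apply, ContinuousLinearMap.smul_apply,
      ContinuousLinearMap.zero_apply, smul_zero, add_zero]
  have d4 : D4 f' 0 = D4 g 0 := by
    rw [D4_add (hg0.of_le (le4 4)) (hR'.contDiffAt.of_le (le4 4)),
      D4_mul (hR.contDiffAt.of_le (le4 4)), r4]
    refine ContinuousLinearMap.ext fun a => ContinuousLinearMap.ext fun b =>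
      ContinuousLinearMap.ext fun c => ContinuousLinearMap.ext fun d => ?_
    simp only [ContinuousLinearMap.add_apply, ContinuousLinearMap.smul_apply,
      ContinuousLinearMap.zero_apply, smul_zero, add_zero]
  have nL : ∀ a, ‖L a‖ ≤ 2 * ‖a‖ := fun a => by
    have h1 := NFb_sq (L a)
    rw [hL] at h1
    have h2 := norm_fst_le a
    have h3 := norm_snd_le a
    refine le_of_sq_le_sq ?_ (by positivity)
    nlinarith [norm_nonneg a.1, norm_nonneg a.2, norm_nonneg a]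
  have up : ∀ a : B2, ‖a.1‖ ^ 2 + ‖a.2‖ ^ 2 = 1 →
      2 ≤ (hq s₁ s₂ a a).re ∧ (hq s₁ s₂ a a).re ≤ max 2 (16 * C) := by
    intro a ha
    rw [← hS']
    have h1 := H.low (L a)
    rw [hL, ha, levi_apply] at h1
    refine ⟨by linarith, ?_⟩
    have h2 := NFb_sq (L a)
    rw [hL, ha] at h2
    have h3 : ∀ v : B2, ‖v‖ ^ 2 ≤ 1 → D2 f 0 v v ≤ C := fun v hv => by
      have h4 := (D2 f 0).le_opNorm₂ v v
      have h5 := H.b2
      refine (le_abs_self _).trans (le_trans h4 ?_)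
      calc ‖D2 f 0‖ * ‖v‖ * ‖v‖ = ‖D2 f 0‖ * ‖v‖ ^ 2 := by ring
        _ ≤ C * 1 := by gcongr
        _ = C := mul_one C
    have h4 := h3 _ h2
    have h5 := h3 (I • L a) (by rwa [norm_smul, norm_I, one_mul])
    linarith
  have u1 := up (1, 0) (by simp)
  have u2 := up (0, 1) (by simp)
  have v1 : (hq s₁ s₂ (1, 0) (1, 0)).re = s₁ := by simp [hq]
  have v2 : (hq s₁ s₂ (0, 1) (0, 1)).re = s₂ := by simp [hq]
  rw [v1] at u1
  rw [v2] at u2
  refine ⟨L ⁻¹' O, fun z => θ (L z), fun z => h (L z) + q z, fun z => k (L z), f', s₁, s₂,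
    hO', h0', by simpa using H.ctr, fun z hz => H.maps hz, fun z hz => ?_,
    H.hθ.comp L.contDiff.contDiffOn fun z hz => hz,
    (H.hh.comp L.contDiff.contDiffOn fun z hz => hz).add hq1.contDiffOn,
    H.hk.comp L.contDiff.contDiffOn fun z hz => hz, hf', fun z hz => ?_, fun z hz => ?_, ?_, ?_,
    fun a b => ?_, u1.1, u2.1, u1.2, u2.2, D3_symm12 (hf'0.of_le (le4 3)),
    D3_symm23 (hf'0.of_le (le4 3)), D4_symm12 (hf'0.of_le (le4 4)),
    D4_symm23 (hf'0.of_le (le4 4)), D4_symm34 (hf'0.of_le (le4 4)), fun a b c => ?_,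
    fun a b c d => ?_⟩
  · rw [← hL]
    exact H.small _ hz
  · rw [H.eφ _ hz, add_re, hq2]
    simp only [f', R, g, hBq, hLr]
    ring
  · rw [H.et _ hz, LL, LL, hL]
  · simp [f', R]
  · have h1 : HasFDerivAt f' (fderiv ℝ g 0 + (-1 : ℝ) • fderiv ℝ R 0) 0 :=
      (hg0.differentiableAt (by simp)).hasFDerivAt.add
        ((hR.differentiable (by simp) 0).hasFDerivAt.const_mul (-1))
    rw [h1.fderiv]
    refine ContinuousLinearMap.ext fun a => ?_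
    have := r1 a
    simp only [ContinuousLinearMap.add_apply, ContinuousLinearMap.smul_apply, R, this, map_zero,
      ContinuousLinearMap.zero_apply, smul_eq_mul]
    ring
  · rw [D2_add (hg0.of_le (le4 2)) (hR'.contDiffAt.of_le (le4 2)),
      D2_mul (hR.contDiffAt.of_le (le4 2)), ← hS']
    have : D2 R 0 a b = Bq a b + Bq b a := r2 a b
    simp only [ContinuousLinearMap.add_apply, ContinuousLinearMap.smul_apply, this, smul_eq_mul]
    rw [hBq, hBq, gs b a, gs (I • b) (I • a), g2, g2, L.map_smul, L.map_smul]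
    ring
  · rw [d3, g3]
    have h1 := (D3 f 0 (L a)).le_opNorm₂ (L b) (L c)
    have h2 := (D3 f 0).le_opNorm (L a)
    have h3 := H.b3
    have na := nL a
    have nb := nL b
    have nc := nL c
    calc |D3 f 0 (L a) (L b) (L c)| ≤ ‖D3 f 0 (L a)‖ * ‖L b‖ * ‖L c‖ := h1
      _ ≤ ‖D3 f 0‖ * ‖L a‖ * ‖L b‖ * ‖L c‖ := by gcongr
      _ ≤ C * (2 * ‖a‖) * (2 * ‖b‖) * (2 * ‖c‖) := by gcongr
      _ = 8 * C * (‖a‖ * ‖b‖ * ‖c‖) := by ring
      _ ≤ max 2 (16 * C) * (‖a‖ * ‖b‖ * ‖c‖) := by gcongr; linarith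
  · rw [d4, g4]
    have h1 := (D4 f 0 (L a) (L b)).le_opNorm₂ (L c) (L d)
    have h2 := (D4 f 0).le_opNorm₂ (L a) (L b)
    have h3 := H.b4
    have na := nL a
    have nb := nL b
    have nc := nL c
    have nd := nL d
    calc |D4 f 0 (L a) (L b) (L c) (L d)| ≤ ‖D4 f 0 (L a) (L b)‖ * ‖L c‖ * ‖L d‖ := h1
      _ ≤ ‖D4 f 0‖ * ‖L a‖ * ‖L b‖ * ‖L c‖ * ‖L d‖ := by gcongr
      _ ≤ C * (2 * ‖a‖) * (2 * ‖b‖) * (2 * ‖c‖) * (2 * ‖d‖) := by gcongr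
      _ = 16 * C * (‖a‖ * ‖b‖ * ‖c‖ * ‖d‖) := by ring
      _ ≤ max 2 (16 * C) * (‖a‖ * ‖b‖ * ‖c‖ * ‖d‖) := by gcongr

end Vale.Agent.P250
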