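import Vale.Agent.P250.PD

set_option maxSynthPendingDepth 3

namespace Vale.Agent.P250

open scoped ContDiff Topology ComplexConjugate
open Complex Set Filter Vale.Agent.P255

theorem net_disj {a b : ℂ} (hab : min (1 - ‖a‖) (1 - ‖b‖) / 100 ≤ ‖a - b‖) (ha : ‖a‖ < 1)
    (hb : ‖b‖ < 1) : Disjoint (Metric.ball a ((1 - ‖a‖) / 300)) (Metric.ball b ((1 - ‖b‖) / 300)) := by
  refine Metric.ball_disjoint_ball ?_
  rw [dist_eq_norm]
  have h1 := norm_sub_norm_le a b
  have h2 := norm_sub_norm_le b a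
  rw [norm_sub_rev] at h2
  rcases le_total (1 - ‖a‖) (1 - ‖b‖) with h | h
  · rw [min_eq_left h] at hab; linarith
  · rw [min_eq_right h] at hab; linarith

theorem net_vol (a : ℂ) {r : ℝ} (hr : 0 ≤ r) :
    MeasureTheory.volume.real (Metric.ball a r) = r ^ 2 * Real.pi := by
  rw [MeasureTheory.Measure.real, Complex.volume_ball, ENNReal.toReal_mul, ENNReal.toReal_pow,
    ENNReal.toReal_ofReal hr]
  rfl

theorem exists_net {δ : ℝ} (h0 : 0 < δ) (h1 : δ ≤ 1 / 10 ^ 7) : ∃ N, IsNet δ N := by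
  obtain ⟨N, hN⟩ := zorn_subset {N : Set ℂ | (∀ a ∈ N, 1 - δ ≤ ‖a‖ ∧ ‖a‖ < 1) ∧
      ∀ a ∈ N, ∀ b ∈ N, a ≠ b → min (1 - ‖a‖) (1 - ‖b‖) / 100 ≤ ‖a - b‖} fun c hc hch =>
    ⟨⋃₀ c, ⟨fun a ⟨s, hs, ha⟩ => (hc hs).1 a ha, fun a ⟨s, hs, ha⟩ b ⟨t, ht, hb⟩ hab => by
      rcases hch.total hs ht with h | h
      · exact (hc ht).2 a (h ha) b hb hab
      · exact (hc hs).2 a ha b (h hb) hab⟩, fun s hs => subset_sUnion_of_mem hs⟩
  obtain ⟨hA, hS⟩ := hN.prop
  have hdis : N.PairwiseDisjoint fun a => Metric.ball a ((1 - ‖a‖) / 300) := fun a ha b hb hab =>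
    net_disj (hS a ha b hb hab) (hA a ha).2 (hA b hb).2
  have cov0 : ∀ y : ℂ, 1 - δ ≤ ‖y‖ → ‖y‖ < 1 → ∃ a ∈ N, ‖y - a‖ ≤ (1 - ‖y‖) / 100 := by
    intro y y1 y2
    by_contra hc
    push Not at hc
    have hy : y ∈ N := by
      refine hN.mem_of_prop_insert ⟨?_, ?_⟩
      · rintro a (rfl | ha)
        exacts [⟨y1, y2⟩, hA a ha]
      · rintro a (rfl | ha) b (rfl | hb) hab
        · exact absurd rfl hab
        · exact le_trans (by gcongr; exact min_le_left _ _) (hc b hb).le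
        · rw [norm_sub_rev]
          exact le_trans (by gcongr; exact min_le_right _ _) (hc a ha).le
        · exact hS a ha b hb hab
    have := hc y hy
    rw [sub_self, norm_zero] at this
    linarith
  refine ⟨N, hdis.countable_of_isOpen (fun _ _ => Metric.isOpen_ball) fun a ha =>
    Metric.nonempty_ball.2 (by linarith [(hA a ha).2]), fun a ha => (hA a ha).1,
    fun a ha => (hA a ha).2, hS, fun y y1 y2 => ?_, fun s hs => ?_⟩
  · rcases le_or_gt (1 - δ) ‖y‖ with h | h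
    · obtain ⟨a, ha, h2⟩ := cov0 y h y2
      exact ⟨a, ha, by linarith⟩
    · have y0 : 0 < ‖y‖ := by norm_num at h1; linarith
      have e1 : ‖(((1 - δ) / ‖y‖ : ℝ) : ℂ) * y‖ = 1 - δ := by
        rw [norm_mul, norm_real, Real.norm_of_nonneg (by apply div_nonneg <;> linarith),
          div_mul_cancel₀ _ y0.ne']
      have e2 : ‖y - (((1 - δ) / ‖y‖ : ℝ) : ℂ) * y‖ = 1 - δ - ‖y‖ := by
        rw [norm_sub_rev, show (((1 - δ) / ‖y‖ : ℝ) : ℂ) * y - y =
          (((1 - δ - ‖y‖) / ‖y‖ : ℝ) : ℂ) * y by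
            rw [sub_div (1 - δ), div_self y0.ne']; push_cast; ring,
          norm_mul, norm_real, Real.norm_of_nonneg (by apply div_nonneg <;> linarith),
          div_mul_cancel₀ _ y0.ne']
      obtain ⟨a, ha, h2⟩ := cov0 _ e1.ge (by rw [e1]; linarith)
      refine ⟨a, ha, ?_⟩
      have := norm_sub_le_norm_sub_add_norm_sub y ((((1 - δ) / ‖y‖ : ℝ) : ℂ) * y) a
      rw [e1] at h2
      linarith
  · have d2 : 0 ≤ 1 - 2 * δ := by norm_num at h1; linarith
    have hu : Disjoint (⋃ a ∈ s, Metric.ball a ((1 - ‖a‖) / 300)) (Metric.ball 0 (1 - 2 * δ)) := by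
      simp only [disjoint_iUnion_left]
      intro a ha
      refine Metric.ball_disjoint_ball ?_
      rw [dist_zero_right]
      linarith [(hA a (hs a ha)).1]
    have hsub : (⋃ a ∈ s, Metric.ball a ((1 - ‖a‖) / 300)) ∪ Metric.ball 0 (1 - 2 * δ) ⊆
        Metric.ball (0 : ℂ) 1 := by
      refine union_subset (iUnion₂_subset fun a ha => Metric.ball_subset_ball' ?_)
        (Metric.ball_subset_ball (by linarith))
      rw [dist_zero_right]
      linarith [(hA a (hs a ha)).2]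
    have fin : ∀ (a : ℂ) (r : ℝ), MeasureTheory.volume (Metric.ball a r) ≠ ⊤ := fun a r =>
      MeasureTheory.measure_ball_lt_top.ne
    have h2 := MeasureTheory.measureReal_mono hsub (fin 0 1)
    rw [MeasureTheory.measureReal_union hu measurableSet_ball
      (ne_top_of_le_ne_top (fin 0 1) (MeasureTheory.measure_mono (subset_union_left.trans hsub)))
      (fin _ _), MeasureTheory.measureReal_biUnion_finset (hdis.subset fun a ha => hs a ha)
      (fun _ _ => measurableSet_ball) (fun _ _ => fin _ _), net_vol _ d2, net_vol _ zero_le_one,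
      Finset.sum_congr rfl fun a ha => net_vol a (by linarith [(hA a (hs a ha)).2]),
      ← Finset.sum_mul, ← add_mul] at h2
    have h3 := le_of_mul_le_mul_right h2 Real.pi_pos
    have h4 : ∑ a ∈ s, (1 - ‖a‖ ^ 2) ^ 2 ≤ ∑ a ∈ s, 360000 * ((1 - ‖a‖) / 300) ^ 2 := by
      refine Finset.sum_le_sum fun a ha => ?_
      have := (hA a (hs a ha)).2
      have := norm_nonneg a
      calc (1 - ‖a‖ ^ 2) ^ 2 = (1 + ‖a‖) ^ 2 * (1 - ‖a‖) ^ 2 := by ring
        _ ≤ 2 ^ 2 * (1 - ‖a‖) ^ 2 := by gcongr; linarith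
        _ = _ := by ring
    rw [← Finset.mul_sum] at h4
    norm_num at h1
    nlinarith [sq_nonneg δ]

end Vale.Agent.P250
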