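import Vale.Agent.P250.Aff

set_option maxSynthPendingDepth 3

namespace Vale.Agent.P250

open scoped ContDiff Topology ComplexConjugate
open Complex Set Filter Vale.Agent.P255

variable {η δ : ℝ} {N : Set ℂ}

/-- the ping-pong region -/
def PingE (η : ℝ) (p : B2) : Prop := p ∈ HH ∧ ‖p.2 - I‖ ≤ η

theorem Ping_rr (hη : 0 < η) (hη1 : η ≤ 1 / 1000) (hδ : δ ≤ η ^ 2 / 128) (hN : IsNet δ N) {a : ℂ}
    (ha : a ∈ N) : 0 < rr a ∧ rr a ≤ η / 8 ∧ 99 / 100 ≤ ‖a‖ := by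
  have h1 := hN.lo a ha
  have h2 := hN.hi a ha
  have h3 := rr_sq h2
  have h4 := rr_pos h2
  have h5 := norm_nonneg a
  refine ⟨h4, le_of_sq_le_sq ?_ (by positivity), by nlinarith⟩
  rw [h3]
  nlinarith

theorem Ping_fst (hη1 : η ≤ 1 / 1000) {p : B2} (hp : PingE η p) : ‖p.1‖ ≤ 101 / 100 := by
  have h1 : 0 < p.2.im - ‖p.1‖ ^ 2 := hp.1
  have h2 := (le_abs_self _).trans (abs_im_le_norm (p.2 - I))
  rw [sub_im, I_im] at h2
  have h3 := hp.2
  refine le_of_sq_le_sq ?_ (by norm_num)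
  linarith

theorem Ping_P1 (hη : 0 < η) (hη1 : η ≤ 1 / 1000) (hδ : δ ≤ η ^ 2 / 128) (hN : IsNet δ N) {a : ℂ}
    (ha : a ∈ N) {p : B2} (hp : PingE η p) :
    aff a 0 (rr a) p ∈ HH ∧ ‖(aff a 0 (rr a) p).2 - I‖ < η / 2 := by
  obtain ⟨r0, r1, -⟩ := Ping_rr hη hη1 hδ hN ha
  have h2 := hN.hi a ha
  constructor
  · show 0 < dl _
    rw [dl_aff]
    exact mul_pos (pow_pos r0 2) hp.1
  · have h3 : ((‖a‖ ^ 2 : ℝ) : ℂ) = 1 - (rr a : ℂ) ^ 2 := by
      have := rr_sq h2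
      rw [show ‖a‖ ^ 2 = 1 - rr a ^ 2 by linarith]
      push_cast
      ring
    have e : (aff a 0 (rr a) p).2 - I =
        (rr a : ℂ) ^ 2 * (p.2 - I) + 2 * I * rr a * conj a * p.1 := by
      simp only [aff, h3]
      push_cast
      ring
    rw [e]
    refine (norm_add_le _ _).trans_lt ?_
    simp only [norm_mul, norm_pow, norm_real, Real.norm_of_nonneg r0.le, norm_I, norm_conj,
      Complex.norm_ofNat]
    have h4 := Ping_fst hη1 hp
    have h5 := hp.2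
    have b1 : rr a ^ 2 * ‖p.2 - I‖ ≤ (η / 8) ^ 2 * η := by gcongr
    have b2 : 2 * 1 * rr a * ‖a‖ * ‖p.1‖ ≤ 2 * 1 * (η / 8) * 1 * (101 / 100) := by gcongr
    have b3 : (η / 8) ^ 2 * η ≤ 1 / 100 * η := by
      gcongr
      nlinarith
    linarith

theorem Ping_Gam (hη : 0 < η) (hη1 : η ≤ 1 / 1000) (hδ : δ ≤ η ^ 2 / 128) (hN : IsNet δ N)
    {g : List ℂ} (hg : g ∈ Wd N) {p : B2} (hp : PingE η p) : PingE η (Gam g p) := by
  induction g with
  | nil => exact hp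
  | cons a g ih =>
    have h := Ping_P1 hη hη1 hδ hN (hg a (List.mem_cons_self ..))
      (ih fun b hb => hg b (List.mem_cons_of_mem _ hb))
    exact ⟨h.1, by linarith [h.2, show ‖(Gam (a :: g) p).2 - I‖ =
      ‖(aff a 0 (rr a) (Gam g p)).2 - I‖ from rfl]⟩

theorem Ping_P2 (hη : 0 < η) (hη1 : η ≤ 1 / 1000) (hδ : δ ≤ η ^ 2 / 128) (hN : IsNet δ N) {a b : ℂ}
    (ha : a ∈ N) (hb : b ∈ N) {p : B2} (h1 : PingE η (ainv a 0 (rr a) p))
    (h2 : PingE η (ainv b 0 (rr b) p)) : a = b := by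
  by_contra hab
  obtain ⟨r0, r1, -⟩ := Ping_rr hη hη1 hδ hN ha
  obtain ⟨-, -, s2⟩ := Ping_rr hη hη1 hδ hN hb
  have a1 := hN.hi a ha
  have b1 := hN.hi b hb
  have a0 := norm_nonneg a
  have b0 := norm_nonneg b
  have key : ∀ c : ℂ, ‖c‖ < 1 → PingE η (ainv c 0 (rr c) p) →
      ‖p.2 - I - 2 * I * conj c * (p.1 - c)‖ ≤ η * (2 * (1 - ‖c‖)) := by
    intro c hc h
    have c0 := norm_nonneg c
    have h3 := h.2
    have h4 : 0 < 1 - ‖c‖ ^ 2 := by nlinarith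
    rw [ainv_snd hc, norm_div, norm_real, Real.norm_of_nonneg h4.le, div_le_iff₀ h4] at h3
    refine h3.trans ?_
    gcongr
    nlinarith
  have k1 := key a a1 h1
  have k2 := key b b1 h2
  have k3 : ‖p.1 - a‖ ≤ 1 / 100 := by
    have h3 := Ping_fst hη1 h1
    simp only [ainv, norm_div, norm_real, Real.norm_of_nonneg r0.le] at h3
    rw [div_le_iff₀ r0] at h3
    nlinarith
  have e : (p.2 - I - 2 * I * conj a * (p.1 - a)) - (p.2 - I - 2 * I * conj b * (p.1 - b)) =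
      2 * I * (conj b * (a - b) - conj (a - b) * (p.1 - a)) := by
    rw [map_sub]
    ring
  have k4 := norm_sub_le (p.2 - I - 2 * I * conj a * (p.1 - a))
    (p.2 - I - 2 * I * conj b * (p.1 - b))
  have k5 := norm_sub_norm_le (conj b * (a - b)) (conj (a - b) * (p.1 - a))
  rw [e] at k4
  simp only [norm_mul, norm_I, norm_conj, Complex.norm_ofNat] at k4 k5
  have d0 : 0 < ‖a - b‖ := norm_pos_iff.mpr (sub_ne_zero.mpr hab)
  have k6 : 99 / 100 * ‖a - b‖ ≤ ‖b‖ * ‖a - b‖ := by gcongr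
  have k7 : ‖a - b‖ * ‖p.1 - a‖ ≤ ‖a - b‖ * (1 / 100) := by gcongr
  have k8 := hN.sep a ha b hb hab
  have k9 := norm_sub_norm_le a b
  have k10 := norm_sub_norm_le b a
  rw [norm_sub_rev b a] at k10
  have k11 : 2 * (1 - ‖a‖) + 2 * (1 - ‖b‖) ≤ 402 * ‖a - b‖ := by
    rcases le_total (1 - ‖a‖) (1 - ‖b‖) with h | h
    · rw [min_eq_left h] at k8
      linarith
    · rw [min_eq_right h] at k8
      linarith
  have k12 : η * (2 * (1 - ‖a‖) + 2 * (1 - ‖b‖)) ≤ 1 / 1000 * (402 * ‖a - b‖) := by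
    gcongr
  linarith

theorem Ping_act (hη : 0 < η) (hη1 : η ≤ 1 / 1000) (hδ : δ ≤ η ^ 2 / 128) (hN : IsNet δ N)
    {g : List ℂ} (hg : g ∈ Wd N) {p : B2} (hp : p ∈ HH) (h : ¬ Inact η g p) : PingE η p := by
  have hg' : ∀ a ∈ g, ‖a‖ < 1 := fun a ha => hN.hi a (hg a ha)
  have h1 : PingE η (Gin g p) := by
    refine ⟨?_, le_of_not_gt fun h' => h (Or.inr h')⟩
    show 0 < dl _
    rw [dl_Gin hg']
    exact div_pos hp (pow_pos (rad_pos hg') 2)
  have := Ping_Gam hη hη1 hδ hN hg h1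
  rwa [Gam_Gin hg'] at this

theorem Ping_HH {a : ℂ} (ha : ‖a‖ < 1) {p : B2} (hp : p ∈ HH) : ainv a 0 (rr a) p ∈ HH := by
  show 0 < dl _
  rw [dl_ainv _ _ (rr_pos ha).ne']
  exact div_pos hp (pow_pos (rr_pos ha) 2)

theorem Ping_nil (hη : 0 < η) (hη1 : η ≤ 1 / 1000) (hδ : δ ≤ η ^ 2 / 128) (hN : IsNet δ N)
    {b : ℂ} (hb : b ∈ N) {p : B2} (h : PingE η (ainv b 0 (rr b) p)) : Inact η [] p := by
  have h1 := (Ping_P1 hη hη1 hδ hN hb h).2
  rw [aff_ainv _ _ (rr_pos (hN.hi b hb)).ne'] at h1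
  exact Or.inl h1

theorem Ping_uniq (hη : 0 < η) (hη1 : η ≤ 1 / 1000) (hδ : δ ≤ η ^ 2 / 128) (hN : IsNet δ N)
    (g : List ℂ) : ∀ (g' : List ℂ) (p : B2), g ∈ Wd N → g' ∈ Wd N → p ∈ HH →
      ¬ Inact η g p → ¬ Inact η g' p → g = g' := by
  have step : ∀ (b : ℂ) (t : List ℂ) (p : B2), b :: t ∈ Wd N → p ∈ HH → ¬ Inact η (b :: t) p →
      b ∈ N ∧ t ∈ Wd N ∧ PingE η (ainv b 0 (rr b) p) := by
    intro b t p hg hp h
    have hb := hg b (List.mem_cons_self ..)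
    have ht : t ∈ Wd N := fun c hc => hg c (List.mem_cons_of_mem _ hc)
    exact ⟨hb, ht, Ping_act hη hη1 hδ hN ht (Ping_HH (hN.hi b hb) hp) h⟩
  induction g with
  | nil =>
    intro g' p _ hg' hp h h'
    cases g' with
    | nil => rfl
    | cons b t =>
      obtain ⟨hb, -, h1⟩ := step b t p hg' hp h'
      exact absurd (Ping_nil hη hη1 hδ hN hb h1) h
  | cons a s ih =>
    intro g' p hg hg' hp h h'
    obtain ⟨ha, hs, h1⟩ := step a s p hg hp h
    cases g' with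
    | nil => exact absurd (Ping_nil hη hη1 hδ hN ha h1) h'
    | cons b t =>
      obtain ⟨hb, ht, h2⟩ := step b t p hg' hp h'
      obtain rfl := Ping_P2 hη hη1 hδ hN ha hb h1 h2
      rw [ih t _ hs ht h1.1 h h']

theorem ping_one (hη : 0 < η) (hη1 : η ≤ 1 / 1000) (hδ : δ ≤ η ^ 2 / 128) (hN : IsNet δ N)
    {p : B2} (hp : p ∈ HH) : ∃ g₀ ∈ Wd N, ∀ g ∈ Wd N, g ≠ g₀ → Inact η g p := by
  by_cases h : ∃ g₀ ∈ Wd N, ¬ Inact η g₀ p
  · obtain ⟨g₀, h0, h1⟩ := h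
    refine ⟨g₀, h0, fun g hg hne => ?_⟩
    by_contra h2
    exact hne (Ping_uniq hη hη1 hδ hN g g₀ p hg h0 hp h2 h1)
  · refine ⟨[], fun a ha => absurd ha List.not_mem_nil, fun g hg _ => ?_⟩
    by_contra h2
    exact h ⟨g, hg, h2⟩

theorem Ping_base (hη : 0 < η) {z : ℂ} (hz : ‖z‖ < 1) : PingE η (z, I) := by
  refine ⟨?_, by simpa using hη.le⟩
  show 0 < (I : ℂ).im - ‖z‖ ^ 2
  rw [I_im]
  nlinarith [norm_nonneg z]

theorem ping_disc (hη : 0 < η) (hη1 : η ≤ 1 / 1000) (hδ : δ ≤ η ^ 2 / 128) (hN : IsNet δ N)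
    {g : List ℂ} (hg : g ∈ Wd N) {z a : ℂ} (hz : ‖z‖ < 1) (ha : a ∈ N)
    (hb : ∀ b ∈ N, b ≠ a → η < ‖kap b * (z - b)‖) :
    ∀ g' ∈ Wd N, g' ≠ g ++ [a] → Inact η g' (Gam g (z, I)) := by
  have step : ∀ (b : ℂ) (t : List ℂ) (p : B2), b :: t ∈ Wd N → p ∈ HH → ¬ Inact η (b :: t) p →
      b ∈ N ∧ t ∈ Wd N ∧ PingE η (ainv b 0 (rr b) p) := by
    intro b t p hg hp h
    have hb := hg b (List.mem_cons_self ..)
    have ht : t ∈ Wd N := fun c hc => hg c (List.mem_cons_of_mem _ hc)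
    exact ⟨hb, ht, Ping_act hη hη1 hδ hN ht (Ping_HH (hN.hi b hb) hp) h⟩
  have hq := Ping_base hη hz
  induction g with
  | nil =>
    intro g' hg' hne
    by_contra h
    cases g' with
    | nil => exact h (Or.inl (by simpa [Gin, Gam] using hη))
    | cons b t =>
      obtain ⟨hbN, ht, h1⟩ := step b t _ hg' hq.1 h
      have h2 := h1.2
      rw [ainv_disc (hN.hi b hbN)] at h2
      obtain rfl : b = a := by
        by_contra hba
        exact absurd (hb b hbN hba) (not_lt.mpr h2)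
      cases t with
      | nil => exact hne rfl
      | cons c t' =>
        obtain ⟨hcN, -, h3⟩ := step c t' _ ht h1.1 h
        obtain ⟨r0, r1, r2⟩ := Ping_rr hη hη1 hδ hN hbN
        obtain ⟨s0, s1, s2⟩ := Ping_rr hη hη1 hδ hN hcN
        have h4 := Ping_fst hη1 h3
        simp only [ainv, norm_div, norm_real, Real.norm_of_nonneg s0.le] at h4
        rw [div_le_iff₀ s0] at h4
        have h5 := norm_sub_norm_le c ((z - b) / rr b)
        rw [norm_sub_rev, norm_div, norm_real, Real.norm_of_nonneg r0.le] at h5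
        have h6 : 9 / 10 ≤ ‖z - b‖ / rr b := by nlinarith
        rw [le_div_iff₀ r0] at h6
        rw [kap, ← rr_sq (hN.hi b hbN)] at h2
        simp only [norm_mul, norm_div, norm_neg, norm_I, norm_conj, Complex.norm_ofNat, norm_real,
          Real.norm_of_nonneg (sq_nonneg (rr b))] at h2
        rw [div_mul_eq_mul_div, div_le_iff₀ (pow_pos r0 2)] at h2
        have h7 : 2 * 1 * (99 / 100) * (9 / 10 * rr b) ≤ 2 * 1 * ‖b‖ * ‖z - b‖ := by gcongr
        have h8 : η * rr b ^ 2 ≤ 1 * rr b := by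
          rw [pow_two, ← mul_assoc]
          gcongr
          nlinarith
        linarith
  | cons c s ih =>
    intro g' hg' hne
    have hc := hg c (List.mem_cons_self ..)
    have hs : s ∈ Wd N := fun c hc => hg c (List.mem_cons_of_mem _ hc)
    have e : ainv c 0 (rr c) (Gam (c :: s) (z, I)) = Gam s (z, I) :=
      ainv_aff _ _ (rr_pos (hN.hi c hc)).ne' _
    have h1 : PingE η (ainv c 0 (rr c) (Gam (c :: s) (z, I))) := by
      rw [e]
      exact Ping_Gam hη hη1 hδ hN hs hq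
    by_contra h
    cases g' with
    | nil => exact h (Ping_nil hη hη1 hδ hN hc h1)
    | cons b t =>
      obtain ⟨hbN, ht, h2⟩ := step b t _ hg' (Ping_Gam hη hη1 hδ hN hg hq).1 h
      obtain rfl := Ping_P2 hη hη1 hδ hN hbN hc h2 h1
      apply h
      have h3 := ih hs t ht fun h' => hne (by rw [h']; rfl)
      rw [← e] at h3
      exact h3

theorem ping_bdd (hη : 0 < η) (hη1 : η ≤ 1 / 1000) (hδ : δ ≤ η ^ 2 / 128) (hN : IsNet δ N)
    {g : List ℂ} (hg : g ∈ Wd N) {z : ℂ} (hz : ‖z‖ < 1) : ‖(Gam g (z, I)).2 - I‖ ≤ 1 := by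
  have := (Ping_Gam hη hη1 hδ hN hg (Ping_base hη hz)).2
  linarith

end Vale.Agent.P250
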