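import Vale.Agent.P250.Aff

set_option maxSynthPendingDepth 3

namespace Vale.Agent.P250

open scoped ContDiff Topology ComplexConjugate
open Complex Set Filter Vale.Agent.P255

theorem Sum_nn (g : List ℂ) : 0 ≤ rad g ^ 4 := by positivity

theorem Sum_bd {δ : ℝ} {N : Set ℂ} (hN : IsNet δ N) (k : ℕ) :
    ∀ S : Finset (List ℂ), (∀ g ∈ S, g ∈ Wd N ∧ g.length ≤ k) → ∑ g ∈ S, rad g ^ 4 ≤ 2 := by
  classical
  induction k with
  | zero =>
    intro S hS
    have h1 : S ⊆ {[]} := by
      intro g hg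
      have := (hS g hg).2
      simp only [Finset.mem_singleton]
      exact List.length_eq_zero_iff.1 (by omega)
    calc ∑ g ∈ S, rad g ^ 4 ≤ ∑ g ∈ ({[]} : Finset (List ℂ)), rad g ^ 4 :=
          Finset.sum_le_sum_of_subset_of_nonneg h1 fun g _ _ => Sum_nn g
      _ ≤ 2 := by simp [rad]
  | succ k ih =>
    intro S hS
    set S' := S.filter (fun g => g ≠ []) with hS'
    set Hd := S'.image (fun g => g.headD 0)
    set Tl := S'.image List.tail
    have hH : ∀ a ∈ Hd, a ∈ N := by
      intro a ha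
      obtain ⟨g, hg, rfl⟩ := Finset.mem_image.1 ha
      obtain ⟨hg1, hg2⟩ := Finset.mem_filter.1 hg
      cases g with
      | nil => exact absurd rfl hg2
      | cons b g => exact (hS _ hg1).1 b (by simp)
    have hT : ∀ g ∈ Tl, g ∈ Wd N ∧ g.length ≤ k := by
      intro g' hg'
      obtain ⟨g, hg, rfl⟩ := Finset.mem_image.1 hg'
      obtain ⟨hg1, hg2⟩ := Finset.mem_filter.1 hg
      cases g with
      | nil => exact absurd rfl hg2
      | cons b g =>
        refine ⟨fun a ha => (hS _ hg1).1 a (List.mem_cons_of_mem _ ha), ?_⟩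
        have := (hS _ hg1).2
        simp only [List.length_cons] at this
        simp only [List.tail_cons]
        omega
    have h1 : S ⊆ insert [] ((Hd ×ˢ Tl).image fun x => x.1 :: x.2) := by
      intro g hg
      by_cases h : g = []
      · simp [h]
      · refine Finset.mem_insert_of_mem (Finset.mem_image.2 ⟨(g.headD 0, g.tail), ?_, ?_⟩)
        · have hg' : g ∈ S' := Finset.mem_filter.2 ⟨hg, h⟩
          exact Finset.mem_product.2
            ⟨Finset.mem_image_of_mem _ hg', Finset.mem_image_of_mem _ hg'⟩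
        · cases g with
          | nil => exact absurd rfl h
          | cons b g => rfl
    have h2 : ∑ g ∈ (Hd ×ˢ Tl).image (fun x => x.1 :: x.2), rad g ^ 4
        ≤ ∑ x ∈ Hd ×ˢ Tl, rad (x.1 :: x.2) ^ 4 :=
      Finset.sum_image_le_of_nonneg fun g _ => Sum_nn g
    have h3 : ∑ x ∈ Hd ×ˢ Tl, rad (x.1 :: x.2) ^ 4
        = (∑ a ∈ Hd, (1 - ‖a‖ ^ 2) ^ 2) * ∑ g ∈ Tl, rad g ^ 4 := by
      rw [Finset.sum_mul_sum, Finset.sum_product]
      refine Finset.sum_congr rfl fun a ha => Finset.sum_congr rfl fun g _ => ?_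
      have hp : 0 ≤ 1 - ‖a‖ ^ 2 := by
        have := hN.hi a (hH a ha)
        have := norm_nonneg a
        nlinarith
      have e : rr a ^ 2 = 1 - ‖a‖ ^ 2 := Real.sq_sqrt hp
      simp only [rad, List.map_cons, List.prod_cons]
      rw [← e]
      ring
    have h4 := hN.sum Hd hH
    have h5 := ih Tl hT
    have h6 : 0 ≤ ∑ g ∈ Tl, rad g ^ 4 := Finset.sum_nonneg fun g _ => Sum_nn g
    have h7 : ∑ g ∈ insert [] ((Hd ×ˢ Tl).image fun x => x.1 :: x.2), rad g ^ 4
        = rad [] ^ 4 + ∑ g ∈ (Hd ×ˢ Tl).image (fun x => x.1 :: x.2), rad g ^ 4 :=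
      Finset.sum_insert (by simp)
    have h8 : rad [] ^ 4 = 1 := by simp [rad]
    calc ∑ g ∈ S, rad g ^ 4
        ≤ ∑ g ∈ insert [] ((Hd ×ˢ Tl).image fun x => x.1 :: x.2), rad g ^ 4 :=
          Finset.sum_le_sum_of_subset_of_nonneg h1 fun g _ _ => Sum_nn g
      _ ≤ 2 := by
        rw [h7, h8]
        nlinarith

theorem sum_rad {δ : ℝ} {N : Set ℂ} (hN : IsNet δ N) :
    Summable fun g : Wd N => rad g.1 ^ 4 := by
  classical
  refine summable_of_sum_le (c := 2) (fun g => Sum_nn g.1) fun u => ?_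
  have h := Sum_bd hN (u.sup fun g => g.1.length) (u.map (Function.Embedding.subtype _)) (by
    intro g hg
    obtain ⟨x, hx, rfl⟩ := Finset.mem_map.1 hg
    exact ⟨x.2, Finset.le_sup (f := fun g : Wd N => g.1.length) hx⟩)
  rwa [Finset.sum_map] at h

end Vale.Agent.P250
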