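import Vale.Agent.P250.PHa
import Vale.Agent.P250.Sum
import Vale.Agent.P250.Ping

set_option maxSynthPendingDepth 3

namespace Vale.Agent.P250

open scoped ContDiff Topology ComplexConjugate
open Complex Set Filter Vale.Agent.P255

variable {η δ c : ℝ} {ψ : ℂ → ℝ} {N : Set ℂ}

noncomputable def Hf_PHs (ζ : ℂ) : ℂ := 2 * (log (1 + -I / ζ) - -I / ζ)

theorem nrm_PHs {ζ : ℂ} (h : 2 ≤ ζ.im) : ζ ≠ 0 ∧ ‖-I / ζ‖ ≤ 1 / ζ.im ∧ ‖-I / ζ‖ ≤ 1 / 2 := by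
  have h1 : ζ.im ≤ ‖ζ‖ := im_le_norm ζ
  have h2 : ‖-I / ζ‖ ≤ 1 / ζ.im := by
    rw [norm_div, norm_neg, norm_I]
    gcongr
  refine ⟨fun h0 => ?_, h2, h2.trans (by gcongr)⟩
  rw [h0] at h
  norm_num at h

theorem far_PHs (hη1 : η ≤ 1 / 1000) (hψ : IsWell η ψ) {ζ : ℂ} (h : 2 ≤ ζ.im) :
    psiT ψ ζ = (Hf_PHs ζ).re := by
  obtain ⟨h0, -, -⟩ := nrm_PHs h
  have h1 : (ζ - I).im ≤ ‖ζ - I‖ := im_le_norm _
  have h2 : (1 : ℝ) ≤ ‖ζ - I‖ := by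
    simp only [sub_im, I_im] at h1
    linarith
  have e : 1 + -I / ζ = (ζ - I) / ζ := by field_simp; ring
  have h3 : ‖ζ‖ ≠ 0 := norm_ne_zero_iff.2 h0
  have h4 : ‖ζ - I‖ ≠ 0 := by linarith
  rw [psiT, hψ.out _ (by linarith), Hf_PHs, e, neg_div]
  simp only [mul_re, re_ofNat, im_ofNat, sub_re, neg_re, log_re, norm_div, zero_mul, sub_zero]
  rw [Real.log_div h4 h3, Real.log_pow, Real.log_pow]
  push_cast
  ring

theorem bd_PHs {ζ : ℂ} (h : 2 ≤ ζ.im) : ‖Hf_PHs ζ‖ ≤ 2 * (1 / ζ.im) ^ 2 := by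
  obtain ⟨-, h1, h2⟩ := nrm_PHs h
  have h3 := norm_log_one_add_sub_self_le (z := -I / ζ) (by linarith)
  have h4 : (1 - ‖-I / ζ‖)⁻¹ ≤ 2 := by
    rw [inv_le_comm₀ (by linarith) (by norm_num)]
    linarith
  have h5 : ‖-I / ζ‖ ^ 2 * (1 - ‖-I / ζ‖)⁻¹ ≤ (1 / ζ.im) ^ 2 * 2 := by
    have : 0 ≤ (1 - ‖-I / ζ‖)⁻¹ := inv_nonneg.2 (by linarith)
    gcongr
  rw [Hf_PHs, norm_mul, Complex.norm_ofNat]
  linarith

theorem diff_PHs {ζ : ℂ} (h : 2 ≤ ζ.im) : DifferentiableAt ℂ Hf_PHs ζ := by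
  obtain ⟨h0, -, h2⟩ := nrm_PHs h
  have h3 : DifferentiableAt ℂ (fun z : ℂ => -I / z) ζ := by fun_prop (disch := assumption)
  have h4 : 1 + -I / ζ ∈ slitPlane := mem_slitPlane_of_norm_lt_one (by linarith)
  exact ((((differentiableAt_const _).add h3).clog h4).sub h3).const_mul 2

theorem cont_dl_PHs : Continuous dl := by
  unfold dl
  fun_prop

theorem ne_PHs {g : List ℂ} (hg : ∀ a ∈ g, ‖a‖ < 1) {p : B2} (hp : p ∈ HH) :
    (Gin g p).2 ≠ 0 := by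
  intro h0
  have h1 := dl_le_im (Gin g p)
  have h2 : 0 < dl p := hp
  have h3 := rad_pos hg
  rw [h0, dl_Gin hg] at h1
  have : 0 < dl p / rad g ^ 2 := by positivity
  simp only [zero_im] at h1
  linarith

theorem im_PHs {g : List ℂ} (hg : ∀ a ∈ g, ‖a‖ < 1) {d : ℝ} (hd : 0 < d) (hr : rad g ^ 2 ≤ d / 4)
    {q : B2} (hq : d / 2 < dl q) :
    2 ≤ (Gin g q).2.im ∧ 2 * (1 / (Gin g q).2.im) ^ 2 ≤ 8 / d ^ 2 * rad g ^ 4 := by
  have h1 := dl_le_im (Gin g q)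
  have h3 := rad_pos hg
  rw [dl_Gin hg] at h1
  have h4 : d / 2 / rad g ^ 2 ≤ (Gin g q).2.im := le_trans (by gcongr) h1
  have h5 : 2 ≤ d / 2 / rad g ^ 2 := by
    rw [le_div_iff₀ (by positivity)]
    linarith
  refine ⟨h5.trans h4, ?_⟩
  have h6 : (1 / (Gin g q).2.im) ^ 2 ≤ (1 / (d / 2 / rad g ^ 2)) ^ 2 := by
    have : 0 < (Gin g q).2.im := by linarith
    gcongr
  have e : 2 * (1 / (d / 2 / rad g ^ 2)) ^ 2 = 8 / d ^ 2 * rad g ^ 4 := by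
    field_simp
    ring
  linarith

theorem ph_local (hη : 0 < η) (hη1 : η ≤ 1 / 1000) (hN : IsNet δ N) (hψ : IsWell η ψ)
    {p : B2} (hp : p ∈ HH) {g₀ : List ℂ} (h₀ : g₀ ∈ Wd N)
    (h : ∀ g ∈ Wd N, g ≠ g₀ → Inact η g p) :
    PH (fun q => phi0 c ψ N q - c * ψ ((Gin g₀ q).2 - I)) p := by
  classical
  have hd : 0 < dl p := hp
  have hw : ∀ g : Wd N, ∀ a ∈ g.1, ‖a‖ < 1 := fun g a ha => hN.hi a (g.2 a ha)
  have hS := sum_rad hN
  have hfin : {g : Wd N | ¬ rad g.1 ^ 4 < (dl p / 4) ^ 2}.Finite :=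
    hS.tendsto_cofinite_zero.eventually (gt_mem_nhds (by positivity))
  set s' : Finset (Wd N) := hfin.toFinset.erase ⟨g₀, h₀⟩ with hs'
  set s : Finset (Wd N) := insert ⟨g₀, h₀⟩ s' with hs
  have hsm : ∀ g : {g : Wd N // g ∉ s}, rad g.1.1 ^ 2 ≤ dl p / 4 := by
    intro g
    have h1 : g.1 ∉ hfin.toFinset := fun h1 =>
      g.2 (Finset.subset_insert_iff.2 (Finset.Subset.refl _) h1)
    rw [Set.Finite.mem_toFinset, mem_setOf_eq, not_not] at h1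
    have h2 : (rad g.1.1 ^ 2) ^ 2 < (dl p / 4) ^ 2 := by
      rw [← pow_mul]
      exact h1
    exact (abs_lt_of_sq_lt_sq' h2 (by positivity)).2.le
  have hO : IsOpen {q : B2 | dl p / 2 < dl q} := isOpen_lt continuous_const cont_dl_PHs
  have hpO : p ∈ {q : B2 | dl p / 2 < dl q} := by
    simp only [mem_setOf_eq]
    linarith
  have hu : Summable fun g : {g : Wd N // g ∉ s} => 8 / dl p ^ 2 * rad g.1.1 ^ 4 :=
    (hS.subtype _).mul_left _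
  have hb : ∀ g : {g : Wd N // g ∉ s}, ∀ q ∈ {q : B2 | dl p / 2 < dl q},
      ‖Hf_PHs (Gin g.1.1 q).2‖ ≤ 8 / dl p ^ 2 * rad g.1.1 ^ 4 := fun g q hq =>
    (bd_PHs (im_PHs (hw g.1) hd (hsm g) hq).1).trans (im_PHs (hw g.1) hd (hsm g) hq).2
  have hT : DifferentiableOn ℂ (fun q => ∑' g : {g : Wd N // g ∉ s}, Hf_PHs (Gin g.1.1 q).2)
      {q : B2 | dl p / 2 < dl q} :=
    scv_tsum (f := fun (g : {g : Wd N // g ∉ s}) q => Hf_PHs (Gin g.1.1 q).2) hO hu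
      (fun g q hq => (DifferentiableAt.comp (g := Hf_PHs) (f := fun q => (Gin g.1.1 q).2) q
        (diff_PHs (im_PHs (hw g.1) hd (hsm g) hq).1)
        ((diff_Gin g.1.1).snd q)).differentiableWithinAt) hb
  have p1 : PH (fun q => (∑' g : {g : Wd N // g ∉ s}, Hf_PHs (Gin g.1.1 q).2).re) p :=
    ⟨_, _, hO, hpO, hT, fun _ _ => rfl⟩
  have p2 : ∀ g : Wd N, PH (fun q => -Real.log (‖(Gin g.1 q).2‖ ^ 2)
      + 2 * (I / (Gin g.1 q).2).re) p := fun g =>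
    ph_corr (Z := fun q => (Gin g.1 q).2) (diff_Gin g.1).snd (ne_PHs (hw g) hp)
  have p3 : PH (fun q => ∑ g ∈ s', psiT ψ (Gin g.1 q).2) p := by
    refine PH.sum s' (F := fun g q => psiT ψ (Gin g.1 q).2) fun g hg => ?_
    have hne : g.1 ≠ g₀ := fun e => (Finset.mem_erase.1 hg).1 (Subtype.ext e)
    refine ((ph_well (Z := fun q => (Gin g.1 q).2) hη hψ (diff_Gin g.1).snd
      (h g.1 g.2 hne)).add (p2 g)).congr (Eventually.of_forall fun q => ?_)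
    simp only [psiT]
    ring
  refine (((p2 ⟨g₀, h₀⟩).add (p3.add p1)).mul c).congr ?_
  filter_upwards [hO.mem_nhds hpO] with q hq
  have s1 : Summable fun g : {g : Wd N // g ∉ s} => Hf_PHs (Gin g.1.1 q).2 :=
    Summable.of_norm_bounded hu fun g => hb g q hq
  have e1 : ∀ g : {g : Wd N // g ∉ s}, psiT ψ (Gin g.1.1 q).2 = (Hf_PHs (Gin g.1.1 q).2).re :=
    fun g => far_PHs hη1 hψ (im_PHs (hw g.1) hd (hsm g) hq).1
  have s2 : Summable fun g : {g : Wd N // g ∉ s} => psiT ψ (Gin g.1.1 q).2 := by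
    simp only [e1]
    exact (hasSum_re s1.hasSum).summable
  have s3 : Summable fun g : Wd N => psiT ψ (Gin g.1 q).2 :=
    (s.summable_compl_iff (f := fun g : Wd N => psiT ψ (Gin g.1 q).2)).1 s2
  rw [phi0, ← s3.sum_add_tsum_subtype_compl s, re_tsum s1, hs,
    Finset.sum_insert (Finset.notMem_erase _ _)]
  simp only [← hs, e1]
  simp only [psiT]
  ring

theorem good_phi0 (hη : 0 < η) (hη1 : η ≤ 1 / 1000) (hδ : δ ≤ η ^ 2 / 128) (hN : IsNet δ N)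
    (hψ : IsWell η ψ) : Good η c ψ (phi0 c ψ N) := by
  intro p hp
  obtain ⟨g₀, h₀, h⟩ := ping_one hη hη1 hδ hN hp
  have hw : ∀ a ∈ g₀, ‖a‖ < 1 := fun a ha => hN.hi a (h₀ a ha)
  have hl := ph_local (c := c) hη hη1 hN hψ hp h₀ h
  obtain ⟨z₀, x₀, e⟩ := Gin_eq hw
  rcases le_or_gt ‖(Gin g₀ p).2 - I‖ η with h1 | h1
  · refine Or.inr ⟨z₀, x₀, rad g₀, rad_pos hw, by rwa [← e], ?_⟩
    simpa only [e] using hl
  · refine Or.inl ((hl.add ((ph_well (Z := fun q => (Gin g₀ q).2) hη hψ (diff_Gin g₀).snd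
      (Or.inr h1)).mul c)).congr (Eventually.of_forall fun q => ?_))
    simp

end Vale.Agent.P250
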