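import Vale.Agent.P250.Jac
import Vale.Agent.P250.PHs
import Vale.Agent.P250.DescF

set_option maxSynthPendingDepth 3

namespace Vale.Agent.P250

open scoped ContDiff Topology ComplexConjugate
open Complex Set Filter Vale.Agent.P255

theorem noEmb_dl (g : List ℂ) (z : ℂ) : dl (Gam g (z, I)) = rad g ^ 2 * (1 - ‖z‖ ^ 2) := by
  rw [dl_Gam]; simp [dl]

theorem noEmb_pos {z : ℂ} (hz : ‖z‖ < 1) : 0 < 1 - ‖z‖ ^ 2 := by
  nlinarith [norm_nonneg z]

theorem no_emb {δ : ℝ} {ψ : ℂ → ℝ} {N : Set ℂ} (hδ : 0 < δ) (hδ1 : δ ≤ ETA ^ 2 / 128)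
    (hN : IsNet δ N) (hψ : IsWell ETA ψ)
    (hM : IsOpen (MM fun p => tt p + phi0 (100 - 20 * Real.log δ) ψ N p)) :
    ¬BiholToBounded (MM fun p => tt p + phi0 (100 - 20 * Real.log δ) ψ N p) := by
  intro hb
  obtain ⟨J, hJ, hJ0, C, hC⟩ := jac hM hb
  obtain ⟨e0, -, -, e1⟩ := eta_facts
  have e2 : ETA ≤ 1 / 1000 := e1.trans (by norm_num)
  have d1 : δ ≤ 1 / 10 ^ 7 := by nlinarith
  obtain ⟨c, hc⟩ : ∃ c, c = 100 - 20 * Real.log δ := ⟨_, rfl⟩
  rw [← hc] at hC
  have mem : ∀ g ∈ Wd N, ∀ z : ℂ, ‖z‖ < 1 → Gam g (z, I) ∈ HH := fun g hg z hz => by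
    have := rad_pos (g := g) fun a ha => hN.hi a (hg a ha)
    have := noEmb_pos hz
    show 0 < dl _
    rw [noEmb_dl]; positivity
  refine descent hδ d1 hN hψ (u := fun g z => tt (Gam g (z, I)) + phi0 c ψ N (Gam g (z, I))
    + 4 * tt (Gam g (z, I)) + C - Real.log (‖J (Gam g (z, I))‖ ^ 2)) (fun g hg => ⟨?_, ?_⟩) ?_
  · intro z hz
    have := hC _ (mem g hg z hz) (ping_bdd e0 e2 hδ1 hN hg hz)
    linarith
  · intro z hz a ha hb
    rw [← hc]
    have hg1 : ∀ b ∈ g, ‖b‖ < 1 := fun b hb => hN.hi b (hg b hb)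
    have hga : g ++ [a] ∈ Wd N := fun b hb => by
      rcases List.mem_append.1 hb with h | h
      · exact hg b h
      · rw [List.mem_singleton.1 h]; exact ha
    have h1 := ph_local (c := c) e0 e2 hN hψ (mem g hg z hz) hga (ping_disc e0 e2 hδ1 hN hg hz ha hb)
    have h2 := (PH.log HH_open (mem g hg z hz) hJ (hJ0 _ (mem g hg z hz))).mul (-1)
    have h3 := (h1.add h2).add (PH.const (C - 5 * Real.log (rad g ^ 2)) _)
    have hΓ : Differentiable ℂ fun y : ℂ => Gam g (y, I) :=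
      (diff_Gam g).comp (differentiable_id.prodMk (differentiable_const I))
    have h4 := PH.harm (Γ := fun y : ℂ => Gam g (y, I)) hΓ h3
    refine (InnerProductSpace.harmonicAt_congr_nhds ?_).1 h4
    have hr := rad_pos hg1
    filter_upwards [(isOpen_lt continuous_norm continuous_const).mem_nhds hz] with y hy
    have hy' := noEmb_pos hy
    have e : (Gin (g ++ [a]) (Gam g (y, I))).2 - I = kap a * (y - a) := by
      rw [Gin_append, Gin_Gam hg1, ← ainv_disc (hN.hi a ha)]; rfl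
    rw [e, tt, noEmb_dl, Real.log_mul (by positivity) hy'.ne']
    ring
  · intro g hg a ha
    have e : Gam (g ++ [a]) (0, I) = Gam g (a, I) := by
      rw [Gam_append, ← aff_net (hN.hi a ha)]; rfl
    simp only [e]

end Vale.Agent.P250
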