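import Vale.Agent.P250.Base

set_option maxSynthPendingDepth 3

namespace Vale.Agent.P250

open scoped ContDiff Topology ComplexConjugate
open Complex Set Filter Vale.Agent.P255

variable {φ : B2 → ℝ}

/-- rescaling of the fibre -/
noncomputable def TopT (φ : B2 → ℝ) (t : ℝ) (x : C3) : C3 := (x.1, x.2 * Real.exp (t * φ x.1))

theorem Top_cont (hφ : ContinuousOn φ HH) : ContinuousOn (fun x : C3 => φ x.1) {x | x.1 ∈ HH} :=
  hφ.comp continuousOn_fst fun _ h => h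

theorem TopT_cont (hφ : ContinuousOn φ HH) (t : ℝ) : ContinuousOn (TopT φ t) {x | x.1 ∈ HH} :=
  continuousOn_fst.prodMk (continuousOn_snd.mul (continuous_ofReal.comp_continuousOn
    ((continuousOn_const.mul (Top_cont hφ)).rexp)))

theorem TopT_inv (s t : ℝ) (h : s + t = 0) (x : C3) : TopT φ s (TopT φ t x) = x := by
  refine Prod.ext rfl ?_
  simp only [TopT]
  rw [mul_assoc, ← ofReal_mul, ← Real.exp_add, ← add_mul, add_comm, h]; simp

theorem TopT_norm (x : C3) : ‖(TopT φ (1 / 2) x).2‖ ^ 2 = ‖x.2‖ ^ 2 * Real.exp (φ x.1) := by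
  simp only [TopT]
  rw [norm_mul, mul_pow, norm_real, Real.norm_eq_abs, sq_abs, ← Real.exp_nat_mul]
  congr 2; push_cast; ring

theorem TopT_norm' (x : C3) :
    ‖(TopT φ (-(1 / 2)) x).2‖ ^ 2 * Real.exp (φ (TopT φ (-(1 / 2)) x).1) = ‖x.2‖ ^ 2 := by
  rw [← TopT_norm, TopT_inv _ _ (by ring)]

theorem Top_im {p : B2} (hp : p ∈ HH) : p.2.im + 1 ≤ ‖p.2 + I‖ ∧ 0 < p.2.im :=
  ⟨by simpa using im_le_norm (p.2 + I), lt_of_lt_of_le hp (dl_le_im p)⟩

theorem Top_ne {p : B2} (hp : p ∈ HH) : ‖p.2 + I‖ ^ 2 ≠ 0 := by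
  have := Top_im hp
  exact pow_ne_zero _ (by linarith)

theorem Top_dl : Continuous dl := by unfold dl; fun_prop

theorem Top_log (hφ : ContDiffOn ℝ ∞ φ HH) :
    ContDiffOn ℝ ∞ (fun x : C3 => Real.log (1 - ‖x.2‖ ^ 2 * Real.exp (φ x.1))) (MM φ) :=
  (contDiffOn_const.sub ((((contDiff_norm_sq ℝ).comp contDiff_snd).contDiffOn).mul
    (hφ.comp contDiffOn_fst fun _ h => h.1).exp)).log fun _ h => (sub_pos.2 h.2).ne'
theorem mm_open (hφ : ContinuousOn φ HH) : IsOpen (MM φ) := ((continuousOn_snd.norm.pow 2).mul (Top_cont hφ).rexp).isOpen_inter_preimage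
    (HH_open.preimage continuous_fst) isOpen_Iio

theorem mm_sc (hφ : ContinuousOn φ HH) : SimplyConnectedSpace (MM φ) := by
  have hc : Convex ℝ (HH ×ˢ Metric.ball (0 : ℂ) 1) := HH_convex.prod (convex_ball _ _)
  have := hc.contractibleSpace ⟨((0, I), 0), by simp [HH, dl], by simp⟩
  let e : MM φ ≃ₜ (HH ×ˢ Metric.ball (0 : ℂ) 1 : Set C3) :=
    { toFun := fun x => ⟨TopT φ (1 / 2) x, x.2.1, mem_ball_zero_iff.2
        ((sq_lt_one_iff₀ (norm_nonneg _)).1 ((TopT_norm _).trans_lt x.2.2))⟩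
      invFun := fun x => ⟨TopT φ (-(1 / 2)) x, x.2.1, (TopT_norm' _).trans_lt
        ((sq_lt_one_iff₀ (norm_nonneg _)).2 (mem_ball_zero_iff.1 x.2.2))⟩
      left_inv := fun x => Subtype.ext (TopT_inv _ _ (by ring) _)
      right_inv := fun x => Subtype.ext (TopT_inv _ _ (by ring) _)
      continuous_toFun := ((TopT_cont hφ _).mono fun _ h => h.1).domRestrict.subtype_mk _
      continuous_invFun := ((TopT_cont hφ _).mono fun _ h => h.1).domRestrict.subtype_mk _ }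
  have := e.contractibleSpace
  infer_instance

theorem pot_smooth (hφ : ContDiffOn ℝ ∞ φ HH) (A : ℝ) : ContDiffOn ℝ ∞ (Pot A φ) (MM φ) := (contDiffOn_const.mul (tt_smooth.comp contDiffOn_fst fun _ h => h.1)).sub (Top_log hφ)

theorem exh_smooth (hφ : ContDiffOn ℝ ∞ φ HH) : ContDiffOn ℝ 1 (Exh φ) (MM φ) := (((tt_smooth.comp contDiffOn_fst fun _ h => h.1).add (((contDiff_norm_sq ℝ).comp
    (by fun_prop : ContDiff ℝ ∞ fun x : C3 => x.1.2 + I)).contDiffOn.log
      fun _ h => Top_ne h.1)).sub (Top_log hφ)).of_le (by norm_cast)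

theorem exh_compact (hφ : ContinuousOn φ HH) (c : ℝ) :
    IsCompact {x | x ∈ MM φ ∧ Exh φ x ≤ c} := by
  let K0 : Set B2 := {p | Real.exp (-c) ≤ dl p ∧ ‖p.2 + I‖ ≤ Real.exp c}
  have h0 : K0 ⊆ HH := fun p hp => (Real.exp_pos _).trans_le hp.1
  have hK0 : IsCompact K0 := by
    refine Metric.isCompact_of_isClosed_isBounded ((isClosed_le continuous_const Top_dl).inter
      (isClosed_le (by fun_prop : Continuous fun p : B2 => ‖p.2 + I‖) continuous_const))
      (isBounded_iff_forall_norm_le.2 ⟨Real.exp c + 1, fun p hp => norm_prod_le_iff.2 ⟨?_, ?_⟩⟩)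
    · have h1 : 0 < p.2.im - ‖p.1‖ ^ 2 := h0 hp
      nlinarith [Top_im (h0 hp), hp.2, sq_nonneg (‖p.1‖ - 1)]
    · have := norm_sub_le (p.2 + I) I
      simp only [add_sub_cancel_right, norm_I] at this
      linarith [hp.2]
  let B : Set ℂ := {w | ‖w‖ ^ 2 ≤ 1 - Real.exp (-c)}
  have hB : IsCompact B := Metric.isCompact_of_isClosed_isBounded
    (isClosed_le (by fun_prop) continuous_const) (isBounded_iff_forall_norm_le.2 ⟨1, fun w hw =>
      (sq_le_one_iff₀ (norm_nonneg _)).1 (le_trans hw (by linarith [Real.exp_pos (-c)]))⟩)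
  have hK := (hK0.prod hB).image_of_continuousOn
    ((TopT_cont hφ (-(1 / 2))).mono fun _ h => h0 h.1)
  have hKM : TopT φ (-(1 / 2)) '' (K0 ×ˢ B) ⊆ MM φ := by
    rintro _ ⟨x, hx, rfl⟩
    exact ⟨h0 hx.1, (TopT_norm' _).trans_lt
      (lt_of_le_of_lt hx.2 (by linarith [Real.exp_pos (-c)]))⟩
  have hE : ContinuousOn (Exh φ) (MM φ) :=
    ((tt_smooth.continuousOn.comp continuousOn_fst fun _ h => h.1).add
      ((by fun_prop : Continuous fun x : C3 => ‖x.1.2 + I‖ ^ 2).continuousOn.log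
        fun _ h => Top_ne h.1)).sub ((continuousOn_const.sub ((continuousOn_snd.norm.pow 2).mul
          ((Top_cont hφ).mono fun _ h => h.1).rexp)).log fun _ h => (sub_pos.2 h.2).ne')
  convert hK.of_isClosed_subset ((hE.mono hKM).preimage_isClosed_of_isClosed hK.isClosed
    (isClosed_Iic (a := c))) inter_subset_left
  refine Subset.antisymm (fun x ⟨hx, he⟩ => ⟨⟨TopT φ (1 / 2) x, ?_, TopT_inv _ _ (by ring) _⟩, he⟩)
    fun x hx => ⟨hKM hx.1, hx.2⟩
  obtain ⟨i1, i2⟩ := Top_im hx.1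
  have d1 : 0 < dl x.1 := hx.1
  have d2 := dl_le_im x.1
  have s1 := sub_pos.2 hx.2
  have l1 : Real.log (1 - ‖x.2‖ ^ 2 * Real.exp (φ x.1)) ≤ 0 :=
    Real.log_nonpos s1.le (sub_le_self _ (by positivity))
  have l2 : Real.log (dl x.1) ≤ Real.log ‖x.1.2 + I‖ := Real.log_le_log d1 (by linarith)
  have l3 : 0 ≤ Real.log ‖x.1.2 + I‖ := Real.log_nonneg (by linarith)
  simp only [Exh, tt, Real.log_pow, Nat.cast_ofNat] at he
  refine ⟨⟨(Real.le_log_iff_exp_le d1).1 ?_, (Real.log_le_iff_le_exp (by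
    change 0 < ‖x.1.2 + I‖; linarith)).1 ?_⟩, (TopT_norm x).trans_le ?_⟩
  · linarith
  · change Real.log ‖x.1.2 + I‖ ≤ c
    linarith
  · linarith [(Real.le_log_iff_exp_le (x := -c) s1).1 (by linarith)]

end Vale.Agent.P250
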