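import Vale.Agent.P250.Curv
import Vale.Agent.P250.Top

set_option maxSynthPendingDepth 3

namespace Vale.Agent.P250

open scoped ContDiff Topology ComplexConjugate
open Complex Set Filter Vale.Agent.P255

theorem pinched_of {φ : B2 → ℝ} {g : Met} {a b : ℝ} (hM : IsOpen (MM φ))
    (hK : IsKahlerOn (MM φ) g) (ha : 0 < a) (hab : a ≤ b)
    (h : ∀ x ∈ MM φ, x.2 ≠ 0 → ∀ X Y, -b * (g x X X * g x Y Y - g x X Y ^ 2) ≤ num g x X Y ∧
      num g x X Y ≤ -a * (g x X X * g x Y Y - g x X Y ^ 2)) : Pinched (MM φ) g := by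
  refine ⟨a, b, ha, hab, fun x hx X Y hXY => ?_⟩
  have hY : Y ≠ 0 := hXY.ne_zero 1
  have hYY := hK.pos x hx Y hY
  have hpos : 0 < g x X X * g x Y Y - g x X Y ^ 2 := by
    have h1 := hK.pos x hx (g x Y Y • X + (-g x X Y) • Y) fun e =>
      hYY.ne' (LinearIndependent.pair_iff.1 hXY _ _ e).1
    simp only [map_add, map_smul, add_apply, smul_apply,
      smul_eq_mul, hK.symm x hx Y X] at h1
    exact (mul_pos_iff_of_pos_left hYY).1 (by linarith)
  rw [sec, le_div_iff₀ hpos, div_le_iff₀ hpos]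
  by_cases hw : x.2 = 0
  swap
  · exact h x hx hw X Y
  have hg : ContinuousAt g x := hK.smooth.continuousOn.continuousAt (hM.mem_nhds hx)
  have hn := num_cont hM hx hK.smooth hK.symm (hK.pos x hx) X Y
  have ht : Tendsto (fun w : ℂ => ((x.1, w) : C3)) (𝓝[≠] 0) (𝓝 x) :=
    ((by fun_prop : Continuous fun w : ℂ => ((x.1, w) : C3)).tendsto' 0 x
      (Prod.ext rfl hw.symm)).mono_left nhdsWithin_le_nhds
  have hb : ∀ v w, ContinuousAt (fun y => g y v w) x := fun v w =>
    (hg.clm_apply continuousAt_const).clm_apply continuousAt_const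
  have ha : ∀ t : ℝ, ContinuousAt (fun y => t * (g y X X * g y Y Y - g y X Y ^ 2)) x :=
    fun t => continuousAt_const.mul (((hb _ _).mul (hb _ _)).sub ((hb _ _).pow 2))
  have he := (ht.eventually (hM.mem_nhds hx)).and self_mem_nhdsWithin
  exact ⟨le_of_tendsto_of_tendsto ((ha _).tendsto.comp ht) (hn.tendsto.comp ht)
    (he.mono fun w hw => (h _ hw.1 hw.2 X Y).1), le_of_tendsto_of_tendsto (hn.tendsto.comp ht)
    ((ha _).tendsto.comp ht) (he.mono fun w hw => (h _ hw.1 hw.2 X Y).2)⟩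

end Vale.Agent.P250
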