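import Vale.Agent.P250.Top

set_option maxSynthPendingDepth 3

namespace Vale.Agent.P250

open scoped ContDiff Topology ComplexConjugate
open Complex Set Filter Vale.Agent.P255

theorem Pos_two : (2 : WithTop ℕ∞) ≤ ∞ := WithTop.coe_le_coe.2 (le_top : (2 : ℕ∞) ≤ ⊤)

section PosAux

variable {E : Type} [NormedAddCommGroup E] [NormedSpace ℝ E] [NormedSpace ℂ E]
  [IsScalarTower ℝ ℂ E] {f g : E → ℝ} {x : E}

theorem Pos_sq (hf : ContDiffAt ℝ 2 f x) (a : E) :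
    levi (fun z => f z ^ 2) x a a = 2 * f x * levi f x a a
      + 2 * (fderiv ℝ f x a ^ 2 + fderiv ℝ f x (I • a) ^ 2) := by
  have h := levi_comp (F := fun t : ℝ => t ^ 2) (f := f) (x := x) (by fun_prop) hf a
  have e1 : deriv (fun t : ℝ => t ^ 2) = fun t => 2 * t := by
    funext t
    simp
  have e2 : iteratedDeriv 2 (fun t : ℝ => t ^ 2) (f x) = 2 := by
    rw [iteratedDeriv_succ, iteratedDeriv_one, e1]
    simp
  rw [h, e2, iteratedDeriv_one, e1]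

theorem Pos_prod (hf : ContDiffAt ℝ 2 f x) (hg : ContDiffAt ℝ 2 g x) (a : E) :
    levi (fun z => f z * g z) x a a = f x * levi g x a a + g x * levi f x a a
      + 2 * (fderiv ℝ f x a * fderiv ℝ g x a + fderiv ℝ f x (I • a) * fderiv ℝ g x (I • a)) := by
  have hfg : ContDiffAt ℝ 2 (fun z => f z + g z) x := hf.add hg
  have e : (fun z => f z * g z) = fun z => (1 / 2 : ℝ) * (f z + g z) ^ 2
      + ((-1 / 2 : ℝ) * f z ^ 2 + (-1 / 2 : ℝ) * g z ^ 2) := by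
    funext z
    ring
  have d : fderiv ℝ (fun z => f z + g z) x = fderiv ℝ f x + fderiv ℝ g x :=
    fderiv_fun_add (hf.differentiableAt (by norm_num)) (hg.differentiableAt (by norm_num))
  rw [e, levi_add (contDiffAt_const.mul (hfg.pow 2))
    ((contDiffAt_const.mul (hf.pow 2)).add (contDiffAt_const.mul (hg.pow 2))),
    levi_add (contDiffAt_const.mul (hf.pow 2)) (contDiffAt_const.mul (hg.pow 2)),
    levi_mul (hfg.pow 2), levi_mul (hf.pow 2), levi_mul (hg.pow 2)]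
  simp only [ContinuousLinearMap.add_apply, ContinuousLinearMap.smul_apply, smul_eq_mul]
  rw [Pos_sq hfg, Pos_sq hf, Pos_sq hg, levi_add hf hg, d]
  simp only [ContinuousLinearMap.add_apply]
  ring

theorem Pos_exp (hf : ContDiffAt ℝ 2 f x) (a : E) :
    levi (fun z => Real.exp (f z)) x a a = Real.exp (f x) * (levi f x a a
      + (fderiv ℝ f x a ^ 2 + fderiv ℝ f x (I • a) ^ 2)) := by
  have h := levi_comp (F := Real.exp) (f := f) (x := x) Real.contDiff_exp.contDiffAt hf a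
  have e2 : iteratedDeriv 2 Real.exp (f x) = Real.exp (f x) := by
    rw [iteratedDeriv_succ, iteratedDeriv_one, Real.deriv_exp, Real.deriv_exp]
  rw [h, e2, iteratedDeriv_one, Real.deriv_exp]
  ring

theorem Pos_hd {t : ℝ} (ht : t < 1) :
    HasDerivAt (fun t : ℝ => -Real.log (1 - t)) (1 - t)⁻¹ t := by
  have h := (((hasDerivAt_id' t).const_sub 1).log (by linarith)).fun_neg
  refine h.congr_deriv ?_
  rw [neg_div, neg_neg, one_div]

theorem Pos_nlog (hf : ContDiffAt ℝ 2 f x) (h1 : f x < 1) (a : E) :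
    levi (fun z => -Real.log (1 - f z)) x a a = (1 - f x)⁻¹ * levi f x a a
      + ((1 - f x)⁻¹) ^ 2 * (fderiv ℝ f x a ^ 2 + fderiv ℝ f x (I • a) ^ 2) := by
  have hne : 1 - f x ≠ 0 := by linarith
  have hF : ContDiffAt ℝ 2 (fun t : ℝ => -Real.log (1 - t)) (f x) :=
    ((contDiffAt_const.sub contDiffAt_id).log hne).neg
  have h := levi_comp (F := fun t : ℝ => -Real.log (1 - t)) (f := f) (x := x) hF hf a
  have e1 : deriv (fun t : ℝ => -Real.log (1 - t)) =ᶠ[𝓝 (f x)] fun t => (1 - t)⁻¹ := by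
    filter_upwards [Iio_mem_nhds h1] with t ht
    exact (Pos_hd ht).deriv
  have e2 : iteratedDeriv 2 (fun t : ℝ => -Real.log (1 - t)) (f x) = ((1 - f x)⁻¹) ^ 2 := by
    rw [iteratedDeriv_succ, iteratedDeriv_one, e1.deriv_eq]
    have := ((hasDerivAt_id' (f x)).const_sub 1).fun_inv hne
    rw [this.deriv, neg_neg, one_div, inv_pow]
  rw [h, e2, iteratedDeriv_one, (Pos_hd h1).deriv]

end PosAux

/-- the squared norm of the fibre coordinate as a quadratic form -/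
noncomputable def Pos_B : C3 →L[ℝ] C3 →L[ℝ] ℝ :=
  (innerSL ℝ (E := ℂ)).bilinearComp (ContinuousLinearMap.snd ℝ B2 ℂ)
    (ContinuousLinearMap.snd ℝ B2 ℂ)

theorem Pos_B_apply (a b : C3) : Pos_B a b = a.2.re * b.2.re + a.2.im * b.2.im := by
  simp [Pos_B, ContinuousLinearMap.bilinearComp_apply, Complex.inner]
  ring

theorem Pos_n_eq : (fun x : C3 => ‖x.2‖ ^ 2) = fun y => 0 + (0 : C3 →L[ℝ] ℝ) y + Pos_B y y := by
  funext y
  rw [Pos_B_apply, Complex.sq_norm, Complex.normSq_apply]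
  simp

theorem Pos_n_smooth (x : C3) : ContDiffAt ℝ 2 (fun x : C3 => ‖x.2‖ ^ 2) x :=
  (contDiff_norm_sq ℝ (E := ℂ)).contDiffAt.comp x contDiffAt_snd

theorem Pos_n_fderiv (x a : C3) :
    fderiv ℝ (fun x : C3 => ‖x.2‖ ^ 2) x a = 2 * (a.2.re * x.2.re + a.2.im * x.2.im) := by
  rw [Pos_n_eq, (D_poly 0 0 Pos_B x).1 a, Pos_B_apply, Pos_B_apply]
  simp
  ring

theorem Pos_n_levi (x a : C3) :
    levi (fun x : C3 => ‖x.2‖ ^ 2) x a a = 4 * (a.2.re ^ 2 + a.2.im ^ 2) := by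
  rw [levi_apply, Pos_n_eq, (D_poly 0 0 Pos_B x).2.1, (D_poly 0 0 Pos_B x).2.1]
  simp only [Pos_B_apply, Prod.smul_snd, smul_eq_mul, mul_re, mul_im, I_re, I_im]
  ring

theorem Pos_fst_levi {f : B2 → ℝ} {x : C3} (hf : ContDiffAt ℝ 2 f x.1) (a b : C3) :
    levi (fun z : C3 => f z.1) x a b = levi f x.1 a.1 b.1 := by
  have h := levi_hol (f := f) (Ψ := (Prod.fst : C3 → B2)) (y := x) contDiffAt_fst hf a b
  rw [h, fderiv_fst]
  rfl

theorem Pos_fst_fderiv {f : B2 → ℝ} {x : C3} (hf : DifferentiableAt ℝ f x.1) (a : C3) :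
    fderiv ℝ (fun z : C3 => f z.1) x a = fderiv ℝ f x.1 a.1 := by
  have h : HasFDerivAt (fun z : C3 => f z.1)
      ((fderiv ℝ f x.1).comp (ContinuousLinearMap.fst ℝ B2 ℂ)) x :=
    hf.hasFDerivAt.comp x hasFDerivAt_fst
  rw [h.fderiv]
  rfl

variable {φ : B2 → ℝ} {A : ℝ}

theorem Pos_S_smooth {x : C3} (hφ : ContDiffAt ℝ 2 φ x.1) :
    ContDiffAt ℝ 2 (fun x : C3 => ‖x.2‖ ^ 2 * Real.exp (φ x.1)) x :=
  (Pos_n_smooth x).mul ((hφ.comp x contDiffAt_fst).exp)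

theorem Pos_S_levi {x : C3} (hφ : ContDiffAt ℝ 2 φ x.1) (a : C3) :
    levi (fun x : C3 => ‖x.2‖ ^ 2 * Real.exp (φ x.1)) x a a = Real.exp (φ x.1) *
      (‖x.2‖ ^ 2 * levi φ x.1 a.1 a.1
        + (2 * a.2.re + x.2.re * fderiv ℝ φ x.1 a.1 + x.2.im * fderiv ℝ φ x.1 (I • a.1)) ^ 2
        + (2 * a.2.im + x.2.im * fderiv ℝ φ x.1 a.1 - x.2.re * fderiv ℝ φ x.1 (I • a.1)) ^ 2) := by
  have h1 : ContDiffAt ℝ 2 (fun z : C3 => φ z.1) x := hφ.comp x contDiffAt_fst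
  have hd : DifferentiableAt ℝ φ x.1 := hφ.differentiableAt (by norm_num)
  have hd1 : DifferentiableAt ℝ (fun z : C3 => φ z.1) x := h1.differentiableAt (by norm_num)
  have de : ∀ b : C3, fderiv ℝ (fun z : C3 => Real.exp (φ z.1)) x b
      = Real.exp (φ x.1) * fderiv ℝ φ x.1 b.1 := by
    intro b
    rw [hd1.hasFDerivAt.exp.fderiv, ContinuousLinearMap.smul_apply, Pos_fst_fderiv hd, smul_eq_mul]
  rw [Pos_prod (Pos_n_smooth x) h1.exp, Pos_exp h1, Pos_n_levi, Pos_fst_levi hφ, de, de,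
    Pos_n_fderiv, Pos_n_fderiv, Pos_fst_fderiv hd, Pos_fst_fderiv hd, Complex.sq_norm,
    Complex.normSq_apply]
  simp only [Prod.smul_snd, Prod.smul_fst, smul_eq_mul, mul_re, mul_im, I_re, I_im]
  ring

theorem Pos_pot_levi (hφ : ContDiffOn ℝ ∞ φ HH) {x : C3} (hx : x ∈ MM φ) (v : C3) :
    levi (Pot A φ) x v v = A * levi tt x.1 v.1 v.1
      + ((1 - ‖x.2‖ ^ 2 * Real.exp (φ x.1))⁻¹
          * levi (fun x : C3 => ‖x.2‖ ^ 2 * Real.exp (φ x.1)) x v v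
        + ((1 - ‖x.2‖ ^ 2 * Real.exp (φ x.1))⁻¹) ^ 2
          * (fderiv ℝ (fun x : C3 => ‖x.2‖ ^ 2 * Real.exp (φ x.1)) x v ^ 2
            + fderiv ℝ (fun x : C3 => ‖x.2‖ ^ 2 * Real.exp (φ x.1)) x (I • v) ^ 2)) := by
  have hφ2 : ContDiffAt ℝ 2 φ x.1 :=
    (hφ.contDiffAt (HH_open.mem_nhds hx.1)).of_le Pos_two
  have ht2 : ContDiffAt ℝ 2 tt x.1 :=
    (tt_smooth.contDiffAt (HH_open.mem_nhds hx.1)).of_le Pos_two
  have ht1 : ContDiffAt ℝ 2 (fun z : C3 => tt z.1) x := ht2.comp x contDiffAt_fst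
  have hS := Pos_S_smooth hφ2
  have hne : 1 - ‖x.2‖ ^ 2 * Real.exp (φ x.1) ≠ 0 := by linarith [hx.2]
  have hL : ContDiffAt ℝ 2 (fun z : C3 => -Real.log (1 - ‖z.2‖ ^ 2 * Real.exp (φ z.1))) x :=
    ((contDiffAt_const.sub hS).log hne).neg
  have e : Pot A φ = fun z : C3 => A * tt z.1
      + -Real.log (1 - ‖z.2‖ ^ 2 * Real.exp (φ z.1)) := by
    funext z
    simp only [Pot]
    ring
  rw [e, levi_add (contDiffAt_const.mul ht1) hL, levi_mul ht1]
  simp only [ContinuousLinearMap.add_apply, ContinuousLinearMap.smul_apply, smul_eq_mul]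
  rw [Pos_fst_levi ht2, Pos_nlog hS hx.2]

theorem Pos_tt_nonneg {p : B2} (hp : p ∈ HH) (v : B2) : 0 ≤ levi tt p v v := by
  by_cases hv : v = 0
  · simp [hv]
  · exact (tt_pos hp hv).le

theorem pot_pos (hφ : ContDiffOn ℝ ∞ φ HH) (hl : ∀ p ∈ HH, ∀ v, 0 ≤ levi φ p v v) (hA : 1 ≤ A)
    {x : C3} (hx : x ∈ MM φ) {v : C3} (hv : v ≠ 0) : 0 < levi (Pot A φ) x v v := by
  have hφ2 : ContDiffAt ℝ 2 φ x.1 :=
    (hφ.contDiffAt (HH_open.mem_nhds hx.1)).of_le Pos_two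
  have hq : 0 < (1 - ‖x.2‖ ^ 2 * Real.exp (φ x.1))⁻¹ := inv_pos.2 (by linarith [hx.2])
  have hl1 := hl _ hx.1 v.1
  rw [Pos_pot_levi hφ hx]
  by_cases h1 : v.1 = 0
  · have h2 : v.2 ≠ 0 := fun h2 => hv (Prod.ext h1 h2)
    have hS : 0 < levi (fun x : C3 => ‖x.2‖ ^ 2 * Real.exp (φ x.1)) x v v := by
      rw [Pos_S_levi hφ2, h1]
      have h3 : 0 < v.2.re ^ 2 + v.2.im ^ 2 := by
        have := Complex.normSq_pos.2 h2
        rw [Complex.normSq_apply] at this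
        nlinarith
      refine mul_pos (Real.exp_pos _) ?_
      simp only [map_zero, smul_zero, mul_zero, add_zero, sub_zero, zero_add]
      nlinarith
    have ht := Pos_tt_nonneg hx.1 v.1
    have := mul_pos hq hS
    positivity
  · have hS : 0 ≤ levi (fun x : C3 => ‖x.2‖ ^ 2 * Real.exp (φ x.1)) x v v := by
      rw [Pos_S_levi hφ2]
      positivity
    have ht := tt_pos hx.1 h1
    have hA0 : 0 < A := by linarith
    positivity

theorem exh_grad (hφ : ContDiffOn ℝ ∞ φ HH) (hl : ∀ p ∈ HH, ∀ v, 0 ≤ levi φ p v v) (hA : 1 ≤ A)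
    {x : C3} (hx : x ∈ MM φ) (v : C3) :
    fderiv ℝ (Exh φ) x v ^ 2 ≤ 400 * levi (Pot A φ) x v v := by
  have hφ2 : ContDiffAt ℝ 2 φ x.1 :=
    (hφ.contDiffAt (HH_open.mem_nhds hx.1)).of_le Pos_two
  have ht2 : ContDiffAt ℝ 2 tt x.1 :=
    (tt_smooth.contDiffAt (HH_open.mem_nhds hx.1)).of_le Pos_two
  have htd : DifferentiableAt ℝ tt x.1 := ht2.differentiableAt (by norm_num)
  have hS := (Pos_S_smooth hφ2).differentiableAt (by norm_num)
  have hq : 0 < (1 - ‖x.2‖ ^ 2 * Real.exp (φ x.1))⁻¹ := inv_pos.2 (by linarith [hx.2])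
  have hne : 1 - ‖x.2‖ ^ 2 * Real.exp (φ x.1) ≠ 0 := by linarith [hx.2]
  have hl1 := hl _ hx.1 v.1
  have hz : x.1.2 + I ≠ 0 := by
    intro h0
    have h1 : (x.1.2 + I).im = 0 := by rw [h0]; simp
    have h2 := dl_le_im x.1
    have h3 : 0 < dl x.1 := hx.1
    simp at h1
    linarith
  have hlg : DifferentiableAt ℝ (fun q : B2 => Real.log (‖q.2 + I‖ ^ 2)) x.1 := by
    refine DifferentiableAt.log ?_ (pow_ne_zero 2 (norm_ne_zero_iff.2 hz))
    exact ((contDiff_norm_sq ℝ (E := ℂ) (n := 1)).differentiable (by norm_num)).differentiableAt.comp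
      x.1 (f := fun q : B2 => q.2 + I) (by fun_prop)
  have a1 : HasFDerivAt (fun z : C3 => tt z.1) (fderiv ℝ (fun z : C3 => tt z.1) x) x :=
    (htd.comp x differentiableAt_fst).hasFDerivAt
  have a2 : HasFDerivAt (fun z : C3 => Real.log (‖z.1.2 + I‖ ^ 2))
      (fderiv ℝ (fun z : C3 => Real.log (‖z.1.2 + I‖ ^ 2)) x) x :=
    (hlg.comp x differentiableAt_fst).hasFDerivAt
  have a3 := (Pos_hd hx.2).comp_hasFDerivAt x hS.hasFDerivAt
  have a4 := (a1.add a2).add a3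
  have e : Exh φ = (fun z : C3 => tt z.1) + (fun z : C3 => Real.log (‖z.1.2 + I‖ ^ 2))
      + (fun t : ℝ => -Real.log (1 - t)) ∘ fun x : C3 => ‖x.2‖ ^ 2 * Real.exp (φ x.1) := by
    funext z
    simp only [Exh, Pi.add_apply, Function.comp]
    ring
  rw [e, a4.fderiv, Pos_pot_levi hφ hx]
  simp only [ContinuousLinearMap.add_apply, ContinuousLinearMap.smul_apply, smul_eq_mul]
  rw [Pos_fst_fderiv htd, Pos_fst_fderiv (f := fun q : B2 => Real.log (‖q.2 + I‖ ^ 2)) hlg]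
  have b1 := tt_grad hx.1 v.1
  have b2 := lg_grad hx.1 v.1
  have b3 : 0 ≤ levi (fun x : C3 => ‖x.2‖ ^ 2 * Real.exp (φ x.1)) x v v := by
    rw [Pos_S_levi hφ2]
    positivity
  have ht := Pos_tt_nonneg hx.1 v.1
  have b4 := mul_nonneg hq.le b3
  have b5 : levi tt x.1 v.1 v.1 ≤ A * levi tt x.1 v.1 v.1 := by nlinarith
  generalize levi tt x.1 v.1 v.1 = L at *
  generalize fderiv ℝ tt x.1 v.1 = a at *
  generalize fderiv ℝ (fun q : B2 => Real.log (‖q.2 + I‖ ^ 2)) x.1 v.1 = b at *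
  generalize levi (fun x : C3 => ‖x.2‖ ^ 2 * Real.exp (φ x.1)) x v v = G at *
  generalize fderiv ℝ (fun x : C3 => ‖x.2‖ ^ 2 * Real.exp (φ x.1)) x v = c at *
  generalize fderiv ℝ (fun x : C3 => ‖x.2‖ ^ 2 * Real.exp (φ x.1)) x (I • v) = d at *
  generalize (1 - ‖x.2‖ ^ 2 * Real.exp (φ x.1))⁻¹ = q at *
  nlinarith [sq_nonneg (a - b), sq_nonneg (a - q * c), sq_nonneg (b - q * c), sq_nonneg (q * d),
    sq_nonneg (q * c)]

end Vale.Agent.P250
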