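import Vale.Agent.P250.Levi

set_option maxSynthPendingDepth 3

namespace Vale.Agent.P250

open scoped ContDiff Topology ComplexConjugate
open Complex Set Filter Vale.Agent.P255

theorem Well_mu (L : ℝ) : ∃ (F : ℝ → ℝ) (m : ℝ), ContDiff ℝ ∞ F ∧ (∀ x, L ≤ x → F x = x) ∧
    (∀ x, x ≤ L - 1 → F x = m) ∧ L - 1 ≤ m ∧ Monotone F ∧ Monotone (deriv F) := by
  let s : ℝ → ℝ := fun y => Real.smoothTransition (y - L + 1)
  have hs : ContDiff ℝ ∞ s := Real.smoothTransition.contDiff.comp (by fun_prop)
  have hd : ∀ x, HasDerivAt (fun x => L + ∫ y in L..x, s y) (s x) x := fun x =>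
    (hs.continuous.deriv_integral s L x ▸ (hs.continuous.integral_hasStrictDerivAt L
      x).hasDerivAt.differentiableAt.hasDerivAt).const_add L
  have hd' : deriv (fun x => L + ∫ y in L..x, s y) = s := funext fun x => (hd x).deriv
  have hi : ∀ a b, IntervalIntegrable s MeasureTheory.volume a b :=
    hs.continuous.intervalIntegrable
  refine ⟨fun x => L + ∫ y in L..x, s y, L + ∫ y in L..(L - 1), s y,
    contDiff_infty_iff_deriv.2 ⟨fun x => (hd x).differentiableAt, by rwa [hd']⟩, fun x hx => ?_,
    fun x hx => ?_, ?_, monotone_of_deriv_nonneg (fun x => (hd x).differentiableAt) fun x => ?_,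
    by rw [hd']; exact fun x y h => Real.smoothTransition.monotone (by linarith)⟩
  · beta_reduce
    rw [intervalIntegral.integral_congr (g := fun _ => 1) fun y hy =>
      Real.smoothTransition.one_of_one_le (by rw [uIcc_of_le hx] at hy; linarith [hy.1])]
    simp
  · beta_reduce
    rw [← intervalIntegral.integral_add_adjacent_intervals (hi L (L - 1)) (hi (L - 1) x),
      intervalIntegral.integral_congr (a := L - 1) (g := fun _ => 0) fun y hy =>
      Real.smoothTransition.zero_of_nonpos (by rw [uIcc_of_ge hx] at hy; linarith [hy.2])]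
    simp
  · have := intervalIntegral.integral_mono (by linarith : L - 1 ≤ L) (hi _ _)
      (intervalIntegrable_const (c := 1)) fun y => Real.smoothTransition.le_one _
    rw [intervalIntegral.integral_symm]
    simp at this
    linarith
  · rw [hd']; exact Real.smoothTransition.nonneg _
theorem exists_well {η : ℝ} (hη : 0 < η) : ∃ ψ, IsWell η ψ := by
  classical
  obtain ⟨F, m, h1, h2, h3, h4, h5, h6⟩ := Well_mu (Real.log (η ^ 2))
  let f : ℂ → ℝ := fun z => Real.log (‖z‖ ^ 2)
  let ψ : ℂ → ℝ := fun z => if z = 0 then m else F (f z)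
  have hf : ∀ z : ℂ, z ≠ 0 → ContDiffAt ℝ ∞ f z := fun z hz =>
    (contDiff_norm_sq ℝ).contDiffAt.log (by simpa using hz)
  have hmon : ∀ (z : ℂ) (t : ℝ), z ≠ 0 → ‖z‖ ≤ t → f z ≤ Real.log (t ^ 2) := fun z t hz h =>
    Real.log_le_log (by positivity) (by gcongr)
  have flat : ∀ z, ‖z‖ ≤ η / 2 → ψ z = m := fun z hz => by
    by_cases h : z = 0
    · exact if_pos h
    · refine (if_neg h).trans (h3 _ ((hmon z _ h hz).trans ?_))
      rw [div_pow, Real.log_div (by positivity) (by norm_num), Real.log_pow 2 2]
      push_cast; linarith [Real.log_two_gt_d9]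
  have e0 : ψ =ᶠ[𝓝 0] fun _ => m := by
    filter_upwards [Metric.closedBall_mem_nhds (0 : ℂ) (half_pos hη)] with z hz
    exact flat z (by simpa using hz)
  have e1 : ∀ z : ℂ, z ≠ 0 → ψ =ᶠ[𝓝 z] fun y => F (f y) := fun z hz => by
    filter_upwards [isOpen_ne.mem_nhds hz] with y hy using if_neg hy
  have p0 : ψ 0 = m := if_pos rfl
  refine ⟨ψ, contDiff_iff_contDiffAt.2 fun z => ?_, fun z hz => ?_, fun z hz => ?_, p0 ▸ h4,
    fun z => ?_, fun z hz => ?_, fun z v => ?_⟩
  · by_cases hz : z = 0
    · subst hz; exact contDiffAt_const.congr_of_eventuallyEq e0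
    · exact (h1.contDiffAt.comp z (hf z hz)).congr_of_eventuallyEq (e1 z hz)
  · have h : z ≠ 0 := norm_pos_iff.1 (hη.trans_le hz)
    exact (if_neg h).trans (h2 _ (Real.log_le_log (by positivity) (by gcongr)))
  · rw [flat z hz, p0]
  · rw [p0]
    by_cases h : z = 0
    · exact (if_pos h).ge
    · exact ((h3 _ (min_le_left _ _)).ge.trans (h5 (min_le_right _ _))).trans (if_neg h).ge
  · by_cases h : z = 0
    · exact (if_pos h).le.trans (((h3 _ le_rfl).ge.trans (h5 (by linarith))).trans
        (h2 _ le_rfl).le)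
    · exact (if_neg h).le.trans ((h5 (hmon z _ h hz)).trans (h2 _ le_rfl).le)
  · by_cases hz : z = 0
    · subst hz
      have := levi_re (H := fun _ : ℂ => (m : ℂ)) (x := 0) contDiffAt_const
      simp only [ofReal_re] at this
      simp [levi_congr e0, this]
    · have hl : levi f z = 0 := by
        have hs : z / z ∈ slitPlane := by simp [hz]
        rw [← levi_re (H := fun y : ℂ => 2 * (Complex.log (y / z) + Real.log ‖z‖)) (x := z)
          (contDiffAt_const.mul ((ContDiffAt.comp (f := fun y => y / z) z (contDiffAt_log hs)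
            (contDiffAt_id.div_const z)).add contDiffAt_const))]
        refine levi_congr ?_
        filter_upwards [isOpen_ne.mem_nhds hz] with y hy
        simp [f, log_re, Real.log_div (norm_ne_zero_iff.2 hy) (norm_ne_zero_iff.2 hz)]
      rw [levi_congr (e1 z hz), levi_comp (h1.contDiffAt.of_le (by norm_cast))
        ((hf z hz).of_le (by norm_cast)), hl, iteratedDeriv_succ (n := 1), iteratedDeriv_one]
      simpa using mul_nonneg h6.deriv_nonneg (by positivity)

end Vale.Agent.P250
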