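import Vale.Agent.P250.PinA
import Vale.Agent.P250.PinB
import Vale.Agent.P250.Pos
import Vale.Agent.P250.AlgMain
import Vale.Agent.P250.NFa
import Vale.Agent.P250.NFb
import Vale.Agent.P250.NoEmb
import Vale.Agent.P250.Well
import Vale.Agent.P250.Net
import Vale.Agent.P250.Geod

set_option maxSynthPendingDepth 3

namespace Vale.Agent.P250

open scoped ContDiff Topology ComplexConjugate
open Complex Set Filter Vale.Agent.P255

theorem final : ∃ (M : Set C3) (g : Met), IsOpen M ∧ SimplyConnectedSpace M ∧ IsKahlerOn M g ∧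
    GeodComplete M g ∧ Pinched M g ∧ ¬BiholToBounded M := by
  obtain ⟨e0, -, -, e1⟩ := eta_facts
  have e2 : ETA ≤ 1 / 1000 := e1.trans (by norm_num)
  obtain ⟨δ, hδ⟩ : ∃ δ, δ = ETA ^ 2 / 128 := ⟨_, rfl⟩
  have d0 : 0 < δ := by rw [hδ]; positivity
  have d1 : δ ≤ 1 / 10 ^ 7 := by rw [hδ]; nlinarith
  obtain ⟨ψ, hψ⟩ := exists_well e0
  obtain ⟨N, hN⟩ := exists_net d0 d1
  have hc : 0 ≤ 100 - 20 * Real.log δ := by
    have := Real.log_nonpos d0.le (d1.trans (by norm_num))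
    linarith
  have hG := good_phi0 (c := 100 - 20 * Real.log δ) e0 e2 hδ.le hN hψ
  have hs : ContDiffOn ℝ ∞ (fun p => tt p + phi0 (100 - 20 * Real.log δ) ψ N p) HH :=
    tt_smooth.add (good_smooth hψ hG)
  have two : (2 : WithTop ℕ∞) ≤ ∞ := WithTop.coe_le_coe.2 (le_top : (2 : ℕ∞) ≤ ⊤)
  have hl : ∀ p ∈ HH, ∀ v,
      0 ≤ levi (fun p => tt p + phi0 (100 - 20 * Real.log δ) ψ N p) p v v := fun p hp v => by
    rw [levi_add ((tt_smooth.contDiffAt (HH_open.mem_nhds hp)).of_le two)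
      (((good_smooth hψ hG).contDiffAt (HH_open.mem_nhds hp)).of_le two)]
    have h1 := good_psh hc hψ hG hp v
    have h2 := (sq_nonneg _).trans (tt_grad hp v)
    simpa using add_nonneg h2 h1
  obtain ⟨C₀, h0⟩ := nf0 (e2.trans (by norm_num)) hc hψ hG
  obtain ⟨C, hC, h1⟩ := nf_of C₀
  obtain ⟨A, a, b, hA, ha, hab, hal⟩ := alg_main hC
  have hM := mm_open hs.continuousOn
  have hK := kahler_of hM (pot_smooth hs A) fun x hx v hv => pot_pos hs hl hA hx hv
  refine ⟨_, _, hM, mm_sc hs.continuousOn, hK,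
    geod_complete hM hK.smooth hK.symm hK.pos (exh_smooth hs)
      (fun x hx v => exh_grad hs hl hA hx v) (exh_compact hs.continuousOn),
    pinched_of hM hK ha hab fun x hx hw X Y => ?_, no_emb d0 hδ.le hN hψ hM⟩
  obtain ⟨O, θ, h, k, f, hf⟩ := h0 x.1 hx.1
  obtain ⟨O', θ', h', k', f', s₁, s₂, hn⟩ := h1 _ _ _ _ _ _ _ hf
  exact pinch_at hs hA hK hal hx hw hn X Y

end Vale.Agent.P250
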