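import Vale.Agent.P250.PD

set_option maxSynthPendingDepth 3

namespace Vale.Agent.P250

open scoped ContDiff Topology ComplexConjugate
open Complex Set Filter Vale.Agent.P255

open InnerProductSpace Metric

theorem Harn_int {V : ℂ → ℝ} {c w : ℂ} {R : ℝ} (hV : HarmonicOnNhd V (closedBall c R))
    (hw : w ∈ ball c R) :
    CircleIntegrable V c R ∧ CircleIntegrable ((re ∘ herglotzRieszKernel c w) • V) c R := by
  have hR : 0 < R := pos_of_mem_ball hw
  have h1 : ContinuousOn V (sphere c |R|) := by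
    rw [abs_of_pos hR]
    exact hV.continuousOn.mono sphere_subset_closedBall
  refine ⟨h1.circleIntegrable', ?_⟩
  apply ContinuousOn.circleIntegrable'
  exact (continuous_re.comp_continuousOn (continuousOn_herglotzRieszKernel_sphere hw)).smul h1

theorem harnack {V : ℂ → ℝ} {c w : ℂ} {R : ℝ} (hV : HarmonicOnNhd V (closedBall c R))
    (h0 : ∀ z ∈ closedBall c R, 0 ≤ V z) (hw : w ∈ ball c R) :
    (R - ‖w - c‖) / (R + ‖w - c‖) * V c ≤ V w ∧ (R - ‖w - c‖) / (R + ‖w - c‖) * V w ≤ V c := by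
  have hR : 0 < R := pos_of_mem_ball hw
  obtain ⟨i1, i2⟩ := Harn_int hV hw
  have e1 := hV.circleAverage_re_herglotzRieszKernel_smul hw
  have e2 : Real.circleAverage V c R = V c := by
    apply InnerProductSpace.HarmonicOnNhd.circleAverage_eq
    rwa [abs_of_pos hR]
  have hr : ‖w - c‖ < R := mem_ball_iff_norm.1 hw
  have hn := norm_nonneg (w - c)
  have i3 : ∀ k : ℝ, CircleIntegrable (k • V) c R := fun k => i1.const_smul
  constructor
  · rw [← e1, ← e2, ← smul_eq_mul, ← Real.circleAverage_smul]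
    refine Real.circleAverage_mono (i3 _) i2 fun z hz => ?_
    rw [abs_of_pos hR] at hz
    simp only [Pi.smul_apply, Pi.smul_apply', smul_eq_mul, Function.comp_apply,
      herglotzRieszKernel_def]
    exact mul_le_mul_of_nonneg_right (le_re_herglotzRieszKernel hz hw)
      (h0 z (sphere_subset_closedBall hz))
  · have h2 : V w ≤ (R + ‖w - c‖) / (R - ‖w - c‖) * V c := by
      rw [← e1, ← e2, ← smul_eq_mul, ← Real.circleAverage_smul]
      refine Real.circleAverage_mono i2 (i3 _) fun z hz => ?_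
      rw [abs_of_pos hR] at hz
      simp only [Pi.smul_apply, Pi.smul_apply', smul_eq_mul, Function.comp_apply,
        herglotzRieszKernel_def]
      exact mul_le_mul_of_nonneg_right (re_herglotzRieszKernel_le hz hw)
        (h0 z (sphere_subset_closedBall hz))
    have h3 : 0 < R - ‖w - c‖ := by linarith
    have h4 : 0 < R + ‖w - c‖ := by linarith
    calc (R - ‖w - c‖) / (R + ‖w - c‖) * V w
        ≤ (R - ‖w - c‖) / (R + ‖w - c‖) * ((R + ‖w - c‖) / (R - ‖w - c‖) * V c) :=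
          mul_le_mul_of_nonneg_left h2 (div_pos h3 h4).le
      _ = V c := by field_simp

theorem minp {V : ℂ → ℝ} {c w : ℂ} {R m : ℝ} (hR : 0 < R) (hV : HarmonicOnNhd V (closedBall c R))
    (h0 : ∀ z ∈ sphere c R, m ≤ V z) (hw : w ∈ closedBall c R) : m ≤ V w := by
  rcases (mem_closedBall.1 hw).lt_or_eq with h | h
  · have hw' : w ∈ ball c R := mem_ball.2 h
    have hV' : HarmonicOnNhd (V - fun _ => m) (closedBall c R) :=
      hV.sub (harmonicOnNhd_const m)
    have e1 := hV'.circleAverage_re_herglotzRieszKernel_smul hw'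
    have h1 : 0 ≤ (V - fun _ => m : ℂ → ℝ) w := by
      rw [← e1]
      refine Real.circleAverage_nonneg_of_nonneg fun z hz => ?_
      rw [abs_of_pos hR] at hz
      simp only [Pi.smul_apply', smul_eq_mul, Function.comp_apply, herglotzRieszKernel_def,
        Pi.sub_apply]
      have hr : ‖w - c‖ < R := mem_ball_iff_norm.1 hw'
      have hn := norm_nonneg (w - c)
      refine mul_nonneg (le_trans (div_nonneg (by linarith) (by linarith))
        (le_re_herglotzRieszKernel hz hw')) (sub_nonneg.2 (h0 z hz))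
    simpa using h1
  · exact h0 w (mem_sphere.2 h)

theorem kap_norm {a : ℂ} (h0 : 1 / 2 ≤ ‖a‖) (h1 : ‖a‖ < 1) :
    2 / 3 ≤ ‖kap a‖ * (1 - ‖a‖) ∧ ‖kap a‖ * (1 - ‖a‖) ≤ 1 := by
  have hp : 0 < 1 - ‖a‖ ^ 2 := by nlinarith
  have e : ‖kap a‖ = 2 * ‖a‖ / (1 - ‖a‖ ^ 2) := by
    unfold kap
    rw [norm_div, norm_mul, norm_mul, norm_neg, Complex.norm_real, Real.norm_of_nonneg hp.le,
      Complex.norm_conj]
    simp
  have e2 : ‖kap a‖ * (1 - ‖a‖) = 2 * ‖a‖ / (1 + ‖a‖) := by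
    rw [e]
    have : (1 - ‖a‖ ^ 2) = (1 - ‖a‖) * (1 + ‖a‖) := by ring
    rw [this]
    have h2 : (1 - ‖a‖) ≠ 0 := by linarith
    have h3 : (1 + ‖a‖) ≠ 0 := by linarith
    field_simp
  rw [e2]
  have h3 : 0 < 1 + ‖a‖ := by linarith
  constructor
  · rw [le_div_iff₀ h3]; linarith
  · rw [div_le_iff₀ h3]; linarith

theorem log_osc {y z : ℂ} (hy : ‖y‖ < 1) (h : ‖z - y‖ ≤ (1 - ‖y‖) / 10) :
    ‖z‖ < 1 ∧ |Real.log (1 - ‖z‖ ^ 2) - Real.log (1 - ‖y‖ ^ 2)| ≤ 1 := by
  have h1 : |‖z‖ - ‖y‖| ≤ (1 - ‖y‖) / 10 := (abs_norm_sub_norm_le z y).trans h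
  obtain ⟨h2, h3⟩ := abs_le.1 h1
  have hz0 := norm_nonneg z
  have hy0 := norm_nonneg y
  have hz : ‖z‖ < 1 := by linarith
  refine ⟨hz, ?_⟩
  set s := ‖z‖
  set t := ‖y‖
  have ps : 0 < 1 - s ^ 2 := by nlinarith
  have pt : 0 < 1 - t ^ 2 := by nlinarith
  have k1 : 1 - s ^ 2 ≤ 2 * (1 - t ^ 2) := by nlinarith
  have k2 : 1 - t ^ 2 ≤ 2 * (1 - s ^ 2) := by nlinarith
  rw [abs_le]
  constructor
  · have := Real.log_le_sub_one_of_pos (div_pos pt ps)
    rw [Real.log_div pt.ne' ps.ne'] at this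
    have h5 : (1 - t ^ 2) / (1 - s ^ 2) ≤ 2 := by rw [div_le_iff₀ ps]; exact k2
    linarith
  · have := Real.log_le_sub_one_of_pos (div_pos ps pt)
    rw [Real.log_div ps.ne' pt.ne'] at this
    have h5 : (1 - s ^ 2) / (1 - t ^ 2) ≤ 2 := by rw [div_le_iff₀ pt]; exact k1
    linarith

theorem eta_facts : 0 < ETA ∧ 100 ≤ KK ∧ KK * ETA ≤ 1 / 10 ^ 6 ∧ ETA ≤ 1 / 10 ^ 7 := by
  have hK : 100 ≤ KK := by
    unfold KK
    have := Real.add_one_le_exp (250 : ℝ)
    linarith
  have hK0 : 0 < KK := by linarith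
  refine ⟨by unfold ETA; positivity, hK, ?_, ?_⟩
  · unfold ETA
    rw [mul_one_div, div_le_div_iff₀ (by positivity) (by positivity)]
    nlinarith
  · unfold ETA
    rw [div_le_div_iff₀ (by positivity) (by positivity)]
    nlinarith

end Vale.Agent.P250
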