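import Vale.Agent.P250.SCV
import Vale.Agent.P250.Aff

set_option maxSynthPendingDepth 3

namespace Vale.Agent.P250

open scoped ContDiff Topology ComplexConjugate
open Complex Set Filter Vale.Agent.P255

/-- determinant of three columns -/
noncomputable def Jac_det (a b c : C3) : ℂ :=
  a.1.1 * b.1.2 * c.2 - a.1.1 * c.1.2 * b.2 - b.1.1 * a.1.2 * c.2 + b.1.1 * c.1.2 * a.2
    + c.1.1 * a.1.2 * b.2 - c.1.1 * b.1.2 * a.2

theorem Jac_ne (L : C3 →L[ℂ] C3) (hL : ∀ v, L v = 0 → v = 0) :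
    Jac_det (L ((1, 0), 0)) (L ((0, 1), 0)) (L ((0, 0), 1)) ≠ 0 := by
  intro h0
  set a := L ((1, 0), 0) with ha
  set b := L ((0, 1), 0) with hb
  set c := L ((0, 0), 1) with hc
  have hd : (!![a.1.1, b.1.1, c.1.1; a.1.2, b.1.2, c.1.2; a.2, b.2, c.2] :
      Matrix (Fin 3) (Fin 3) ℂ).det = 0 := by
    rw [Matrix.det_fin_three, ← h0]
    simp [Jac_det]
  obtain ⟨v, hv, hm⟩ := Matrix.exists_mulVec_eq_zero_iff.2 hd
  have e0 := congrFun hm 0
  have e1 := congrFun hm 1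
  have e2 := congrFun hm 2
  simp [Matrix.mulVec, dotProduct, Fin.sum_univ_three] at e0 e1 e2
  have e : (((v 0, v 1), v 2) : C3) = v 0 • ((1, 0), 0) + v 1 • ((0, 1), 0) + v 2 • ((0, 0), 1) := by
    simp
  have h1 : L ((v 0, v 1), v 2) = 0 := by
    rw [e, map_add, map_add, map_smul, map_smul, map_smul, ← ha, ← hb, ← hc]
    refine Prod.ext (Prod.ext ?_ ?_) ?_
    · simp only [Prod.fst_add, Prod.smul_fst, smul_eq_mul, Prod.fst_zero]
      linear_combination e0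
    · simp only [Prod.fst_add, Prod.snd_add, Prod.smul_fst, Prod.smul_snd, smul_eq_mul,
        Prod.fst_zero, Prod.snd_zero]
      linear_combination e1
    · simp only [Prod.snd_add, Prod.smul_snd, smul_eq_mul, Prod.snd_zero]
      linear_combination e2
  have h2 := hL _ h1
  apply hv
  funext i
  fin_cases i
  · exact congrArg (fun x : C3 => x.1.1) h2
  · exact congrArg (fun x : C3 => x.1.2) h2
  · exact congrArg (fun x : C3 => x.2) h2

theorem Jac_norm (a b c : C3) : ‖Jac_det a b c‖ ≤ 6 * (‖a‖ * ‖b‖ * ‖c‖) := by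
  have k1 : ∀ x : C3, ‖x.1.1‖ ≤ ‖x‖ := fun x => (norm_fst_le _).trans (norm_fst_le _)
  have k2 : ∀ x : C3, ‖x.1.2‖ ≤ ‖x‖ := fun x => (norm_snd_le _).trans (norm_fst_le _)
  have k3 : ∀ x : C3, ‖x.2‖ ≤ ‖x‖ := fun x => norm_snd_le _
  have k : ∀ x y z : ℂ, ‖x‖ ≤ ‖a‖ → ‖y‖ ≤ ‖b‖ → ‖z‖ ≤ ‖c‖ → ‖x * y * z‖ ≤ ‖a‖ * ‖b‖ * ‖c‖ := by
    intro x y z hx hy hz
    rw [norm_mul, norm_mul]
    gcongr
  have t1 := k _ _ _ (k1 a) (k2 b) (k3 c)
  have t2 := k _ _ _ (k1 a) (k3 b) (k2 c)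
  have t3 := k _ _ _ (k2 a) (k1 b) (k3 c)
  have t4 := k _ _ _ (k3 a) (k1 b) (k2 c)
  have t5 := k _ _ _ (k2 a) (k3 b) (k1 c)
  have t6 := k _ _ _ (k3 a) (k2 b) (k1 c)
  have e : Jac_det a b c = a.1.1 * b.1.2 * c.2 - a.1.1 * b.2 * c.1.2 - a.1.2 * b.1.1 * c.2
      + a.2 * b.1.1 * c.1.2 + a.1.2 * b.2 * c.1.1 - a.2 * b.1.2 * c.1.1 := by
    unfold Jac_det
    ring
  rw [e]
  have s1 := norm_sub_le (a.1.1 * b.1.2 * c.2) (a.1.1 * b.2 * c.1.2)
  have s2 := norm_sub_le (a.1.1 * b.1.2 * c.2 - a.1.1 * b.2 * c.1.2) (a.1.2 * b.1.1 * c.2)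
  have s3 := norm_add_le (a.1.1 * b.1.2 * c.2 - a.1.1 * b.2 * c.1.2 - a.1.2 * b.1.1 * c.2)
    (a.2 * b.1.1 * c.1.2)
  have s4 := norm_add_le (a.1.1 * b.1.2 * c.2 - a.1.1 * b.2 * c.1.2 - a.1.2 * b.1.1 * c.2
    + a.2 * b.1.1 * c.1.2) (a.1.2 * b.2 * c.1.1)
  have s5 := norm_sub_le (a.1.1 * b.1.2 * c.2 - a.1.1 * b.2 * c.1.2 - a.1.2 * b.1.1 * c.2
    + a.2 * b.1.1 * c.1.2 + a.1.2 * b.2 * c.1.1) (a.2 * b.1.2 * c.1.1)
  linarith

theorem Jac_mem {φ : B2 → ℝ} {p : B2} (hp : p ∈ HH) : ((p, 0) : C3) ∈ MM φ := by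
  refine ⟨hp, ?_⟩
  simp

theorem jac {φ : B2 → ℝ} (hM : IsOpen (MM φ)) (h : BiholToBounded (MM φ)) :
    ∃ J : B2 → ℂ, DifferentiableOn ℂ J HH ∧ (∀ p ∈ HH, J p ≠ 0) ∧
      ∃ C : ℝ, ∀ p ∈ HH, ‖p.2 - I‖ ≤ 1 → Real.log (‖J p‖ ^ 2) ≤ φ p + 4 * tt p + C := by
  obtain ⟨Ω, F, G, hΩ, -, hb, hF, hG, mF, -, hGF, -⟩ := h
  obtain ⟨K0, hK0⟩ := hb.exists_norm_le
  set K : ℝ := max K0 1 with hKdef
  have hK1 : 1 ≤ K := le_max_right _ _
  have hK : ∀ x ∈ MM φ, ‖F x‖ ≤ K := fun x hx => (hK0 _ (mF hx)).trans (le_max_left _ _)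
  have hs := scv_smooth hM hF
  have hd : DifferentiableOn ℂ (fderiv ℂ F) (MM φ) :=
    (hs.fderiv_of_isOpen (m := 1) hM (by
      exact WithTop.coe_le_coe.2 (le_top : (2 : ℕ∞) ≤ ⊤))).differentiableOn (by norm_num)
  have hc : ∀ e : C3, DifferentiableOn ℂ (fun p : B2 => fderiv ℂ F (p, 0) e) HH := by
    intro e
    refine DifferentiableOn.clm_apply ?_ (differentiableOn_const _)
    exact hd.comp (f := fun p : B2 => ((p, 0) : C3)) (by fun_prop) fun p hp => Jac_mem hp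
  have hne : ∀ p ∈ HH, Jac_det (fderiv ℂ F (p, 0) ((1, 0), 0)) (fderiv ℂ F (p, 0) ((0, 1), 0))
      (fderiv ℂ F (p, 0) ((0, 0), 1)) ≠ 0 := by
    intro p hp
    refine Jac_ne _ fun v hv => ?_
    have hx : ((p, 0) : C3) ∈ MM φ := Jac_mem hp
    have d1 := (hF.differentiableAt (hM.mem_nhds hx)).hasFDerivAt
    have d2 := (hG.differentiableAt (hΩ.mem_nhds (mF hx))).hasFDerivAt
    have d3 := d2.comp _ d1
    have d4 : HasFDerivAt (G ∘ F) (ContinuousLinearMap.id ℂ C3) ((p, 0) : C3) := by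
      refine (hasFDerivAt_id _).congr_of_eventuallyEq ?_
      filter_upwards [hM.mem_nhds hx] with y hy
      exact hGF y hy
    have d5 := congrArg (fun L : C3 →L[ℂ] C3 => L v) (d3.unique d4)
    simp only [ContinuousLinearMap.comp_apply, ContinuousLinearMap.id_apply, hv, map_zero] at d5
    exact d5.symm
  refine ⟨fun p => Jac_det (fderiv ℂ F (p, 0) ((1, 0), 0)) (fderiv ℂ F (p, 0) ((0, 1), 0))
      (fderiv ℂ F (p, 0) ((0, 0), 1)), ?_, hne, Real.log ((120 * K ^ 3) ^ 2), ?_⟩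
  · have c1 := hc ((1, 0), 0)
    have c2 := hc ((0, 1), 0)
    have c3 := hc ((0, 0), 1)
    unfold Jac_det
    exact ((((((c1.fst.fst.mul c2.fst.snd).mul c3.snd).sub
      ((c1.fst.fst.mul c3.fst.snd).mul c2.snd)).sub
      ((c2.fst.fst.mul c1.fst.snd).mul c3.snd)).add
      ((c2.fst.fst.mul c3.fst.snd).mul c1.snd)).add
      ((c3.fst.fst.mul c1.fst.snd).mul c2.snd)).sub ((c3.fst.fst.mul c2.fst.snd).mul c1.snd)
  · intro p hp h1
    have hdl : 0 < dl p := hp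
    have him : p.2.im ≤ 2 := by
      have := (Complex.abs_im_le_norm (p.2 - I)).trans h1
      have h2 := (le_abs_self _).trans this
      simp at h2
      linarith
    have hdl2 : dl p ≤ 2 := (dl_le_im p).trans him
    have hz : ‖p.1‖ ≤ 3 / 2 := by
      have : ‖p.1‖ ^ 2 < 2 := by
        unfold dl at hdl
        linarith
      nlinarith [norm_nonneg p.1]
    have m1 : ∀ τ : ℂ, ‖τ‖ ≤ dl p / 5 → ((p, 0) : C3) + τ • (((1, 0), 0) : C3) ∈ MM φ := by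
      intro τ hτ
      have e : ((p, 0) : C3) + τ • (((1, 0), 0) : C3) = ((p.1 + τ, p.2), 0) := by
        ext <;> simp
      rw [e]
      refine Jac_mem ?_
      show 0 < p.2.im - ‖p.1 + τ‖ ^ 2
      have t1 := norm_add_le p.1 τ
      have t2 : ‖p.1 + τ‖ ^ 2 ≤ (‖p.1‖ + ‖τ‖) ^ 2 := by gcongr
      have t3 : dl p = p.2.im - ‖p.1‖ ^ 2 := rfl
      nlinarith [norm_nonneg τ, norm_nonneg p.1]
    have m2 : ∀ τ : ℂ, ‖τ‖ ≤ dl p / 2 → ((p, 0) : C3) + τ • (((0, 1), 0) : C3) ∈ MM φ := by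
      intro τ hτ
      have e : ((p, 0) : C3) + τ • (((0, 1), 0) : C3) = ((p.1, p.2 + τ), 0) := by
        ext <;> simp
      rw [e]
      refine Jac_mem ?_
      show 0 < (p.2 + τ).im - ‖p.1‖ ^ 2
      have t1 := (neg_le_abs _).trans (Complex.abs_im_le_norm τ)
      have t3 : dl p = p.2.im - ‖p.1‖ ^ 2 := rfl
      rw [add_im]
      linarith
    have hE : 0 < Real.exp (φ p / 2) := Real.exp_pos _
    have hE2 : Real.exp (φ p / 2) ^ 2 = Real.exp (φ p) := by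
      rw [← Real.exp_nat_mul]
      congr 1
      push_cast
      ring
    have m3 : ∀ τ : ℂ, ‖τ‖ ≤ 1 / (2 * Real.exp (φ p / 2)) →
        ((p, 0) : C3) + τ • (((0, 0), 1) : C3) ∈ MM φ := by
      intro τ hτ
      have e : ((p, 0) : C3) + τ • (((0, 0), 1) : C3) = (p, τ) := by
        ext <;> simp
      rw [e]
      refine ⟨hp, ?_⟩
      show ‖τ‖ ^ 2 * Real.exp (φ p) < 1
      rw [le_div_iff₀ (by positivity)] at hτ
      rw [← hE2]
      have t0 : 0 ≤ ‖τ‖ * Real.exp (φ p / 2) := by positivity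
      nlinarith
    have b1 := scv_cauchy hM hF (by positivity) m1 fun τ hτ => hK _ (m1 τ hτ)
    have b2 := scv_cauchy hM hF (by positivity) m2 fun τ hτ => hK _ (m2 τ hτ)
    have b3 := scv_cauchy hM hF (by positivity) m3 fun τ hτ => hK _ (m3 τ hτ)
    have b4 : ‖Jac_det (fderiv ℂ F (p, 0) ((1, 0), 0)) (fderiv ℂ F (p, 0) ((0, 1), 0))
        (fderiv ℂ F (p, 0) ((0, 0), 1))‖ ≤ 120 * K ^ 3 * Real.exp (φ p / 2) / dl p ^ 2 := by
      refine (Jac_norm _ _ _).trans ?_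
      calc _ ≤ 6 * ((K / (dl p / 5)) * (K / (dl p / 2)) * (K / (1 / (2 * Real.exp (φ p / 2))))) := by
            gcongr
        _ = _ := by
            field_simp
            ring
    have hpos := norm_pos_iff.2 (hne p hp)
    calc _ ≤ Real.log ((120 * K ^ 3 * Real.exp (φ p / 2) / dl p ^ 2) ^ 2) := by
          gcongr
      _ = _ := by
          rw [div_pow, mul_pow, hE2, Real.log_div (by positivity) (by positivity),
            Real.log_mul (by positivity) (by positivity), Real.log_exp, ← pow_mul, Real.log_pow (dl p)]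
          unfold tt
          push_cast
          ring

end Vale.Agent.P250
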