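import Vale.Agent.P250.PD

set_option maxSynthPendingDepth 3

namespace Vale.Agent.P250

open scoped ContDiff Topology ComplexConjugate
open Complex Set Filter Vale.Agent.P255

variable {E : Type} [NormedAddCommGroup E] [NormedSpace ℝ E] {f g : E → ℝ} {x : E}

section aux
variable {V W : Type} [NormedAddCommGroup V] [NormedSpace ℝ V] [NormedAddCommGroup W]
  [NormedSpace ℝ W]

theorem jet_app {G : E → V →L[ℝ] W} (hG : DifferentiableAt ℝ G x) (v : V) :
    DifferentiableAt ℝ (fun z => G z v) x ∧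
      ∀ a, fderiv ℝ (fun z => G z v) x a = fderiv ℝ G x a v := by
  have h := (ContinuousLinearMap.apply ℝ W v).hasFDerivAt.comp x hG.hasFDerivAt
  exact ⟨h.differentiableAt, fun a => by
    rw [show (fun z => G z v) = (ContinuousLinearMap.apply ℝ W v) ∘ G from rfl, h.fderiv]; rfl⟩

theorem jet_add {p q : E → V} (hp : ContDiffAt ℝ 1 p x) (hq : ContDiffAt ℝ 1 q x) :
    fderiv ℝ (fun y => p y + q y) =ᶠ[𝓝 x] fun y => fderiv ℝ p y + fderiv ℝ q y := by
  filter_upwards [hp.eventually (by simp), hq.eventually (by simp)] with z h1 h2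
  exact fderiv_fun_add (h1.differentiableAt one_ne_zero) (h2.differentiableAt one_ne_zero)

theorem jet_cd1 {p : E → V} (hp : ContDiffAt ℝ 2 p x) : ContDiffAt ℝ 1 (fderiv ℝ p) x :=
  hp.fderiv_right (by norm_num)

theorem jet_cd2 {p : E → V} (hp : ContDiffAt ℝ 3 p x) : ContDiffAt ℝ 2 (fderiv ℝ p) x :=
  hp.fderiv_right (by norm_num)

theorem jet_cd3 {p : E → V} (hp : ContDiffAt ℝ 4 p x) : ContDiffAt ℝ 3 (fderiv ℝ p) x :=
  hp.fderiv_right (by norm_num)

theorem jet_ev {p : E → V} {n m : ℕ} (hp : ContDiffAt ℝ n p x) (h : m ≤ n) :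
    ∀ᶠ z in 𝓝 x, ContDiffAt ℝ m p z :=
  (hp.of_le (by exact_mod_cast h)).eventually (by simp)

end aux

theorem jet_ev2 (hf : ContDiffAt ℝ 2 f x) (b : E) :
    DifferentiableAt ℝ (fun z => fderiv ℝ f z b) x ∧
      ∀ a, fderiv ℝ (fun z => fderiv ℝ f z b) x a = D2 f x a b :=
  jet_app ((jet_cd1 hf).differentiableAt one_ne_zero) b

theorem jet_ev3 (hf : ContDiffAt ℝ 3 f x) (b c : E) :
    DifferentiableAt ℝ (fun z => D2 f z b c) x ∧
      ∀ a, fderiv ℝ (fun z => D2 f z b c) x a = D3 f x a b c := by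
  have h1 := jet_app (G := D2 f) ((jet_cd1 (jet_cd2 hf)).differentiableAt one_ne_zero) b
  have h2 := jet_app h1.1 c
  exact ⟨h2.1, fun a => by rw [h2.2, h1.2]; rfl⟩

theorem jet_ev4 (hf : ContDiffAt ℝ 4 f x) (b c d : E) :
    DifferentiableAt ℝ (fun z => D3 f z b c d) x ∧
      ∀ a, fderiv ℝ (fun z => D3 f z b c d) x a = D4 f x a b c d := by
  have h1 := jet_app (G := D3 f) ((jet_cd1 (jet_cd2 (jet_cd3 hf))).differentiableAt one_ne_zero) b
  have h2 := jet_app h1.1 c
  have h3 := jet_app h2.1 d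
  exact ⟨h3.1, fun a => by rw [h3.2, h2.2, h1.2]; rfl⟩

theorem D2_congr (h : f =ᶠ[𝓝 x] g) : D2 f x = D2 g x := by
  exact h.fderiv.fderiv_eq

theorem D3_congr (h : f =ᶠ[𝓝 x] g) : D3 f x = D3 g x := by
  exact h.fderiv.fderiv.fderiv_eq

theorem D4_congr (h : f =ᶠ[𝓝 x] g) : D4 f x = D4 g x := by
  exact h.fderiv.fderiv.fderiv.fderiv_eq

theorem D2_symm (hf : ContDiffAt ℝ 2 f x) (a b : E) : D2 f x a b = D2 f x b a := by
  exact (hf.isSymmSndFDerivAt (by simp)).eq a b

theorem D3_symm12 (hf : ContDiffAt ℝ 3 f x) (a b c : E) : D3 f x a b c = D3 f x b a c := by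
  exact congrArg (fun T : E →L[ℝ] ℝ => T c) (((jet_cd2 hf).isSymmSndFDerivAt (by simp)).eq a b)

theorem D3_symm23 (hf : ContDiffAt ℝ 3 f x) (a b c : E) : D3 f x a b c = D3 f x a c b := by
  rw [← (jet_ev3 hf b c).2, ← (jet_ev3 hf c b).2]
  refine congrArg (fun T : E →L[ℝ] ℝ => T a) (Filter.EventuallyEq.fderiv_eq ?_)
  filter_upwards [jet_ev (n := 3) (m := 2) hf (by norm_num)] with z hz using D2_symm hz b c

theorem D4_symm12 (hf : ContDiffAt ℝ 4 f x) (a b c d : E) : D4 f x a b c d = D4 f x b a c d := by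
  exact congrArg (fun T : E →L[ℝ] E →L[ℝ] ℝ => T c d)
    (((jet_cd2 (jet_cd3 hf)).isSymmSndFDerivAt (by simp)).eq a b)

theorem D4_symm23 (hf : ContDiffAt ℝ 4 f x) (a b c d : E) : D4 f x a b c d = D4 f x a c b d := by
  rw [← (jet_ev4 hf b c d).2, ← (jet_ev4 hf c b d).2]
  refine congrArg (fun T : E →L[ℝ] ℝ => T a) (Filter.EventuallyEq.fderiv_eq ?_)
  filter_upwards [jet_ev (n := 4) (m := 3) hf (by norm_num)] with z hz using D3_symm12 hz b c d

theorem D4_symm34 (hf : ContDiffAt ℝ 4 f x) (a b c d : E) : D4 f x a b c d = D4 f x a b d c := by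
  rw [← (jet_ev4 hf b c d).2, ← (jet_ev4 hf b d c).2]
  refine congrArg (fun T : E →L[ℝ] ℝ => T a) (Filter.EventuallyEq.fderiv_eq ?_)
  filter_upwards [jet_ev (n := 4) (m := 3) hf (by norm_num)] with z hz using D3_symm23 hz b c d

theorem D2_add (hf : ContDiffAt ℝ 2 f x) (hg : ContDiffAt ℝ 2 g x) :
    D2 (fun y => f y + g y) x = D2 f x + D2 g x := by
  exact ((jet_add (hf.of_le (by norm_num)) (hg.of_le (by norm_num))).fderiv.trans
    (jet_add (jet_cd1 hf) (jet_cd1 hg))).eq_of_nhds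

theorem D3_add (hf : ContDiffAt ℝ 3 f x) (hg : ContDiffAt ℝ 3 g x) :
    D3 (fun y => f y + g y) x = D3 f x + D3 g x := by
  exact (((jet_add (hf.of_le (by norm_num)) (hg.of_le (by norm_num))).fderiv.trans
    (jet_add ((jet_cd2 hf).of_le (by norm_num)) ((jet_cd2 hg).of_le (by norm_num)))).fderiv.trans
      (jet_add (jet_cd1 (jet_cd2 hf)) (jet_cd1 (jet_cd2 hg)))).eq_of_nhds

theorem D4_add (hf : ContDiffAt ℝ 4 f x) (hg : ContDiffAt ℝ 4 g x) :
    D4 (fun y => f y + g y) x = D4 f x + D4 g x := by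
  exact ((((jet_add (hf.of_le (by norm_num)) (hg.of_le (by norm_num))).fderiv.trans
    (jet_add ((jet_cd3 hf).of_le (by norm_num)) ((jet_cd3 hg).of_le (by norm_num)))).fderiv.trans
      (jet_add ((jet_cd2 (jet_cd3 hf)).of_le (by norm_num))
        ((jet_cd2 (jet_cd3 hg)).of_le (by norm_num)))).fderiv.trans
      (jet_add (jet_cd1 (jet_cd2 (jet_cd3 hf))) (jet_cd1 (jet_cd2 (jet_cd3 hg))))).eq_of_nhds

theorem D2_mul (hf : ContDiffAt ℝ 2 f x) (c : ℝ) : D2 (fun y => c * f y) x = c • D2 f x := by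
  show fderiv ℝ (fderiv ℝ (c • f)) x = _
  rw [fderiv_const_smul_field, fderiv_const_smul_field]; rfl

theorem D3_mul (hf : ContDiffAt ℝ 3 f x) (c : ℝ) : D3 (fun y => c * f y) x = c • D3 f x := by
  show fderiv ℝ (fderiv ℝ (fderiv ℝ (c • f))) x = _
  rw [fderiv_const_smul_field, fderiv_const_smul_field, fderiv_const_smul_field]; rfl

theorem D4_mul (hf : ContDiffAt ℝ 4 f x) (c : ℝ) : D4 (fun y => c * f y) x = c • D4 f x := by
  show fderiv ℝ (fderiv ℝ (fderiv ℝ (fderiv ℝ (c • f)))) x = _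
  rw [fderiv_const_smul_field, fderiv_const_smul_field, fderiv_const_smul_field]
  exact fderiv_const_smul (f := D3 f)
    ((jet_cd1 (jet_cd2 (jet_cd3 hf))).differentiableAt one_ne_zero) c

variable {E' : Type} [NormedAddCommGroup E'] [NormedSpace ℝ E']

theorem jet_lin (L : E' →L[ℝ] E) {y : E'} (hf : DifferentiableAt ℝ f (L y)) (a : E') :
    fderiv ℝ (fun z => f (L z)) y a = fderiv ℝ f (L y) (L a) := by
  have h := hf.hasFDerivAt.comp y L.hasFDerivAt
  rw [show (fun z => f (L z)) = f ∘ L from rfl, h.fderiv]; rfl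

theorem D2_lin (L : E' →L[ℝ] E) {y : E'} (hf : ContDiffAt ℝ 2 f (L y)) (a b : E') :
    D2 (fun z => f (L z)) y a b = D2 f (L y) (L a) (L b) := by
  rw [← (jet_ev2 (f := fun z => f (L z)) (hf.comp y L.contDiff.contDiffAt) b).2,
    ← (jet_ev2 hf (L b)).2, ← jet_lin L (jet_ev2 hf (L b)).1]
  refine congrArg (fun T : E' →L[ℝ] ℝ => T a) (Filter.EventuallyEq.fderiv_eq ?_)
  filter_upwards [L.continuous.continuousAt.eventually (jet_ev (n := 2) (m := 1) hf (by norm_num))]
    with z hz using jet_lin L (hz.differentiableAt (by simp)) b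

theorem D3_lin (L : E' →L[ℝ] E) {y : E'} (hf : ContDiffAt ℝ 3 f (L y)) (a b c : E') :
    D3 (fun z => f (L z)) y a b c = D3 f (L y) (L a) (L b) (L c) := by
  rw [← (jet_ev3 (f := fun z => f (L z)) (hf.comp y L.contDiff.contDiffAt) b c).2,
    ← (jet_ev3 hf (L b) (L c)).2, ← jet_lin L (jet_ev3 hf (L b) (L c)).1]
  refine congrArg (fun T : E' →L[ℝ] ℝ => T a) (Filter.EventuallyEq.fderiv_eq ?_)
  filter_upwards [L.continuous.continuousAt.eventually (jet_ev (n := 3) (m := 2) hf (by norm_num))]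
    with z hz using D2_lin L hz b c

theorem D4_lin (L : E' →L[ℝ] E) {y : E'} (hf : ContDiffAt ℝ 4 f (L y)) (a b c d : E') :
    D4 (fun z => f (L z)) y a b c d = D4 f (L y) (L a) (L b) (L c) (L d) := by
  rw [← (jet_ev4 (f := fun z => f (L z)) (hf.comp y L.contDiff.contDiffAt) b c d).2,
    ← (jet_ev4 hf (L b) (L c) (L d)).2, ← jet_lin L (jet_ev4 hf (L b) (L c) (L d)).1]
  refine congrArg (fun T : E' →L[ℝ] ℝ => T a) (Filter.EventuallyEq.fderiv_eq ?_)
  filter_upwards [L.continuous.continuousAt.eventually (jet_ev (n := 4) (m := 3) hf (by norm_num))]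
    with z hz using D3_lin L hz b c d

/-- jets of a real polynomial of degree two -/
theorem D_poly (k : ℝ) (l : E →L[ℝ] ℝ) (B : E →L[ℝ] E →L[ℝ] ℝ) (x : E) :
    (∀ a, fderiv ℝ (fun y => k + l y + B y y) x a = l a + B a x + B x a) ∧
    (∀ a b, D2 (fun y => k + l y + B y y) x a b = B a b + B b a) ∧
    D3 (fun y => k + l y + B y y) x = 0 ∧ D4 (fun y => k + l y + B y y) x = 0 := by
  have h1 : fderiv ℝ (fun y => k + l y + B y y) = fun z => l + (B + B.flip) z := by
    funext z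
    have := (l.hasFDerivAt (x := z)).const_add k |>.add
      ((B.hasFDerivAt (x := z)).clm_apply (hasFDerivAt_id z))
    refine this.fderiv.trans ?_
    ext a
    simp
  have h2 : D2 (fun y => k + l y + B y y) = fun _ => B + B.flip := by
    funext z
    rw [D2, h1]
    exact ((B + B.flip).hasFDerivAt.const_add l).fderiv
  have h3 : D3 (fun y => k + l y + B y y) = fun _ => 0 := by
    funext z
    rw [D3, h2]; exact fderiv_const_apply _
  refine ⟨fun a => ?_, fun a b => ?_, by rw [h3], ?_⟩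
  · rw [h1]; simp; ring
  · rw [h2]; simp
  · rw [D4, h3]; exact fderiv_const_apply _

end Vale.Agent.P250
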