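import Vale.Agent.P250.Curv
import Vale.Agent.P250.Levi

set_option maxSynthPendingDepth 3

namespace Vale.Agent.P250

open scoped ContDiff Topology ComplexConjugate
open Complex Set Filter Vale.Agent.P255

variable {Φ : C3 → ℝ} {U : Set C3} {x : C3}

theorem kform_chr (hU : IsOpen U) (hx : x ∈ U) (hs : ContDiffOn ℝ ∞ Φ U)
    (hp : ∀ v, v ≠ 0 → 0 < levi Φ x v v) (X Y Z : C3) :
    levi Φ x (chr (levi Φ) x X Y) Z = gamF (fun a b c => D3 Φ x a b c) X Y Z := by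
  have two : (2 : WithTop ℕ∞) ≤ ∞ := WithTop.coe_le_coe.2 (le_top : (2 : ℕ∞) ≤ ⊤)
  have three : (3 : WithTop ℕ∞) ≤ ∞ := WithTop.coe_le_coe.2 (le_top : (3 : ℕ∞) ≤ ⊤)
  have h3 : ContDiffAt ℝ 3 Φ x := (hs.contDiffAt (hU.mem_nhds hx)).of_le three
  rw [chr_form hU hx (levi_smooth hU hs)
    (fun y hy v w => levi_symm ((hs.contDiffAt (hU.mem_nhds hy)).of_le two) v w) hp,
    fderiv_levi h3, fderiv_levi h3, fderiv_levi h3, gamF]
  have e₁ := D3_symm12 h3 Y X Z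
  have e₂ := D3_symm12 h3 Z X Y
  have e₃ := D3_symm23 h3 X Z Y
  linarith

theorem kform_num (hU : IsOpen U) (hx : x ∈ U) (hs : ContDiffOn ℝ ∞ Φ U)
    (hp : ∀ v, v ≠ 0 → 0 < levi Φ x v v) (X Y : C3) :
    num (levi Φ) x X Y = -(1 / 2) * q4 (fun a b c d => D4 Φ x a b c d) X Y
      + levi Φ x (chr (levi Φ) x X Y) (chr (levi Φ) x X Y)
      - levi Φ x (chr (levi Φ) x X X) (chr (levi Φ) x Y Y) := by
  have two : (2 : WithTop ℕ∞) ≤ ∞ := WithTop.coe_le_coe.2 (le_top : (2 : ℕ∞) ≤ ⊤)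
  have four : (4 : WithTop ℕ∞) ≤ ∞ := WithTop.coe_le_coe.2 (le_top : (4 : ℕ∞) ≤ ⊤)
  have h4 : ContDiffAt ℝ 4 Φ x := (hs.contDiffAt (hU.mem_nhds hx)).of_le four
  rw [num_form hU hx (levi_smooth hU hs)
    (fun y hy v w => levi_symm ((hs.contDiffAt (hU.mem_nhds hy)).of_le two) v w) hp,
    fderiv2_levi h4, fderiv2_levi h4, fderiv2_levi h4, q4]
  have e₁ := D4_symm23 h4 X Y X Y
  have e₂ := D4_symm23 h4 Y Y X X
  have e₃ := D4_symm12 h4 Y X Y X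
  have e₄ := D4_symm34 h4 X Y Y X
  linarith

end Vale.Agent.P250
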