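import Vale.Agent.P250.NFc
import Vale.Agent.P250.JetB

set_option maxSynthPendingDepth 3

namespace Vale.Agent.P250

open scoped ContDiff Topology ComplexConjugate
open Complex Set Filter Vale.Agent.P255

/-- derivatives of `-log (1 - t)` -/
theorem llj_der (n : ℕ) : ∀ t : ℝ, t < 1 →
    iteratedDeriv (n + 1) (fun t : ℝ => -Real.log (1 - t)) t = n.factorial / (1 - t) ^ (n + 1) := by
  induction n with
  | zero =>
    intro t ht
    have h : HasDerivAt (fun t : ℝ => -Real.log (1 - t)) (-(-1 / (1 - t))) t :=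
      (((hasDerivAt_id t).const_sub 1).log (by simp; linarith)).neg
    rw [zero_add, iteratedDeriv_one, h.deriv]
    simp [neg_div]
  | succ n ih =>
    intro t ht
    have e : iteratedDeriv (n + 1) (fun t : ℝ => -Real.log (1 - t)) =ᶠ[𝓝 t]
        fun t => n.factorial / (1 - t) ^ (n + 1) := by
      filter_upwards [Iio_mem_nhds ht] with y hy using ih y hy
    have h0 : (1 - t) ≠ 0 := by linarith
    have h : HasDerivAt (fun t : ℝ => (n.factorial : ℝ) / (1 - t) ^ (n + 1)) _ t :=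
      (hasDerivAt_const t _).div (((hasDerivAt_id t).const_sub 1).pow (n + 1)) (pow_ne_zero _ h0)
    rw [iteratedDeriv_succ, e.deriv_eq, h.deriv, Nat.factorial_succ]
    simp only [id, Nat.add_sub_cancel]
    push_cast
    field_simp
    ring

/-- the Euclidean inner product of the base -/
noncomputable def lljB : B2 →L[ℝ] B2 →L[ℝ] ℝ :=
  (innerSL ℝ (E := ℂ)).bilinearComp (ContinuousLinearMap.fst ℝ ℂ ℂ) (ContinuousLinearMap.fst ℝ ℂ ℂ)
    + (innerSL ℝ (E := ℂ)).bilinearComp (ContinuousLinearMap.snd ℝ ℂ ℂ)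
      (ContinuousLinearMap.snd ℝ ℂ ℂ)

theorem lljB_apply (a b : B2) : lljB a b = (hq 1 1 a b).re := by
  simp [lljB, hq]
  ring

theorem LL_jets : LL 0 = 0 ∧ fderiv ℝ LL 0 = 0 ∧ (∀ a b, D2 LL 0 a b = 2 * (hq 1 1 a b).re) ∧
    D3 LL 0 = 0 ∧ ∀ a b c d, D4 LL 0 a b c d = 4 * ((hq 1 1 a b).re * (hq 1 1 c d).re
      + (hq 1 1 a c).re * (hq 1 1 b d).re + (hq 1 1 a d).re * (hq 1 1 b c).re) := by
  obtain ⟨p1, p2, p3, p4⟩ := D_poly 0 (0 : B2 →L[ℝ] ℝ) lljB 0
  have hs : ContDiff ℝ 4 fun y : B2 => 0 + (0 : B2 →L[ℝ] ℝ) y + lljB y y :=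
    (contDiff_const.add (0 : B2 →L[ℝ] ℝ).contDiff).add (lljB.contDiff.clm_apply contDiff_id)
  obtain ⟨q, hq'⟩ : ∃ q : B2 → ℝ, q = fun y : B2 => 0 + (0 : B2 →L[ℝ] ℝ) y + lljB y y := ⟨_, rfl⟩
  obtain ⟨F, hF⟩ : ∃ F : ℝ → ℝ, F = fun t => -Real.log (1 - t) := ⟨_, rfl⟩
  have e : LL = fun z => F (q z) := by
    funext z
    simp only [hF, hq', LL, lljB_apply, hq, zero_add, zero_apply, Complex.mul_conj,
      Complex.normSq_eq_norm_sq]
    norm_cast
    simp
  rw [← hq'] at p1 p2 p3 p4 hs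
  have q0 : q 0 = 0 := by simp [hq']
  have q1 : fderiv ℝ q 0 = 0 := ContinuousLinearMap.ext fun a => by simp [p1]
  have q2 : ∀ a b, D2 q 0 a b = 2 * (hq 1 1 a b).re := fun a b => by
    rw [p2, lljB_apply, lljB_apply]; simp [hq]; ring
  have hF4 : ContDiffAt ℝ 4 F (q 0) := by
    rw [q0, hF]
    exact ((contDiffAt_const.sub contDiffAt_id).log (by simp)).neg
  have d1 : iteratedDeriv 1 F (q 0) = 1 := by
    rw [q0, hF]; simpa using llj_der 0 0 one_pos
  have d2 : iteratedDeriv 2 F (q 0) = 1 := by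
    rw [q0, hF]; simpa using llj_der 1 0 one_pos
  rw [e]
  refine ⟨by simp [q0, hF], ?_, fun a b => ?_, ?_, fun a b c d => ?_⟩
  · have h := (hF4.differentiableAt (by norm_num)).hasFDerivAt.comp (0 : B2)
      ((hs.contDiffAt (x := 0)).differentiableAt (by norm_num)).hasFDerivAt
    rw [q1] at h
    simpa [Function.comp_def] using h.fderiv
  · rw [D2_comp (hF4.of_le (by norm_num)) (hs.contDiffAt.of_le (by norm_num)), d1, q1, q2]
    simp
  · refine ContinuousLinearMap.ext fun a => ContinuousLinearMap.ext fun b =>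
      ContinuousLinearMap.ext fun c => ?_
    rw [D3_comp (hF4.of_le (by norm_num)) (hs.contDiffAt.of_le (by norm_num)), q1, p3]
    simp
  · rw [D4_comp hF4 hs.contDiffAt, d2, q1, p3, p4]
    simp only [q2, zero_apply]
    ring

end Vale.Agent.P250
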