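import Vale.Agent.P250.LLj

set_option maxSynthPendingDepth 3

namespace Vale.Agent.P250

open scoped ContDiff Topology ComplexConjugate
open Complex Set Filter Vale.Agent.P255

noncomputable def modU (s t : ℝ) : ℝ := s * Real.exp t / (1 - s * Real.exp t)

noncomputable def modF (s t : ℝ) : ℝ := -Real.log (1 - s * Real.exp t)

theorem modU_der {s t : ℝ} (h : s * Real.exp t < 1) :
    HasDerivAt (modU s) (modU s t * (1 + modU s t)) t := by
  have h0 : 1 - s * Real.exp t ≠ 0 := by linarith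
  have h1 := (Real.hasDerivAt_exp t).const_mul s
  refine (h1.div (h1.const_sub 1) h0).congr_deriv ?_
  simp only [modU]
  field_simp
  ring

theorem modF_der {s t : ℝ} (h : s * Real.exp t < 1) : HasDerivAt (modF s) (modU s t) t := by
  have h0 : 1 - s * Real.exp t ≠ 0 := by linarith
  have h1 := (Real.hasDerivAt_exp t).const_mul s
  refine ((h1.const_sub 1).log h0).neg.congr_deriv ?_
  simp only [modU]
  ring

theorem modF_step {s : ℝ} {n : ℕ} {G : ℝ → ℝ}
    (h : ∀ t, s * Real.exp t < 1 → iteratedDeriv n (modF s) t = G t) {t d : ℝ}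
    (ht : s * Real.exp t < 1) (hd : HasDerivAt G d t) : iteratedDeriv (n + 1) (modF s) t = d := by
  have e : iteratedDeriv n (modF s) =ᶠ[𝓝 t] G := by
    filter_upwards [(isOpen_lt (continuous_const.mul Real.continuous_exp)
      continuous_const).mem_nhds ht] with y hy using h y hy
  rw [iteratedDeriv_succ, e.deriv_eq, hd.deriv]

theorem modF_1 {s t : ℝ} (h : s * Real.exp t < 1) : iteratedDeriv 1 (modF s) t = modU s t := by
  rw [iteratedDeriv_one, (modF_der h).deriv]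

theorem modF_2 {s t : ℝ} (h : s * Real.exp t < 1) :
    iteratedDeriv 2 (modF s) t = modU s t * (1 + modU s t) :=
  modF_step (fun _ => modF_1) h (modU_der h)

theorem modF_3 {s t : ℝ} (h : s * Real.exp t < 1) :
    iteratedDeriv 3 (modF s) t = modU s t * (1 + modU s t) * (1 + 2 * modU s t) := by
  refine modF_step (fun _ => modF_2) h
    (((modU_der h).fun_mul ((modU_der h).const_add 1)).congr_deriv ?_)
  ring

theorem modF_4 {s t : ℝ} (h : s * Real.exp t < 1) : iteratedDeriv 4 (modF s) t =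
    modU s t * (1 + modU s t) * (1 + 6 * modU s t + 6 * modU s t ^ 2) := by
  refine modF_step (fun _ => modF_3) h
    ((((modU_der h).fun_mul ((modU_der h).const_add 1)).fun_mul
      (((modU_der h).const_mul 2).const_add 1)).congr_deriv ?_)
  ring

/-- twice the real part of the fibre coordinate -/
noncomputable def modL : C3 →L[ℝ] ℝ := (2 : ℝ) • reCLM.comp (ContinuousLinearMap.snd ℝ B2 ℂ)

theorem modL_apply (X : C3) : modL X = el X := by simp [modL, el]

theorem mod_jets {A s s₁ s₂ : ℝ} {f : B2 → ℝ} {O : Set B2} (hO : IsOpen O) (h0 : (0 : B2) ∈ O)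
    (hf : ContDiffOn ℝ ∞ f O) (f0 : f 0 = 0) (f1 : fderiv ℝ f 0 = 0)
    (f2 : ∀ a b, D2 f 0 a b = (hq s₁ s₂ a b).re) (hs0 : 0 < s) (hs1 : s < 1) :
    (∃ W, IsOpen W ∧ (0 : C3) ∈ W ∧ ContDiffOn ℝ ∞ (Mod A s f) W) ∧
    (∀ X Y, D2 (Mod A s f) 0 X Y = P2 A (s / (1 - s)) s₁ s₂ X Y) ∧
    (∀ X Y Z, D3 (Mod A s f) 0 X Y Z = P3 (s / (1 - s)) s₁ s₂ (D3 f 0) X Y Z) ∧
    ∀ X Y Z W, D4 (Mod A s f) 0 X Y Z W =
      P4 A (s / (1 - s)) s₁ s₂ (D3 f 0) (D4 f 0) X Y Z W := by
  have four : (4 : WithTop ℕ∞) ≤ ∞ := WithTop.coe_le_coe.2 (le_top : (4 : ℕ∞) ≤ ⊤)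
  obtain ⟨π, hπ⟩ : ∃ π : C3 →L[ℝ] B2, π = ContinuousLinearMap.fst ℝ B2 ℂ := ⟨_, rfl⟩
  have πa : ∀ X, π X = X.1 := fun X => by rw [hπ]; rfl
  obtain ⟨p1, p2, p3, p4⟩ := D_poly 0 modL (0 : C3 →L[ℝ] C3 →L[ℝ] ℝ) 0
  simp only [zero_add, zero_apply, add_zero] at p1 p2 p3 p4
  obtain ⟨y, hy⟩ : ∃ y : C3 → ℝ, y = fun x => modL x + f (π x) := ⟨_, rfl⟩
  have e : Mod A s f = fun x => A * LL (π x) + modF s (y x) := by
    funext x
    simp only [Mod, modF, hy, modL_apply, el, πa]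
    ring
  have hO' : IsOpen (π ⁻¹' O) := hO.preimage π.continuous
  have ys : ContDiffOn ℝ ∞ y (π ⁻¹' O) := by
    rw [hy]
    exact modL.contDiff.contDiffOn.add (hf.comp π.contDiff.contDiffOn fun _ h => h)
  have y0 : y 0 = 0 := by simp [hy, f0]
  have m0 : (0 : C3) ∈ π ⁻¹' O := by simpa using h0
  have hB : IsOpen {z : B2 | ‖z.1‖ ^ 2 + ‖z.2‖ ^ 2 < 1} :=
    isOpen_lt (by fun_prop) continuous_const
  have f4 : ContDiffAt ℝ 4 f (π 0) := by
    rw [map_zero]; exact (hf.contDiffAt (hO.mem_nhds h0)).of_le four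
  have L4 : ContDiffAt ℝ 4 LL (π 0) := by
    rw [map_zero]; exact (LL_smooth.contDiffAt (hB.mem_nhds (by simp))).of_le four
  have f4' : ContDiffAt ℝ 4 (fun x => f (π x)) 0 := f4.comp 0 π.contDiff.contDiffAt
  have L4' : ContDiffAt ℝ 4 (fun x => LL (π x)) 0 := L4.comp 0 π.contDiff.contDiffAt
  have l4 : ContDiffAt ℝ 4 (fun x => modL x) 0 := modL.contDiff.contDiffAt
  have y4 : ContDiffAt ℝ 4 y 0 := (ys.contDiffAt (hO'.mem_nhds m0)).of_le four
  have hs : s * Real.exp (y 0) < 1 := by rw [y0]; simpa using hs1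
  have hu : modU s (y 0) = s / (1 - s) := by rw [y0]; simp [modU]
  have F4 : ContDiffAt ℝ 4 (modF s) (y 0) :=
    ((contDiffAt_const.sub (contDiffAt_const.mul Real.contDiff_exp.contDiffAt)).log
      (by linarith)).neg
  have Fy : ContDiffAt ℝ 4 (fun x => modF s (y x)) 0 := F4.comp 0 y4
  have y1 : ∀ a, fderiv ℝ y 0 a = el a := fun a => by
    have h1 := (f4.differentiableAt (by norm_num)).hasFDerivAt.comp (0 : C3) π.hasFDerivAt
    rw [map_zero, f1] at h1
    have h2 : HasFDerivAt y (modL + (0 : B2 →L[ℝ] ℝ).comp π) 0 := by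
      rw [hy]; exact modL.hasFDerivAt.add h1
    rw [h2.fderiv]; simp [modL_apply]
  have y2 : ∀ a b, D2 y 0 a b = (hq s₁ s₂ a.1 b.1).re := fun a b => by
    rw [hy, D2_add (l4.of_le (by norm_num)) (f4'.of_le (by norm_num))]
    simp only [add_apply]
    rw [p2, D2_lin π (f4.of_le (by norm_num)), map_zero, f2, πa, πa, zero_add]
  have y3 : ∀ a b c, D3 y 0 a b c = D3 f 0 a.1 b.1 c.1 := fun a b c => by
    rw [hy, D3_add (l4.of_le (by norm_num)) (f4'.of_le (by norm_num)), p3, zero_add,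
      D3_lin π (f4.of_le (by norm_num)), map_zero, πa, πa, πa]
  have y5 : ∀ a b c d, D4 y 0 a b c d = D4 f 0 a.1 b.1 c.1 d.1 := fun a b c d => by
    rw [hy, D4_add l4 f4', p4]
    simp only [add_apply, zero_apply, zero_add]
    rw [D4_lin π f4, map_zero, πa, πa, πa, πa]
  obtain ⟨-, -, q2, q3, q4⟩ := LL_jets
  have AL : ContDiffAt ℝ 4 (fun x => A * LL (π x)) 0 := contDiffAt_const.mul L4'
  refine ⟨?_, fun X Y => ?_, fun X Y Z => ?_, fun X Y Z W => ?_⟩
  · have hc : ContinuousOn (fun x => s * Real.exp (y x)) (π ⁻¹' O) :=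
      continuousOn_const.mul (Real.continuous_exp.comp_continuousOn ys.continuousOn)
    refine ⟨(π ⁻¹' O ∩ (fun x => s * Real.exp (y x)) ⁻¹' Iio 1) ∩
      π ⁻¹' {z : B2 | ‖z.1‖ ^ 2 + ‖z.2‖ ^ 2 < 1},
      (hc.isOpen_inter_preimage hO' isOpen_Iio).inter (hB.preimage π.continuous),
      ⟨⟨m0, hs⟩, by simp⟩, ?_⟩
    rw [e]
    refine (contDiffOn_const.mul (LL_smooth.comp π.contDiff.contDiffOn fun _ h => h.2)).add ?_
    refine ContDiffOn.neg (ContDiffOn.log (contDiffOn_const.sub (contDiffOn_const.mul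
      (ys.mono fun _ h => h.1.1).exp)) fun x hx => ?_)
    have : s * Real.exp (y x) < 1 := hx.1.2
    linarith
  · rw [e, D2_add (AL.of_le (by norm_num)) (Fy.of_le (by norm_num)),
      D2_mul (L4'.of_le (by norm_num))]
    simp only [add_apply, smul_apply, smul_eq_mul]
    rw [D2_lin π (L4.of_le (by norm_num)), map_zero, q2,
      D2_comp (F4.of_le (by norm_num)) (y4.of_le (by norm_num)), modF_1 hs, modF_2 hs, hu]
    simp only [y1, y2, πa, P2]
    ring
  · rw [e, D3_add (AL.of_le (by norm_num)) (Fy.of_le (by norm_num)),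
      D3_mul (L4'.of_le (by norm_num))]
    simp only [add_apply, smul_apply, smul_eq_mul]
    rw [D3_lin π (L4.of_le (by norm_num)), map_zero, q3,
      D3_comp (F4.of_le (by norm_num)) (y4.of_le (by norm_num)), modF_1 hs, modF_2 hs, modF_3 hs,
      hu]
    simp only [y1, y2, y3, P3, zero_apply]
    ring
  · rw [e, D4_add AL Fy, D4_mul L4']
    simp only [add_apply, smul_apply, smul_eq_mul]
    rw [D4_lin π L4, map_zero, q4, D4_comp F4 y4, modF_1 hs, modF_2 hs, modF_3 hs, modF_4 hs, hu]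
    simp only [y1, y2, y3, y5, πa, P4]
    ring

end Vale.Agent.P250
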