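import Vale.Agent.P250.JetA

set_option maxSynthPendingDepth 3

namespace Vale.Agent.P250

open scoped ContDiff Topology ComplexConjugate
open Complex Set Filter Vale.Agent.P255

theorem NFc_pd {P E G : Type} [NormedAddCommGroup P] [NormedSpace ℝ P] [NormedAddCommGroup E]
    [NormedSpace ℝ E] [NormedAddCommGroup G] [NormedSpace ℝ G] {F : P × E → G} {W : Set (P × E)}
    (hW : IsOpen W) (hF : ContDiffOn ℝ ∞ F W) :
    ContDiffOn ℝ ∞ (fun x : P × E => fderiv ℝ (fun z => F (x.1, z)) x.2) W := by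
  intro x hx
  refine ContDiffAt.contDiffWithinAt ?_
  have h1 : ContDiffAt ℝ ∞ F x := hF.contDiffAt (hW.mem_nhds hx)
  refine ContDiffAt.fderiv (f := fun (x : P × E) (z : E) => F (x.1, z)) (g := Prod.snd) (n := ∞)
    ?_ contDiffAt_snd (by simp)
  have h2 : ContDiffAt ℝ ∞ (fun y : (P × E) × E => (y.1.1, y.2)) (x, x.2) :=
    (contDiffAt_fst.fst).prodMk contDiffAt_snd
  exact ContDiffAt.comp (g := F) (x, x.2) h1 h2

theorem NFc_bd {P E G : Type} [NormedAddCommGroup P] [NormedAddCommGroup E]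
    [NormedAddCommGroup G] {F : P × E → G} {W : Set (P × E)} (hF : ContinuousOn F W)
    {K : Set P} (hK : IsCompact K) (hKW : ∀ q ∈ K, (q, (0 : E)) ∈ W) :
    ∃ C : ℝ, ∀ q ∈ K, ‖F (q, 0)‖ ≤ C :=
  hK.exists_bound_of_continuousOn (f := fun q => F (q, 0))
    (hF.comp (continuous_id.prodMk continuous_const).continuousOn hKW)

/-- uniform bounds for the jets of a compact family -/
theorem jet_bound {P E : Type} [NormedAddCommGroup P] [NormedSpace ℝ P] [NormedAddCommGroup E]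
    [NormedSpace ℝ E] {Ξ : P × E → ℝ} {W : Set (P × E)} (hW : IsOpen W) (hΞ : ContDiffOn ℝ ∞ Ξ W)
    {K : Set P} (hK : IsCompact K) (hKW : ∀ q ∈ K, (q, (0 : E)) ∈ W) :
    ∃ C : ℝ, ∀ q ∈ K, ‖D2 (fun z => Ξ (q, z)) 0‖ ≤ C ∧ ‖D3 (fun z => Ξ (q, z)) 0‖ ≤ C ∧
      ‖D4 (fun z => Ξ (q, z)) 0‖ ≤ C := by
  have h2 := NFc_pd hW (NFc_pd hW hΞ)
  have h3 := NFc_pd hW h2
  have h4 := NFc_pd hW h3
  obtain ⟨C2, b2⟩ := NFc_bd h2.continuousOn hK hKW
  obtain ⟨C3, b3⟩ := NFc_bd h3.continuousOn hK hKW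
  obtain ⟨C4, b4⟩ := NFc_bd h4.continuousOn hK hKW
  refine ⟨max C2 (max C3 C4), fun q hq => ⟨?_, ?_, ?_⟩⟩
  · exact (b2 q hq).trans (le_max_left _ _)
  · exact (b3 q hq).trans ((le_max_left _ _).trans (le_max_right _ _))
  · exact (b4 q hq).trans ((le_max_right _ _).trans (le_max_right _ _))

theorem LL_smooth : ContDiffOn ℝ ∞ LL {z | ‖z.1‖ ^ 2 + ‖z.2‖ ^ 2 < 1} := by
  have h : ContDiff ℝ ∞ fun z : B2 => 1 - (‖z.1‖ ^ 2 + ‖z.2‖ ^ 2) :=
    contDiff_const.sub ((contDiff_fst.norm_sq ℂ).add (contDiff_snd.norm_sq ℂ))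
  exact (h.contDiffOn.log fun z hz => (sub_pos.mpr hz).ne').neg

end Vale.Agent.P250
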