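import Vale.Agent.P250.CNat
import Vale.Agent.P250.KForm
import Vale.Agent.P250.ModJ
import Vale.Agent.P250.AlgCv
import Vale.Agent.P250.Top

set_option maxSynthPendingDepth 3

namespace Vale.Agent.P250

open scoped ContDiff Topology ComplexConjugate
open Complex Set Filter Vale.Agent.P255

/-- the chart centred at a point of the bundle -/
noncomputable def pinPsi (θ : B2 → B2) (h : B2 → ℂ) (w : ℂ) (y : C3) : C3 :=
  (θ y.1, w * Complex.exp (y.2 - (h y.1 - h 0) / 2))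

theorem pinA_smooth {θ : B2 → B2} {h : B2 → ℂ} {O : Set B2} (hθ : ContDiffOn ℂ ∞ θ O)
    (hh : ContDiffOn ℂ ∞ h O) (w : ℂ) : ContDiffOn ℂ ∞ (pinPsi θ h w) (Prod.fst ⁻¹' O) := by
  have h1 : ContDiffOn ℂ ∞ (fun y : C3 => θ y.1) (Prod.fst ⁻¹' O) :=
    hθ.comp contDiffOn_fst fun _ hy => hy
  have h2 : ContDiffOn ℂ ∞ (fun y : C3 => h y.1) (Prod.fst ⁻¹' O) :=
    hh.comp contDiffOn_fst fun _ hy => hy
  exact h1.prodMk (contDiffOn_const.mul
    (contDiffOn_snd.sub ((h2.sub contDiffOn_const).div_const 2)).cexp)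

theorem pinA_pot {φ : B2 → ℝ} {C : ℝ} {p : B2} {O θ h k f s₁ s₂}
    (hn : NF φ C p O θ h k f s₁ s₂) (A : ℝ) (w : ℂ) {y : C3} (hy : y.1 ∈ O) :
    Pot A φ (pinPsi θ h w y) = Mod A (‖w‖ ^ 2 * Real.exp (φ p)) f y + A * (k y.1).re := by
  have e0 : φ p = (h 0).re := by rw [← hn.ctr, hn.eφ 0 hn.mem, hn.f0, zero_add]
  have e : ‖w * Complex.exp (y.2 - (h y.1 - h 0) / 2)‖ ^ 2 * Real.exp (φ (θ y.1)) =
      ‖w‖ ^ 2 * Real.exp (φ p) * Real.exp (2 * y.2.re + f y.1) := by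
    rw [norm_mul, mul_pow, Complex.norm_exp, ← Real.exp_nat_mul, mul_assoc, mul_assoc,
      ← Real.exp_add, ← Real.exp_add, hn.eφ _ hy, e0]
    congr 2
    simp only [sub_re, div_ofNat_re]
    push_cast
    ring
  simp only [Pot, Mod, pinPsi]
  rw [e, hn.et _ hy]
  ring

theorem pinch_at {φ : B2 → ℝ} {A C a b : ℝ} (hφ : ContDiffOn ℝ ∞ φ HH) (hA : 1 ≤ A)
    (hK : IsKahlerOn (MM φ) (levi (Pot A φ))) (hal : AlgOK C A a b) {x : C3} (hx : x ∈ MM φ)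
    (hw : x.2 ≠ 0) {O θ h k f s₁ s₂} (hn : NF φ C x.1 O θ h k f s₁ s₂) (X Y : C3) :
    -b * (levi (Pot A φ) x X X * levi (Pot A φ) x Y Y - levi (Pot A φ) x X Y ^ 2) ≤
        num (levi (Pot A φ)) x X Y ∧
      num (levi (Pot A φ)) x X Y ≤
        -a * (levi (Pot A φ) x X X * levi (Pot A φ) x Y Y - levi (Pot A φ) x X Y ^ 2) := by
  have two : (2 : WithTop ℕ∞) ≤ ∞ := WithTop.coe_le_coe.2 (le_top : (2 : ℕ∞) ≤ ⊤)
  obtain ⟨s, hs⟩ : ∃ s, s = ‖x.2‖ ^ 2 * Real.exp (φ x.1) := ⟨_, rfl⟩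
  have s0 : 0 < s := by
    have := norm_pos_iff.2 hw
    rw [hs]; positivity
  have s1 : s < 1 := by rw [hs]; exact hx.2
  have u0 : 0 < s / (1 - s) := div_pos s0 (by linarith)
  obtain ⟨⟨W, hW, hW0, hWs⟩, j2, j3, j4⟩ :=
    mod_jets (A := A) hn.op hn.mem hn.hf hn.f0 hn.f1 hn.f2 s0 s1
  have hM := mm_open hφ.continuousOn
  have hP := pot_smooth hφ A
  have hO : IsOpen (Prod.fst ⁻¹' O : Set C3) := hn.op.preimage continuous_fst
  have hΨ := pinA_smooth hn.hθ hn.hh x.2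
  have e0 : pinPsi θ h x.2 0 = x := by
    simp [pinPsi, hn.ctr]
  have hU : IsOpen (W ∩ Prod.fst ⁻¹' O) := hW.inter hO
  have hU0 : (0 : C3) ∈ W ∩ Prod.fst ⁻¹' O := ⟨hW0, hn.mem⟩
  have hG : ∀ X Y, levi (Mod A s f) 0 X Y = Gm A (s / (1 - s)) s₁ s₂ X Y := fun X Y => by
    rw [levi_apply, j2, j2, Gm]
  have l₁ := hn.jb.l₁
  have l₂ := hn.jb.l₂
  have hpos : ∀ v, v ≠ 0 → 0 < levi (Mod A s f) 0 v v := fun v hv => by
    rw [hG]; exact Gm_pos (by linarith) u0 (by linarith) (by linarith) hv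
  have hiso : ∀ᶠ y in 𝓝 (0 : C3), ∀ v w, levi (Pot A φ) (pinPsi θ h x.2 y)
      (fderiv ℝ (pinPsi θ h x.2) y v) (fderiv ℝ (pinPsi θ h x.2) y w) = levi (Mod A s f) y v w := by
    have c0 : ContinuousAt (pinPsi θ h x.2) 0 :=
      (hΨ.contDiffAt (hO.mem_nhds hn.mem)).continuousAt
    have c1 : ∀ᶠ y in 𝓝 (0 : C3), pinPsi θ h x.2 y ∈ MM φ :=
      c0.eventually (by rw [e0]; exact hM.mem_nhds hx)
    filter_upwards [c1, hU.mem_nhds hU0] with y y1 y2 v w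
    rw [← levi_hol ((hΨ.contDiffAt (hO.mem_nhds y2.2)).of_le two)
      ((hP.contDiffAt (hM.mem_nhds y1)).of_le two)]
    have hk : ContDiffAt ℂ 2 (fun z : C3 => k z.1) y :=
      ((hn.hk.contDiffAt (hn.op.mem_nhds y2.2)).of_le two).comp y contDiffAt_fst
    have hk' : ContDiffAt ℝ 2 (fun z : C3 => (k z.1).re) y :=
      reCLM.contDiff.contDiffAt.comp y (hk.restrict_scalars ℝ)
    have ee : (fun z => Pot A φ (pinPsi θ h x.2 z)) =ᶠ[𝓝 y]
        fun z => Mod A s f z + A * (k z.1).re := by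
      filter_upwards [hO.mem_nhds y2.2] with z hz
      rw [pinA_pot hn A x.2 hz, hs]
    rw [levi_congr ee, levi_add ((hWs.contDiffAt (hW.mem_nhds y2.1)).of_le two)
      (contDiffAt_const.mul hk'), levi_mul hk', levi_re hk]
    simp
  have h0 := hiso.self_of_nhds
  rw [e0] at h0
  have hinj : Function.Injective (fderiv ℝ (pinPsi θ h x.2) 0 : C3 →ₗ[ℝ] C3) := by
    rw [injective_iff_map_eq_zero]
    intro v hv
    by_contra hne
    have h1 := hpos v hne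
    have hv' : fderiv ℝ (pinPsi θ h x.2) 0 v = 0 := hv
    rw [← h0, hv'] at h1
    simp at h1
  have hsurj := LinearMap.injective_iff_surjective.1 hinj
  obtain ⟨X', hX⟩ := hsurj X
  obtain ⟨Y', hY⟩ := hsurj Y
  have hX' : X = fderiv ℝ (pinPsi θ h x.2) 0 X' := hX.symm
  have hY' : Y = fderiv ℝ (pinPsi θ h x.2) 0 Y' := hY.symm
  have hWU : ContDiffOn ℝ ∞ (Mod A s f) (W ∩ Prod.fst ⁻¹' O) := hWs.mono inter_subset_left
  have hnat := num_nat hU hU0 (levi_smooth hU hWU)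
    (fun y hy v w => levi_symm ((hWU.contDiffAt (hU.mem_nhds hy)).of_le two) v w) hpos hM
    (by rw [e0]; exact hx) hK.smooth hK.symm (by rw [e0]; exact hK.pos x hx)
    ((hΨ.restrict_scalars ℝ).mono inter_subset_right) hiso X' Y'
  rw [e0] at hnat
  have e3 : (fun a b c => D3 (Mod A s f) 0 a b c) = P3 (s / (1 - s)) s₁ s₂ (D3 f 0) := by
    funext a b c; exact j3 a b c
  have e4 : (fun a b c d => D4 (Mod A s f) 0 a b c d) =
      P4 A (s / (1 - s)) s₁ s₂ (D3 f 0) (D4 f 0) := by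
    funext a b c d; exact j4 a b c d
  have hc : ∀ P Q Z, Gm A (s / (1 - s)) s₁ s₂ (chr (levi (Mod A s f)) 0 P Q) Z =
      gamF (P3 (s / (1 - s)) s₁ s₂ (D3 f 0)) P Q Z := fun P Q Z => by
    rw [← hG, kform_chr hW hW0 hWs hpos, e3]
  rw [hX', hY', hnat, h0, h0, h0, kform_num hW hW0 hWs hpos, e4]
  simp only [hG]
  exact hal _ s₁ s₂ _ _ u0 hn.jb X' Y' _ _ _ (hc X' Y') (hc X' X') (hc Y' Y')

end Vale.Agent.P250
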