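import Vale.Agent.P250.PD

set_option maxSynthPendingDepth 3

namespace Vale.Agent.P250

open scoped ContDiff Topology ComplexConjugate
open Complex Set Filter Vale.Agent.P255

variable {E F : Type} [NormedAddCommGroup E] [NormedSpace ℂ E] [NormedAddCommGroup F]
  [NormedSpace ℂ F] [CompleteSpace F]

theorem scv_cauchy {f : E → F} {O : Set E} (hO : IsOpen O) (hf : DifferentiableOn ℂ f O)
    {x v : E} {r K : ℝ} (hr : 0 < r) (hm : ∀ τ : ℂ, ‖τ‖ ≤ r → x + τ • v ∈ O)
    (hK : ∀ τ : ℂ, ‖τ‖ ≤ r → ‖f (x + τ • v)‖ ≤ K) : ‖fderiv ℂ f x v‖ ≤ K / r := by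
  have hl : ∀ τ : ℂ, HasDerivAt (fun s : ℂ => x + s • v) v τ := fun τ => by
    simpa using ((hasDerivAt_id τ).smul_const v).const_add x
  have hd : ∀ τ : ℂ, ‖τ‖ ≤ r →
      HasDerivAt (fun s : ℂ => f (x + s • v)) (fderiv ℂ f (x + τ • v) v) τ := fun τ hτ =>
    (hf.differentiableAt (hO.mem_nhds (hm τ hτ))).hasFDerivAt.comp_hasDerivAt τ (hl τ)
  have h1 : DiffContOnCl ℂ (fun s : ℂ => f (x + s • v)) (Metric.ball 0 r) := by
    refine DifferentiableOn.diffContOnCl ?_
    rw [closure_ball _ hr.ne']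
    exact fun τ hτ => (hd τ (mem_closedBall_zero_iff.mp hτ)).differentiableAt.differentiableWithinAt
  have h2 := Complex.norm_deriv_le_of_forall_mem_sphere_norm_le hr h1
    (fun τ hτ => hK τ (mem_sphere_zero_iff_norm.mp hτ).le)
  rw [(hd 0 (by simpa using hr.le)).deriv] at h2
  simpa using h2

theorem SCV_op {f : E → F} {O : Set E} (hO : IsOpen O) (hf : DifferentiableOn ℂ f O)
    {x y : E} {r s K : ℝ} (hs : 0 < s) (hm : Metric.ball x (r + s) ⊆ O) (hy : y ∈ Metric.ball x r)
    (hK : ∀ z ∈ Metric.ball x (r + s), ‖f z‖ ≤ K) : ‖fderiv ℂ f y‖ ≤ K / s := by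
  have hK0 : 0 ≤ K := (norm_nonneg _).trans (hK y (Metric.ball_subset_ball (by linarith) hy))
  refine ContinuousLinearMap.opNorm_le_of_unit_norm (by positivity) fun v hv => ?_
  have hin : ∀ τ : ℂ, ‖τ‖ ≤ s → y + τ • v ∈ Metric.ball x (r + s) := by
    intro τ hτ
    rw [mem_ball_iff_norm] at hy ⊢
    have : y + τ • v - x = (y - x) + τ • v := by abel
    rw [this]
    refine (norm_add_le _ _).trans_lt ?_
    rw [norm_smul, hv, mul_one]
    linarith
  exact scv_cauchy hO hf hs (fun τ hτ => hm (hin τ hτ)) (fun τ hτ => hK _ (hin τ hτ))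

theorem scv_tsum {ι : Type} {f : ι → E → F} {u : ι → ℝ} {O : Set E} (hO : IsOpen O)
    (hu : Summable u) (hf : ∀ i, DifferentiableOn ℂ (f i) O) (hb : ∀ i, ∀ x ∈ O, ‖f i x‖ ≤ u i) :
    DifferentiableOn ℂ (fun x => ∑' i, f i x) O := by
  intro x hx
  obtain ⟨ε, hε, hb'⟩ := Metric.isOpen_iff.mp hO x hx
  have hm : Metric.ball x (ε / 2 + ε / 2) ⊆ O := by rwa [add_halves]
  have hx' : x ∈ Metric.ball x (ε / 2) := Metric.mem_ball_self (by positivity)
  refine (hasFDerivAt_tsum_of_isPreconnected (u := fun i => u i / (ε / 2))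
    (f' := fun i y => fderiv ℂ (f i) y) (hu.div_const _) Metric.isOpen_ball
    (convex_ball x (ε / 2)).isPreconnected ?_ ?_ hx' ?_ hx').differentiableAt.differentiableWithinAt
  · intro i y hy
    exact ((hf i).differentiableAt
      (hO.mem_nhds (hb' (Metric.ball_subset_ball (by linarith) hy)))).hasFDerivAt
  · intro i y hy
    exact SCV_op hO (hf i) (by positivity) hm hy (fun z hz => hb i z (hm hz))
  · exact Summable.of_norm_bounded hu fun i => hb i x hx

theorem SCV_lim {q : ℕ → E → F} {G : E → F} {O : Set E} (hO : IsOpen O)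
    (hq : ∀ n, DifferentiableOn ℂ (q n) O) {C : ℝ}
    (hb : ∀ n, ∀ x ∈ O, ‖q n x - G x‖ ≤ C * (1 / 2) ^ n) : DifferentiableOn ℂ G O := by
  have hs : Summable fun n : ℕ => 2 * C * (1 / 2 : ℝ) ^ n := summable_geometric_two.mul_left _
  have h1 : ∀ n, ∀ x ∈ O, ‖q (n + 1) x - q n x‖ ≤ 2 * C * (1 / 2 : ℝ) ^ n := by
    intro n x hx
    have e : q (n + 1) x - q n x = (q (n + 1) x - G x) - (q n x - G x) := by abel
    have a0 : 0 ≤ C * (1 / 2 : ℝ) ^ n := (norm_nonneg _).trans (hb n x hx)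
    have a1 := hb (n + 1) x hx
    have a2 := hb n x hx
    rw [pow_succ] at a1
    rw [e]
    refine (norm_sub_le _ _).trans ?_
    linarith
  have h2 := scv_tsum (f := fun n x => q (n + 1) x - q n x) hO hs
    (fun n => (hq (n + 1)).sub (hq n)) h1
  refine ((hq 0).add h2).congr fun x hx => ?_
  have h3 : Summable fun n => ‖q (n + 1) x - q n x‖ :=
    Summable.of_nonneg_of_le (fun n => norm_nonneg _) (fun n => h1 n x hx) hs
  have h4 : Tendsto (fun n => q n x) atTop (𝓝 (G x)) := by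
    rw [tendsto_iff_norm_sub_tendsto_zero]
    refine squeeze_zero (fun n => norm_nonneg _) (fun n => hb n x hx) ?_
    simpa using (tendsto_pow_atTop_nhds_zero_of_lt_one (r := (1 / 2 : ℝ)) (by norm_num)
      (by norm_num)).const_mul C
  have h5 : HasSum (fun n => q (n + 1) x - q n x) (G x - q 0 x) := by
    rw [hasSum_iff_tendsto_nat_of_summable_norm h3]
    simp only [Finset.sum_range_sub (fun n => q n x)]
    exact h4.sub_const _
  show G x = q 0 x + ∑' n, (q (n + 1) x - q n x)
  rw [h5.tsum_eq, add_sub_cancel]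

theorem SCV_dir {f : E → F} {O : Set E} (hO : IsOpen O) (hf : DifferentiableOn ℂ f O) (v : E) :
    DifferentiableOn ℂ (fun p => fderiv ℂ f p v) O := by
  intro x hx
  have hc : ContinuousAt f x := (hf.differentiableAt (hO.mem_nhds hx)).continuousAt
  obtain ⟨ε, hε, hb⟩ := Metric.eventually_nhds_iff_ball.mp
    ((hc.norm.eventually_lt_const (lt_add_one ‖f x‖)).and (hO.eventually_mem hx))
  set K := ‖f x‖ + 1 with hKd
  have hK0 : 0 < K := by positivity
  set r := ε / 2 with hr
  have hr0 : 0 < r := by positivity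
  have hεr : r + r = ε := add_halves ε
  have hm : Metric.ball x (r + r) ⊆ O := fun z hz => (hb z (hεr ▸ hz)).2
  have hK : ∀ z ∈ Metric.ball x (r + r), ‖f z‖ ≤ K := fun z hz => (hb z (hεr ▸ hz)).1.le
  have hsub : ∀ p ∈ Metric.ball x r, Metric.ball p r ⊆ Metric.ball x (r + r) := fun p hp =>
    Metric.ball_subset_ball' (by linarith [Metric.mem_ball.mp hp])
  have key : ∀ p ∈ Metric.ball x r, ∀ h : E, ‖h‖ < r →
      ‖f (p + h) - f p - fderiv ℂ f p h‖ ≤ 3 * K * (‖h‖ / r) ^ 2 := by
    intro p hp h hh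
    have hD := SCV_op hO hf hr0 hm hp hK
    have hp' : p ∈ Metric.ball x (r + r) := Metric.ball_subset_ball (by linarith) hp
    have hfp := (hf.differentiableAt (hO.mem_nhds (hm hp'))).hasFDerivAt
    have h1 := Complex.dist_le_mul_div_pow_of_mapsTo_ball_of_isLittleO
      (f := fun z => f z - fderiv ℂ f p (z - p)) (c := p) (z := p + h) (R₁ := r) (R₂ := 3 * K)
      (n := 1) ((hf.mono ((hsub p hp).trans hm)).sub
        ((fderiv ℂ f p).differentiable.comp (differentiable_id.sub_const p)).differentiableOn)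
      (fun z hz => by
        rw [mem_closedBall_iff_norm]
        have e : f z - fderiv ℂ f p (z - p) - (f p - fderiv ℂ f p (p - p)) =
            f z - f p - fderiv ℂ f p (z - p) := by
          rw [sub_self, map_zero]; abel
        rw [e]
        have a1 := hK z (hsub p hp hz)
        have a2 := hK p hp'
        have a3 : ‖fderiv ℂ f p (z - p)‖ ≤ K := by
          refine (ContinuousLinearMap.le_opNorm _ _).trans ?_
          have a4 : ‖z - p‖ ≤ r := (mem_ball_iff_norm.mp hz).le
          calc ‖fderiv ℂ f p‖ * ‖z - p‖ ≤ K / r * r := by gcongr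
            _ = K := div_mul_cancel₀ _ hr0.ne'
        have a5 := norm_sub_le (f z - f p) (fderiv ℂ f p (z - p))
        have a6 := norm_sub_le (f z) (f p)
        linarith)
      (by
        have := hfp.isLittleO.norm_right
        refine this.congr (fun z => ?_) (fun z => (pow_one _).symm)
        rw [sub_self, map_zero]
        abel)
      (by rw [mem_ball_iff_norm, add_sub_cancel_left]; exact hh)
    rw [dist_eq_norm, dist_eq_norm, add_sub_cancel_left, sub_self, map_zero, sub_zero] at h1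
    rw [sub_right_comm]
    exact h1
  set t := r / (‖v‖ + 1) with ht
  have ht0 : 0 < t := by positivity
  have htv : t * ‖v‖ < r := by
    rw [ht, div_mul_eq_mul_div, div_lt_iff₀ (by positivity)]
    nlinarith
  have hn : ∀ n : ℕ, ‖((t * (1 / 2) ^ n : ℝ) : ℂ) • v‖ = t * (1 / 2) ^ n * ‖v‖ := by
    intro n
    rw [norm_smul, Complex.norm_real, Real.norm_of_nonneg (by positivity)]
  have hn' : ∀ n : ℕ, ‖((t * (1 / 2) ^ n : ℝ) : ℂ) • v‖ < r := by
    intro n
    rw [hn]
    have : (1 / 2 : ℝ) ^ n ≤ 1 := pow_le_one₀ (by norm_num) (by norm_num)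
    calc t * (1 / 2) ^ n * ‖v‖ ≤ t * 1 * ‖v‖ := by gcongr
      _ < r := by rwa [mul_one]
  have hl := SCV_lim (O := Metric.ball x r) (G := fun p => fderiv ℂ f p v)
    (q := fun n p => (((t * (1 / 2) ^ n : ℝ) : ℂ))⁻¹ •
      (f (p + ((t * (1 / 2) ^ n : ℝ) : ℂ) • v) - f p)) (C := 3 * K * t * (‖v‖ / r) ^ 2)
    Metric.isOpen_ball (fun n => by
      refine DifferentiableOn.const_smul (DifferentiableOn.sub ?_
        (hf.mono ((Metric.ball_subset_ball (by linarith)).trans hm))) _
      refine hf.comp (differentiable_id.add_const _).differentiableOn fun p hp => hm ?_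
      refine hsub p hp ?_
      rw [mem_ball_iff_norm]
      simpa using hn' n)
    (fun n p hp => by
      have hs0 : (0 : ℝ) < t * (1 / 2) ^ n := by positivity
      have hs1 : (((t * (1 / 2) ^ n : ℝ) : ℂ)) ≠ 0 := Complex.ofReal_ne_zero.mpr hs0.ne'
      have h1 := key p hp _ (hn' n)
      rw [hn, map_smul] at h1
      have e : (((t * (1 / 2) ^ n : ℝ) : ℂ))⁻¹ • (f (p + ((t * (1 / 2) ^ n : ℝ) : ℂ) • v) - f p) -
          fderiv ℂ f p v = (((t * (1 / 2) ^ n : ℝ) : ℂ))⁻¹ •
            (f (p + ((t * (1 / 2) ^ n : ℝ) : ℂ) • v) - f p -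
              ((t * (1 / 2) ^ n : ℝ) : ℂ) • fderiv ℂ f p v) := by
        rw [smul_sub _ _ (_ • fderiv ℂ f p v), inv_smul_smul₀ hs1]
      rw [e, norm_smul, norm_inv, Complex.norm_real, Real.norm_of_nonneg hs0.le,
        inv_mul_le_iff₀ hs0]
      refine h1.trans (le_of_eq ?_)
      ring)
  exact (hl.differentiableAt (Metric.ball_mem_nhds x hr0)).differentiableWithinAt

theorem scv_smooth [FiniteDimensional ℂ E] {f : E → F} {O : Set E} (hO : IsOpen O)
    (hf : DifferentiableOn ℂ f O) : ContDiffOn ℂ ∞ f O := by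
  rw [contDiffOn_infty]
  intro n
  induction n generalizing f with
  | zero => simpa using hf.continuousOn
  | succ n ih =>
    rw [Nat.cast_succ, contDiffOn_succ_iff_fderiv_of_isOpen hO]
    refine ⟨hf, by simp, contDiffOn_clm_apply.mpr fun v => ih (SCV_dir hO hf v)⟩

end Vale.Agent.P250
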