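import Vale.Agent.P255.Defs

/-! Kähler metrics on open subsets of a complex normed space, completeness, pinching,
biholomorphisms onto bounded domains. -/

namespace Vale.Agent.P250.St

open scoped ContDiff
open Vale.Agent.P255 Complex

variable {V : Type} [NormedAddCommGroup V] [NormedSpace ℝ V] [NormedSpace ℂ V]

/-- `g` is a smooth Riemannian metric on `M` -/
def Riem (M : Set V) (g : V → V →L[ℝ] V →L[ℝ] ℝ) : Prop :=
  ContDiffOn ℝ ∞ g M ∧ (∀ x ∈ M, ∀ v w, g x v w = g x w v) ∧ ∀ x ∈ M, ∀ v, v ≠ 0 → 0 < g x v v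

/-- `g` is Hermitian for the complex structure -/
def Herm (M : Set V) (g : V → V →L[ℝ] V →L[ℝ] ℝ) : Prop :=
  ∀ x ∈ M, ∀ v w, g x (I • v) (I • w) = g x v w

/-- the derivative in the direction `u` of the Kähler form `ω(v, w) = g(i v, w)` -/
noncomputable def dom (g : V → V →L[ℝ] V →L[ℝ] ℝ) (x u v w : V) : ℝ :=
  fderiv ℝ (fun y => g y (I • v) w) x u

/-- `g` is a Kähler metric on `M`: Riemannian, Hermitian, with closed Kähler form -/
def Kahler (M : Set V) (g : V → V →L[ℝ] V →L[ℝ] ℝ) : Prop :=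
  Riem M g ∧ Herm M g ∧ ∀ x ∈ M, ∀ u v w, dom g x u v w + dom g x v w u + dom g x w u v = 0

/-- geodesic completeness: every initial condition has a geodesic `ℝ → M` -/
def Complete (M : Set V) (g : V → V →L[ℝ] V →L[ℝ] ℝ) : Prop :=
  ∀ x ∈ M, ∀ v, ∃ c : ℝ → V, IsGeodesic g c ∧ (∀ s, c s ∈ M) ∧ c 0 = x ∧ deriv c 0 = v

/-- sectional curvature of the real plane spanned by `X, Y` at `x` -/
noncomputable def sec (g : V → V →L[ℝ] V →L[ℝ] ℝ) (x X Y : V) : ℝ :=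
  g x (curv g x X Y Y) X / (g x X X * g x Y Y - g x X Y ^ 2)

/-- all real sectional curvatures lie in `[-b, -a]` with `0 < a ≤ b` -/
def Pinched (M : Set V) (g : V → V →L[ℝ] V →L[ℝ] ℝ) : Prop :=
  ∃ a b : ℝ, 0 < a ∧ a ≤ b ∧ ∀ x ∈ M, ∀ X Y : V, LinearIndependent ℝ ![X, Y] →
    -b ≤ sec g x X Y ∧ sec g x X Y ≤ -a

/-- `M` is biholomorphic to a bounded domain -/
def BiholToBounded (M : Set V) : Prop :=
  ∃ (Ω : Set V) (F G : V → V), IsOpen Ω ∧ IsConnected Ω ∧ Bornology.IsBounded Ω ∧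
    DifferentiableOn ℂ F M ∧ DifferentiableOn ℂ G Ω ∧ Set.MapsTo F M Ω ∧ Set.MapsTo G Ω M ∧
    (∀ x ∈ M, G (F x) = x) ∧ ∀ y ∈ Ω, F (G y) = y

end Vale.Agent.P250.St
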